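import Crest.Agent.R149.Pair

/-! Task 149-E: the deterministic cluster estimate. -/

set_option autoImplicit false
open MeasureTheory Crest.ProbabilityR.Continuum
open scoped ENNReal BigOperators

namespace Crest.Agent.R149

namespace E

open Finset

/-- shell distances -/
def shell (ε r : ℝ) : Prop := 13 / 10 * ε ≤ r ∧ r ≤ 3 / 2 * ε

lemma no_five {ε : ℝ} (hε : 0 < ε) (x : Fin 5 → Pt)
    (h : ∀ i j, i ≠ j → shell ε (dist (x i) (x j))) : False := by
  set w : Fin 5 → Fin 4 → ℝ := fun i => Fin.cons 1 fun k => x i k with hw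
  have hnl : ¬ LinearIndependent ℝ w := by
    intro hl
    have := hl.fintype_card_le_finrank
    simp at this
  obtain ⟨c, hc, i₀, hi₀⟩ := Fintype.not_linearIndependent_iff.1 hnl
  have h0 : ∑ i, c i = 0 := by
    have := congrFun hc 0
    simpa [hw, Finset.sum_apply] using this
  have h1 : ∀ k : Fin 3, ∑ i, c i * x i k = 0 := by
    intro k
    have := congrFun hc k.succ
    simpa [hw, Finset.sum_apply] using this
  have hd : ∀ i j, dist (x i) (x j) ^ 2 = ∑ k, (x i k - x j k) ^ 2 := by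
    intro i j
    rw [EuclideanSpace.dist_eq, Real.sq_sqrt (sum_nonneg fun k _ => sq_nonneg _)]
    simp [Real.dist_eq, sq_abs]
  have h2 : ∑ i, ∑ j, c i * c j * dist (x i) (x j) ^ 2 = 0 := by
    simp_rw [hd, mul_sum]
    have : ∀ k : Fin 3, ∑ i, ∑ j, c i * c j * (x i k - x j k) ^ 2 = 0 := by
      intro k
      have e : ∑ i, ∑ j, c i * c j * (x i k - x j k) ^ 2 =
          2 * (∑ i, c i) * (∑ j, c j * x j k ^ 2) - 2 * (∑ i, c i * x i k) ^ 2 := by
        simp only [Fin.sum_univ_five]; ring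
      rw [e, h0, h1]; ring
    calc ∑ i, ∑ j, ∑ k, c i * c j * (x i k - x j k) ^ 2
        = ∑ k : Fin 3, ∑ i, ∑ j, c i * c j * (x i k - x j k) ^ 2 := by
          rw [sum_comm (s := univ) (t := univ)
            (f := fun (k : Fin 3) i => ∑ j, c i * c j * (x i k - x j k) ^ 2)]
          exact sum_congr rfl fun i _ => sum_comm
      _ = 0 := by simp [this]
  have h3 : ∀ i j, c i * c j * dist (x i) (x j) ^ 2 ≤
      c i * c j * (197 / 100 * ε ^ 2) + (c i ^ 2 + c j ^ 2) * (14 / 100 * ε ^ 2) -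
        if i = j then c i ^ 2 * (225 / 100 * ε ^ 2) else 0 := by
    intro i j
    split_ifs with hij
    · subst hij; simp; nlinarith
    · obtain ⟨ha, hb⟩ := h i j hij
      have ha' : (13 / 10 * ε) ^ 2 ≤ dist (x i) (x j) ^ 2 := pow_le_pow_left₀ (by positivity) ha 2
      have hb' : dist (x i) (x j) ^ 2 ≤ (3 / 2 * ε) ^ 2 := pow_le_pow_left₀ dist_nonneg hb 2
      nlinarith [mul_nonneg (sq_nonneg (c i - c j)) (sub_nonneg.2 ha'),
        mul_nonneg (sq_nonneg (c i + c j)) (sub_nonneg.2 hb')]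
  have h4 := sum_le_sum fun i (_ : i ∈ univ) => sum_le_sum fun j (_ : j ∈ univ) => h3 i j
  rw [h2] at h4
  simp only [sum_sub_distrib, sum_ite_eq, mem_univ, if_true] at h4
  have h5 : 0 < ∑ i, c i ^ 2 :=
    sum_pos' (fun i _ => sq_nonneg _) ⟨i₀, mem_univ _, by positivity⟩
  have e : ∑ i, ∑ j, (c i * c j * (197 / 100 * ε ^ 2) + (c i ^ 2 + c j ^ 2) * (14 / 100 * ε ^ 2)) -
      ∑ i, c i ^ 2 * (225 / 100 * ε ^ 2) =
      (∑ i, c i) ^ 2 * (197 / 100 * ε ^ 2) - (∑ i, c i ^ 2) * (85 / 100 * ε ^ 2) := by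
    simp only [Fin.sum_univ_five]; ring
  rw [e, h0] at h4
  have := mul_pos h5 (by positivity : 0 < 85 / 100 * ε ^ 2)
  linarith

open Classical in
lemma turan {ι : Type} [DecidableEq ι] {ε : ℝ} (hε : 0 < ε) (x : ι → Pt) (n : ℕ) :
    ∀ S : Finset ι, #S = n → (n : ℝ) ^ 2 ≤
      4 * ∑ i ∈ S, ∑ j ∈ S, (if shell ε (dist (x i) (x j)) then (0 : ℝ) else 1) := by
  induction n using Nat.strong_induction_on with
  | _ n ih =>
  intro S hS
  rcases S.eq_empty_or_nonempty with h | ⟨i₀, hi₀⟩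
  · subst h; simp at hS; subst hS; simp
  obtain ⟨C, hCm⟩ : ∃ C : Finset (Finset ι), ∀ K, K ∈ C ↔
      K ⊆ S ∧ ∀ i ∈ K, ∀ j ∈ K, i ≠ j → shell ε (dist (x i) (x j)) :=
    ⟨S.powerset.filter fun K => ∀ i ∈ K, ∀ j ∈ K, i ≠ j → shell ε (dist (x i) (x j)),
      fun K => by simp⟩
  have h1 : {i₀} ∈ C := by simp [hCm, hi₀]
  obtain ⟨K, hK, hmax⟩ := exists_max_image C card ⟨_, h1⟩
  obtain ⟨hKS, hKc⟩ := (hCm K).1 hK
  have hk1 : 1 ≤ #K := by simpa using hmax _ h1
  have hk4 : #K ≤ 4 := by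
    by_contra hlt
    obtain ⟨K', hK', hc⟩ := exists_subset_card_eq (s := K) (n := 5) (by omega)
    set e := (equivFinOfCardEq hc).symm
    exact no_five hε (fun i => x (e i)) fun i j hij =>
      hKc _ (hK' (e i).2) _ (hK' (e j).2) fun h => hij (e.injective (Subtype.ext h))
  have hout : ∀ i ∈ S \ K, ∃ j ∈ K, ¬ shell ε (dist (x i) (x j)) := by
    intro i hi
    by_contra hcon
    push Not at hcon
    have hi' := mem_sdiff.1 hi
    have : insert i K ∈ C := by
      refine (hCm _).2 ⟨insert_subset hi'.1 hKS, fun a ha b hb hab => ?_⟩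
      rcases mem_insert.1 ha with rfl | ha' <;> rcases mem_insert.1 hb with rfl | hb'
      · exact absurd rfl hab
      · exact hcon b hb'
      · rw [dist_comm]; exact hcon a ha'
      · exact hKc a ha' b hb' hab
    have := hmax _ this
    rw [card_insert_of_notMem hi'.2] at this
    omega
  set f : ι → ι → ℝ := fun i j => if shell ε (dist (x i) (x j)) then (0 : ℝ) else 1 with hf
  have hf0 : ∀ i j, 0 ≤ f i j := fun i j => by simp only [hf]; split_ifs <;> norm_num
  have hcard : #(S \ K) + #K = n := by rw [card_sdiff_add_card_eq_card hKS, hS]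
  have hI := ih #(S \ K) (by omega) (S \ K) rfl
  have hA : (#(S \ K) : ℝ) ≤ ∑ i ∈ S \ K, ∑ j ∈ K, f i j := by
    rw [card_eq_sum_ones]; push_cast
    refine sum_le_sum fun i hi => ?_
    obtain ⟨j, hj, hn⟩ := hout i hi
    refine le_trans ?_ (single_le_sum (fun j _ => hf0 i j) hj)
    simp [hf, hn]
  have hB : ∑ i ∈ K, ∑ j ∈ S \ K, f i j = ∑ i ∈ S \ K, ∑ j ∈ K, f i j := by
    rw [sum_comm]; simp only [hf, dist_comm]
  have hC : (#K : ℝ) ≤ ∑ i ∈ K, ∑ j ∈ K, f i j := by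
    rw [card_eq_sum_ones]; push_cast
    refine sum_le_sum fun i hi => ?_
    refine le_trans ?_ (single_le_sum (fun j _ => hf0 i j) hi)
    have : ¬ shell ε 0 := fun h => by linarith [h.1]
    simp [hf, this]
  have hsplit : ∑ i ∈ S, ∑ j ∈ S, f i j = ∑ i ∈ S \ K, ∑ j ∈ S \ K, f i j +
      ∑ i ∈ S \ K, ∑ j ∈ K, f i j + (∑ i ∈ K, ∑ j ∈ S \ K, f i j + ∑ i ∈ K, ∑ j ∈ K, f i j) := by
    rw [← sum_add_distrib, ← sum_add_distrib, ← sum_sdiff hKS]
    simp only [sum_sdiff hKS]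
  change (n : ℝ) ^ 2 ≤ 4 * ∑ i ∈ S, ∑ j ∈ S, f i j
  change (#(S \ K) : ℝ) ^ 2 ≤ 4 * ∑ i ∈ S \ K, ∑ j ∈ S \ K, f i j at hI
  rw [hsplit, hB, ← hcard]
  have h4 : (#K : ℝ) ≤ 4 := by exact_mod_cast hk4
  have h5 : (0 : ℝ) ≤ #K := Nat.cast_nonneg _
  have h6 : (0 : ℝ) ≤ #(S \ K) := Nat.cast_nonneg _
  push_cast
  nlinarith [mul_nonneg h6 (sub_nonneg.2 h4), mul_nonneg h5 (sub_nonneg.2 h4)]

lemma cell_est {ε r₁ : ℝ} {v : ℝ → ℝ} (hv : Shape ε r₁ v) (hε : 0 < ε) (t : Cfg)
    (ht : ∀ a ∈ t, ∀ b ∈ t, dist a b < 1) (h1 : 1 ≤ t.card) :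
    0 ≤ 3 * ((t.card : ℝ) - 1) + En v t ∧
      (t.card : ℝ) ^ 2 ≤ 16 + (3 * ((t.card : ℝ) - 1) + En v t) ∧
      0 ≤ t.card + 4 / 9 * En v t := by
  classical
  obtain ⟨x, hx⟩ := exists_mk t
  have hxt : ∀ i, x i ∈ t := fun i => by rw [← hx]; exact (mem_mk x _).2 ⟨i, rfl⟩
  have hE : En v t = (∑ i, ∑ j ∈ univ.erase i, v (dist (x i) (x j))) / 2 := by
    conv_lhs => rw [← hx]
    exact En_map v univ x
  generalize t.card = n at *
  set f : Fin n → Fin n → ℝ := fun i j => if shell ε (dist (x i) (x j)) then (0 : ℝ) else 1 with hf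
  have hT := turan hε x n univ (by simp)
  change (n : ℝ) ^ 2 ≤ 4 * ∑ i, ∑ j, f i j at hT
  have hf0 : ∀ i j, 0 ≤ f i j := fun i j => by simp only [hf]; split_ifs <;> norm_num
  have hdiag : ∀ i, f i i = 1 := fun i => by
    have : ¬ shell ε 0 := fun h => by linarith [h.1]
    simp [hf, this]
  set M := ∑ i, ∑ j ∈ univ.erase i, f i j with hM
  have hM0 : 0 ≤ M := sum_nonneg fun i _ => sum_nonneg fun j _ => hf0 i j
  have hTM : ∑ i, ∑ j, f i j = M + n := by
    have : ∀ i, ∑ j, f i j = ∑ j ∈ univ.erase i, f i j + 1 := fun i => by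
      rw [← hdiag i, sum_erase_add _ _ (mem_univ i)]
    simp only [this, sum_add_distrib, hM]; simp
  have hlow : 203 / 2 * M - 3 / 2 * (n * (n - 1)) ≤ ∑ i, ∑ j ∈ univ.erase i, v (dist (x i) (x j)) := by
    have : ∑ i : Fin n, ∑ j ∈ univ.erase i, (203 / 2 * f i j - 3 / 2) =
        203 / 2 * M - 3 / 2 * (n * (n - 1)) := by
      simp only [sum_sub_distrib, ← mul_sum, hM, sum_const, card_erase_of_mem (mem_univ _),
        card_univ, Fintype.card_fin, nsmul_eq_mul]
      rw [Nat.cast_sub h1]; push_cast; ring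
    rw [← this]
    refine sum_le_sum fun i _ => sum_le_sum fun j _ => ?_
    simp only [hf]
    split_ifs with hs
    · linarith [hv.low (dist (x i) (x j))]
    · have := hv.core _ dist_nonneg (ht _ (hxt i) _ (hxt j)) (by
        unfold shell at hs; by_contra hc; push Not at hc; exact hs hc)
      linarith
  rw [hTM] at hT
  rw [hE]
  clear_value M
  generalize ∑ i, ∑ j ∈ univ.erase i, v (dist (x i) (x j)) = Z at *
  clear hM hdiag hf0 hf hTM hE hxt hx
  clear_value f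
  clear f x
  rcases le_or_gt n 4 with h4 | h4
  · interval_cases n <;> push_cast at * <;> refine ⟨?_, ?_, ?_⟩ <;> linarith
  · have h5 : (5 : ℝ) ≤ n := by exact_mod_cast h4
    refine ⟨?_, ?_, ?_⟩ <;> nlinarith

lemma PS_nonneg {g : Pt → Pt → ℝ} (hg : ∀ a b, 0 ≤ g a b) (s t : Cfg) : 0 ≤ PS g s t := by
  have := PS_mono (g := fun _ _ => 0) (g' := g) (s := s) (t := t) fun a _ b _ => hg a b
  rw [PS_const] at this; simpa using this

lemma PS_le_of_le {g : Pt → Pt → ℝ} (hg : ∀ a b, 0 ≤ g a b) {s t : Cfg} (h : t ≤ s) :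
    PS g t t ≤ PS g s s := by
  obtain ⟨u, rfl⟩ := Multiset.le_iff_exists_add.1 h
  have h1 : PS g (t + u) (t + u) = PS g t t + PS g t u + PS g u (t + u) := by
    unfold PS
    rw [Multiset.map_add, Multiset.sum_add, ← Multiset.sum_map_add]
    simp
  rw [h1]
  linarith [PS_nonneg hg t u, PS_nonneg hg u (t + u)]

open Classical in
lemma occ_le (b c : ℝ) (s : Cfg) {P : ℝ}
    (hP : ∀ X : Finset Pt, (∀ x ∈ X, x ∈ s) → (∀ x ∈ X, ∀ y ∈ X, x ≠ y → 1 ≤ dist x y) →
      (X.card : ℝ) ≤ P) :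
    (occ b c s : ℝ) ≤ P +
      PS (fun x y => if cell b c x = cell b c y then 0 else if dist x y < 1 then 1 else 0) s s := by
  set Q := (s.map (cell b c)).toFinset with hQ
  have hex : ∀ q, ∃ a : Pt, q ∈ Q → a ∈ s ∧ cell b c a = q := by
    intro q
    by_cases h : q ∈ Q
    · obtain ⟨a, ha⟩ := Multiset.mem_map.1 (Multiset.mem_toFinset.1 h)
      exact ⟨a, fun _ => ha⟩
    · exact ⟨0, fun h' => absurd h' h⟩
  choose r hr using hex
  have hinj : Set.InjOn r Q := fun q hq q' hq' h => by rw [← (hr q hq).2, h, (hr q' hq').2]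
  set g : Pt → Pt → ℝ :=
    fun x y => if cell b c x = cell b c y then 0 else if dist x y < 1 then 1 else 0 with hg
  have hg0 : ∀ a b, 0 ≤ g a b := fun a b => by simp only [hg]; split_ifs <;> norm_num
  have hle : Q.val.map r ≤ s := by
    rw [Multiset.le_iff_subset (Multiset.Nodup.map_on (fun q hq q' hq' h => hinj hq hq' h) Q.nodup)]
    intro a ha
    obtain ⟨q, hq, rfl⟩ := Multiset.mem_map.1 ha
    exact (hr q hq).1
  have h1 := PS_le_of_le hg0 hle
  rw [PS_map] at h1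
  set G := Q.filter fun q => ∀ q' ∈ Q, q' ≠ q → 1 ≤ dist (r q) (r q') with hG
  have h2 := hP (G.image r) (fun x hx => by
      obtain ⟨q, hq, rfl⟩ := mem_image.1 hx
      exact (hr q (mem_filter.1 hq).1).1)
    (fun x hx y hy hxy => by
      obtain ⟨q, hq, rfl⟩ := mem_image.1 hx
      obtain ⟨q', hq', rfl⟩ := mem_image.1 hy
      exact (mem_filter.1 hq).2 q' (mem_filter.1 hq').1 fun h => hxy (by rw [h]))
  rw [card_image_of_injOn (hinj.mono (coe_subset.2 (filter_subset _ _)))] at h2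
  have h3 : (#Q : ℝ) ≤ #G + ∑ q ∈ Q, ∑ q' ∈ Q, g (r q) (r q') := by
    rw [hG, card_filter, card_eq_sum_ones Q]; push_cast
    rw [← sum_add_distrib]
    refine sum_le_sum fun q hq => ?_
    split_ifs with h
    · linarith [sum_nonneg fun q' (_ : q' ∈ Q) => hg0 (r q) (r q')]
    · push Not at h
      obtain ⟨q', hq', hne, hd⟩ := h
      have := single_le_sum (f := fun q' => g (r q) (r q')) (fun q' _ => hg0 _ _) hq'
      have e : g (r q) (r q') = 1 := by
        simp only [hg, (hr q hq).2, (hr q' hq').2, if_neg hne.symm, if_pos hd]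
      linarith
  change (#Q : ℝ) ≤ _
  linarith

end E

open Finset E in
theorem det {ε r₁ : ℝ} {v : ℝ → ℝ} (hv : Shape ε r₁ v) (hε : 0 < ε) {R : ℕ} (hR : 5184 ≤ R)
    (hb : R * (2 * ε) ≤ 1 / 2) (s : Cfg) {P : ℝ}
    (hP : ∀ X : Finset Pt, (∀ x ∈ X, x ∈ s) → (∀ x ∈ X, ∀ y ∈ X, x ≠ y → 1 ≤ dist x y) →
      (X.card : ℝ) ≤ P) :
    ∃ j < R, ∃ D : ℝ, 0 ≤ D ∧
      D - 162 / R * (32 * P + 3 * D) ≤
        3 * ((s.card : ℝ) - occ (R * (2 * ε)) (j * (2 * ε)) s) + En v s ∧
      En v s ≤ D ∧ -En v s ≤ 3 * (32 * P + 3 * D) ∧ (s.card : ℝ) ≤ 32 * P + 3 * D ∧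
      QQ s ≤ 33 * P + 4 * D ∧ -(162 / R * (32 * P + 3 * D)) ≤ s.card + 4 / 9 * En v s ∧
      s.card + En v s / 3 ≤ P + D + 162 / R * (32 * P + 3 * D) := by
  classical
  have hR' : (5184 : ℝ) ≤ R := by exact_mod_cast hR
  have hP0 : 0 ≤ P := by simpa using hP ∅ (by simp) (by simp)
  obtain ⟨j, hj, hcut⟩ := exists_shift (m := R) (by omega) (h := 2 * ε) (by positivity)
    (fun x y => if shell ε (dist x y) then 1 else 0) (fun x y => by split_ifs <;> norm_num) s
  refine ⟨j, hj, ?_⟩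
  set b : ℝ := R * (2 * ε) with hbdef
  set c : ℝ := j * (2 * ε) with hcdef
  have hb0 : 0 < b := by positivity
  set κ := cell b c with hκ
  set Cut := PS (fun x y => if κ x = κ y then 0 else if shell ε (dist x y) then 1 else 0) s s
    with hCut
  set Rep := PS (fun x y => if κ x = κ y then 0 else
    if dist x y < 1 ∧ ¬ shell ε (dist x y) then 1 else 0) s s with hRep
  set X := PS (fun x y => if κ x = κ y then 0 else v (dist x y)) s s with hX
  set S2 := Qc b c s with hS2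
  have hn : (s.card : ℝ) ≤ S2 := card_le_Qc b c s
  have hn0 : (0 : ℝ) ≤ s.card := Nat.cast_nonneg _
  have hCut0 : 0 ≤ Cut := PS_nonneg (fun x y => by split_ifs <;> norm_num) s s
  have hRep0 : 0 ≤ Rep := PS_nonneg (fun x y => by split_ifs <;> norm_num) s s
  have hCutS : Cut ≤ 162 / R * S2 := by
    refine hcut.trans ?_
    have h1 := near_le hb0 c (L := 3 / 2 * ε) (by positivity) s
    have h2 : PS (fun x y => 3 * (dist x y / (2 * ε) + 1) * if shell ε (dist x y) then 1 else 0) s s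
        ≤ 21 / 4 * PS (fun x y => if dist x y ≤ 3 / 2 * ε then 1 else 0) s s := by
      rw [← PS_mul]
      refine PS_mono fun x _ y _ => ?_
      by_cases h : shell ε (dist x y)
      · rw [if_pos h, if_pos h.2]
        have : dist x y / (2 * ε) ≤ 3 / 4 := by
          rw [div_le_iff₀ (by positivity)]; linarith [h.2]
        linarith
      · rw [if_neg h]; split_ifs <;> norm_num
    have h3 : 2 * (3 / 2 * ε) / b + 3 ≤ 31 / 10 := by
      have : 2 * (3 / 2 * ε) / b ≤ 1 / 10 := by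
        rw [div_le_iff₀ hb0, hbdef]; nlinarith
      linarith
    have h4 : (2 * (3 / 2 * ε) / b + 3) ^ 3 ≤ (31 / 10) ^ 3 :=
      pow_le_pow_left₀ (by positivity) h3 3
    have h5 := mul_le_mul_of_nonneg_right h4 (hn0.trans hn)
    rw [div_mul_eq_mul_div]
    refine div_le_div_of_nonneg_right ?_ (by positivity)
    linarith
  have hclose : PS (fun x y => if κ x = κ y then 0 else if dist x y < 1 then 1 else 0) s s ≤
      Rep + Cut := by
    rw [hRep, hCut, ← PS_add]
    refine PS_mono fun x _ y _ => ?_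
    by_cases h1 : κ x = κ y <;> by_cases h2 : dist x y < 1 <;> by_cases h3 : shell ε (dist x y) <;>
      simp [h1, h2, h3]
  have hocc : (occ b c s : ℝ) ≤ P + (Rep + Cut) := (occ_le b c s hP).trans (by linarith)
  have hXlow : 100 * Rep + -(3 / 2) * Cut ≤ X := by
    rw [hRep, hCut, ← PS_mul, ← PS_mul, ← PS_add]
    refine PS_mono fun x _ y _ => ?_
    by_cases h1 : κ x = κ y
    · simp [h1]
    by_cases h3 : shell ε (dist x y)
    · simpa [h1, h3] using hv.low (dist x y)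
    by_cases h2 : dist x y < 1
    · have := hv.core _ dist_nonneg h2 (by
        unfold shell at h3; by_contra hc; push Not at hc; exact h3 hc)
      simpa [h1, h2, h3] using this
    · simpa [h1, h2, h3] using hv.mid _ (not_lt.1 h2)
  have hQQ : QQ s ≤ S2 + (Rep + Cut) := by
    refine le_trans ?_ (add_le_add le_rfl hclose)
    rw [hS2, QQ, Qc, Qc, ← PS_add]
    refine PS_mono fun x _ y _ => ?_
    by_cases h1 : κ x = κ y
    · rw [if_pos h1, if_pos h1]; split_ifs <;> norm_num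
    · rw [if_neg h1, if_neg h1]
      by_cases h2 : cell (1 / 2) 0 x = cell (1 / 2) 0 y
      · have := dist_le_of_cell (by norm_num) h2
        rw [if_pos h2, if_pos (by linarith)]; norm_num
      · rw [if_neg h2]; split_ifs <;> norm_num
  set Q := (s.map κ).toFinset with hQ
  have hmem : ∀ a ∈ s, κ a ∈ Q := fun a ha =>
    Multiset.mem_toFinset.2 (Multiset.mem_map_of_mem _ ha)
  set t : (Fin 3 → ℤ) → Cfg := fun q => s.filter fun a => κ a = q with ht
  have hE : En v s = ∑ q ∈ Q, En v (t q) + X / 2 := En_split Q κ v hmem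
  have hcard : (s.card : ℝ) = ∑ q ∈ Q, ((t q).card : ℝ) := by
    have := congrArg Multiset.card (sum_filter Q κ hmem)
    rw [Multiset.card_sum] at this
    exact_mod_cast this.symm
  have hS2' : S2 = ∑ q ∈ Q, ((t q).card : ℝ) ^ 2 := by
    have := PS_same Q κ (fun _ _ => 1) hmem
    rw [hS2, Qc, this]
    refine sum_congr rfl fun q _ => ?_
    rw [PS_const]; ring
  have hcell : ∀ q ∈ Q, 0 ≤ 3 * (((t q).card : ℝ) - 1) + En v (t q) ∧
      ((t q).card : ℝ) ^ 2 ≤ 16 + (3 * (((t q).card : ℝ) - 1) + En v (t q)) ∧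
      0 ≤ (t q).card + 4 / 9 * En v (t q) := by
    intro q hq
    refine cell_est hv hε _ (fun x hx y hy => ?_) ?_
    · have h1 := (Multiset.mem_filter.1 hx).2
      have h2 := (Multiset.mem_filter.1 hy).2
      have := dist_le_of_cell hb0 (c := c) (x := x) (y := y) (h1.trans h2.symm)
      linarith
    · obtain ⟨a, ha, rfl⟩ := Multiset.mem_map.1 (Multiset.mem_toFinset.1 hq)
      exact Multiset.card_pos_iff_exists_mem.2 ⟨a, Multiset.mem_filter.2 ⟨ha, rfl⟩⟩
  have hoccQ : (occ b c s : ℝ) = #Q := rfl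
  set H := ∑ q ∈ Q, En v (t q) with hH
  have hd : ∑ q ∈ Q, (3 * (((t q).card : ℝ) - 1) + En v (t q)) = 3 * (s.card - occ b c s) + H := by
    rw [sum_add_distrib, ← mul_sum, sum_sub_distrib, ← hcard, hoccQ]; simp [hH]
  have h1 : 0 ≤ 3 * (s.card - occ b c s) + H := by
    rw [← hd]; exact sum_nonneg fun q hq => (hcell q hq).1
  have h2 : S2 ≤ 16 * occ b c s + (3 * (s.card - occ b c s) + H) := by
    rw [← hd, hS2', hoccQ]
    refine (sum_le_sum fun q hq => (hcell q hq).2.1).trans ?_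
    rw [sum_add_distrib]; simp [mul_comm]
  have h3 : 0 ≤ s.card + 4 / 9 * H := by
    rw [hcard, hH, mul_sum, ← sum_add_distrib]; exact sum_nonneg fun q hq => (hcell q hq).2.2
  have h4 : (occ b c s : ℝ) ≤ s.card := by
    have : occ b c s ≤ s.card := by
      simpa [occ] using Multiset.toFinset_card_le (s.map (cell b c))
    exact_mod_cast this
  have hρ0 : (0 : ℝ) ≤ 162 / R := by positivity
  have hρ : (162 : ℝ) / R ≤ 1 / 32 := by rw [div_le_iff₀ (by positivity)]; linarith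
  have hC32 : Cut ≤ S2 / 32 := by nlinarith [hn0.trans hn]
  set D := 3 * (s.card - occ b c s) + H + X / 2 + 3 / 4 * Cut with hD
  have hD0 : 0 ≤ D := by linarith
  have hS : S2 ≤ 32 * P + 2 * D := by linarith
  have hC : Cut ≤ 162 / R * (32 * P + 3 * D) :=
    hCutS.trans (mul_le_mul_of_nonneg_left (by linarith) hρ0)
  refine ⟨D, hD0, ?_, ?_, ?_, ?_, ?_, ?_, ?_⟩ <;> linarith

end Crest.Agent.R149
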