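import Crest.Agent.R149.LP
import Crest.Agent.R149.Det

/-! Row 149: the model and the confinement estimate. -/

set_option autoImplicit false
open MeasureTheory Crest.ProbabilityR.Continuum
open scoped ENNReal BigOperators

namespace Crest.Agent.R149

/-- entropy constant of the mesoscopic cells -/
noncomputable def CR (R : ℕ) : ℝ := R + Real.exp ((2 * R) ^ 3)

/-- the data of the short range model -/
structure Mod where
  ε : ℝ
  r₁ : ℝ
  v : ℝ → ℝ
  R : ℕ
  p : ℝ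
  w : ℝ
  τ : ℝ
  Λ : ℝ
  hv : Shape ε r₁ v
  hΛ : Real.exp (-Λ) = ε
  hr : r₁ ≤ 2
  hR : 5184 ≤ R
  hb : R * (2 * ε) ≤ 1 / 2
  hp : PackBd p
  p1 : 1 ≤ p
  p8 : p ≤ 8
  w1 : w ≤ 1
  τ0 : 0 < τ
  hθ : 1300 * (162 / R + τ) ≤ w / 8
  hC : CR R ≤ w * Λ / 8

namespace Mod
variable (M : Mod)

theorem ε0 : 0 < M.ε := M.hΛ ▸ Real.exp_pos _
theorem R0 : (5184 : ℝ) ≤ M.R := by exact_mod_cast M.hR
theorem θ0 : (0 : ℝ) < 162 / M.R := by have := M.R0; positivity
theorem θ1 : (162 : ℝ) / M.R ≤ 1 / 32 := by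
  have := M.R0; rw [div_le_div_iff₀ (by positivity) (by norm_num)]; linarith
theorem w0 : 0 < M.w := by have := M.hθ; have := M.θ0; have := M.τ0; linarith
theorem τ1 : M.τ ≤ 1 / 10400 := by have := M.hθ; have := M.θ0; have := M.w1; linarith
theorem CR1 : 1 ≤ CR M.R := by
  have := M.R0; have := Real.exp_pos ((2 * M.R : ℝ) ^ 3); unfold CR; linarith
theorem Λ8 : 8 ≤ M.Λ := by
  have h1 := M.CR1; have h2 := M.hC; have h3 := M.w1; have h4 := M.w0
  by_contra h
  rcases le_total 0 M.Λ with h5 | h5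
  · nlinarith
  · nlinarith

/-- good configurations in a tile of volume `V` -/
def Good (V : ℝ) (s : Cfg) : Prop :=
  QQ s ≤ 300 * V ∧ En M.v s ≤ 9 * M.w * V ∧ -(M.w * V) ≤ s.card + 4 / 9 * En M.v s ∧
    s.card + En M.v s / 3 ≤ (M.p + M.w) * V

theorem measP_good (V : ℝ) : MeasP (M.Good V) := by
  have hE := measR_En M.hv.meas
  have hc : ∀ c : ℝ, MeasR fun _ => c := fun c => measR_card fun _ => c
  have hn : MeasR fun s => (s.card : ℝ) := measR_card fun n => n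
  refine ((measR_Qc _ _).le (hc _)).and ((hE.le (hc _)).and
    (((hc _).le (hn.add (hE.const_mul _))).and ?_))
  have := (hn.add (hE.const_mul (1 / 3))).le (hc ((M.p + M.w) * V))
  simpa only [one_div, inv_mul_eq_div] using this

theorem good_zero {V : ℝ} (hV : 0 ≤ V) : M.Good V 0 := by
  have h1 := M.w0; have h2 := M.p1
  have : QQ 0 = 0 := by simp [QQ, Qc, PS]
  refine ⟨by rw [this]; positivity, by rw [En_zero]; positivity, ?_, ?_⟩
  · rw [En_zero]; simp; positivity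
  · rw [En_zero]; simp; positivity

/-- weight of one cell -/
noncomputable def cw (n : ℕ) : ℝ≥0∞ := ex (3 * M.Λ * (n - if n = 0 then 0 else 1))

theorem LP_cw : LP (cube (M.R * (2 * M.ε))) (fun s => M.cw s.card) ≤
    ex ((M.R * (2 * M.ε)) ^ 3 * Real.exp ((2 * M.R) ^ 3)) := by
  have hε := M.ε0
  have hR := M.R0
  set b : ℝ := M.R * (2 * M.ε) with hb
  have hb0 : 0 < b := by positivity
  set x : ℝ := (2 * M.R) ^ 3 with hx
  have hx0 : 0 ≤ x := by positivity
  have e1 : ∀ n, ZN (cube b) n (fun s => M.cw s.card) ≤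
      (n.factorial : ℝ≥0∞)⁻¹ * volume (cube b) ^ n * M.cw n := fun n => by
    rw [← ZN_const]
    exact ZN_mono (measurableSet_cube _) subset_rfl fun s _ h => by rw [h]
  have e2 : ∀ n : ℕ, ((n + 1).factorial : ℝ≥0∞)⁻¹ * volume (cube b) ^ (n + 1) * M.cw (n + 1) ≤
      ENNReal.ofReal (b ^ 3 * (x ^ n / n.factorial)) := fun n => by
    have h1 : Real.exp (3 * M.Λ * n) * (b ^ 3) ^ n = x ^ n := by
      have : Real.exp (3 * M.Λ) * b ^ 3 = x := by
        have h3 : Real.exp M.Λ * M.ε = 1 := by rw [← M.hΛ, ← Real.exp_add]; simp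
        have h4 : Real.exp (3 * M.Λ) = Real.exp M.Λ ^ 3 := by
          rw [← Real.exp_nat_mul]; norm_num
        rw [h4, hb, hx, ← mul_pow]
        congr 1
        linear_combination (2 * M.R) * h3
      rw [mul_comm (3 * M.Λ), Real.exp_nat_mul, ← mul_pow, this]
    have h2 : ((n + 1).factorial : ℝ≥0∞)⁻¹ ≤ ENNReal.ofReal (1 / n.factorial) := by
      rw [ENNReal.ofReal_div_of_pos (by positivity), ENNReal.ofReal_natCast, ENNReal.ofReal_one,
        one_div]
      exact ENNReal.inv_le_inv.2 (by exact_mod_cast Nat.factorial_le (Nat.le_succ n))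
    have h3 : M.cw (n + 1) = ENNReal.ofReal (Real.exp (3 * M.Λ * n)) := by
      simp [cw, ex]
    rw [h3, volume_cube, ← ENNReal.ofReal_pow hb0.le, ← ENNReal.ofReal_pow (by positivity)]
    refine (mul_le_mul_left (mul_le_mul_left h2 _) _).trans (le_of_eq ?_)
    rw [← ENNReal.ofReal_mul (by positivity), ← ENNReal.ofReal_mul (by positivity), ← h1]
    congr 1; ring
  refine (ENNReal.tsum_le_tsum e1).trans ?_
  rw [tsum_eq_zero_add' ENNReal.summable]
  have e3 : ∑' n : ℕ, ((n + 1).factorial : ℝ≥0∞)⁻¹ * volume (cube b) ^ (n + 1) * M.cw (n + 1) ≤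
      ENNReal.ofReal (b ^ 3 * Real.exp x) := by
    refine (ENNReal.tsum_le_tsum e2).trans (ENNReal.tsum_le_of_sum_range_le fun n => ?_)
    rw [← ENNReal.ofReal_sum_of_nonneg fun _ _ => by positivity, ← Finset.mul_sum]
    exact ENNReal.ofReal_le_ofReal
      (mul_le_mul_of_nonneg_left (Real.sum_le_exp_of_nonneg hx0 n) (by positivity))
  have e4 : ((Nat.factorial 0 : ℕ) : ℝ≥0∞)⁻¹ * volume (cube b) ^ 0 * M.cw 0 = 1 := by
    simp [cw, ex]
  rw [e4]
  refine (add_le_add_right e3 1).trans ?_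
  rw [← ENNReal.ofReal_one, ← ENNReal.ofReal_add zero_le_one (by positivity)]
  exact ENNReal.ofReal_le_ofReal (by linarith [Real.add_one_le_exp (b ^ 3 * Real.exp x)])

theorem prod_cw (b c : ℝ) (Q : Finset (Fin 3 → ℤ)) {s : Cfg} (h : ∀ a ∈ s, cell b c a ∈ Q) :
    ∏ q ∈ Q, M.cw (s.filter fun a => cell b c a = q).card =
      ex (3 * M.Λ * (s.card - occ b c s)) := by
  simp only [cw]
  rw [← ex_sum, ← Finset.mul_sum, Finset.sum_sub_distrib]
  congr 3
  · rw [← Nat.cast_sum, ← Multiset.card_sum, sum_filter Q _ h]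
  · have : (s.map (cell b c)).toFinset =
        Q.filter fun q => ¬ (s.filter fun a => cell b c a = q).card = 0 := by
      ext q
      simp only [Multiset.mem_toFinset, Multiset.mem_map, Finset.mem_filter,
        Multiset.card_eq_zero, Multiset.filter_eq_nil, not_forall, not_not]
      exact ⟨fun ⟨a, ha, e⟩ => ⟨e ▸ h a ha, a, ha, e⟩, fun ⟨_, a, ha, e⟩ => ⟨a, ha, e⟩⟩
    rw [occ, this, Finset.card_filter]
    push_cast
    exact Finset.sum_congr rfl fun q _ => by split_ifs <;> rfl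

theorem confA {l : ℝ} (hl : 0 ≤ l) {F : Cfg → ℝ≥0∞} {c : ℝ}
    (hF : ∀ s, In (cube l) s → ∃ j < M.R, F s ≤
      ex (c + 3 * M.Λ * (s.card - occ (M.R * (2 * M.ε)) (j * (2 * M.ε)) s))) :
    LP (cube l) F ≤ ex (c + CR M.R * (l + 2) ^ 3) := by
  have hε := M.ε0
  have hR := M.R0
  have hbb := M.hb
  set b : ℝ := M.R * (2 * M.ε) with hb
  have hb0 : 0 < b := by positivity
  have hQ : ∀ j < M.R, ∀ x ∈ cube l, cell b (j * (2 * M.ε)) x ∈ Fintype.piFinset
      fun _ : Fin 3 => Finset.Ico (0 : ℤ) ((⌊l / b⌋₊ + 2 : ℕ) : ℤ) := fun j hj x hx =>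
    cell_mem_box hb0 (by positivity)
      (mul_le_mul_of_nonneg_right (by exact_mod_cast hj.le) (by positivity)) hx
  have h1 := cover_le hb0 (m := M.R) (fun j => j * (2 * M.ε)) (measurableSet_cube l) _ hQ
    (meas_card M.cw) (F := fun s => ex (-c) * F s) fun s hs => by
      obtain ⟨j, hj, h⟩ := hF s hs
      refine ⟨j, hj, ?_⟩
      simp only [card_sh]
      rw [M.prod_cw _ _ _ fun a ha => hQ j hj a (hs a ha)]
      refine (mul_le_mul_right h _).trans (le_of_eq ?_)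
      rw [← ex_add]; congr 1; ring
  rw [LP_const_mul _ (ex_ne_top _)] at h1
  have h2 : LP (cube l) F = ex c * (ex (-c) * LP (cube l) F) := by
    rw [← mul_assoc, ← ex_add]; simp [ex_zero]
  rw [h2, ex_add]
  refine mul_le_mul_right (h1.trans ?_) _
  simp only [Fintype.card_piFinset, Int.card_Ico, sub_zero, Int.toNat_natCast, Finset.prod_const,
    Finset.card_univ, Fintype.card_fin]
  have h3 : (M.R : ℝ≥0∞) ≤ ex M.R := by
    rw [← ENNReal.ofReal_natCast]
    exact ENNReal.ofReal_le_ofReal (by linarith [Real.add_one_le_exp (M.R : ℝ)])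
  refine (mul_le_mul' h3 (pow_le_pow_left' M.LP_cw _)).trans ?_
  rw [← ex_nat_mul, ← ex_add, ex_le_ex, CR, add_mul]
  have h4 : (1 : ℝ) ≤ (l + 2) ^ 3 := one_le_pow₀ (by linarith)
  refine add_le_add (le_mul_of_one_le_right (by positivity) h4) ?_
  rw [← mul_assoc, mul_comm]
  refine mul_le_mul_of_nonneg_left ?_ (Real.exp_pos _).le
  push_cast
  rw [← mul_pow]
  refine pow_le_pow_left₀ (by positivity) ?_ 3
  have h5 : (⌊l / b⌋₊ : ℝ) * b ≤ l := by
    rw [← le_div_iff₀ hb0]; exact Nat.floor_le (by positivity)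
  nlinarith

theorem det_arith {l : ℝ} (hl : 0 ≤ l) {s : Cfg} (hs : In (cube l) s) {β ν a σ : ℝ}
    (hσ : σ ≤ M.τ) (hβ : |β - 1| ≤ σ) (hν : |ν| ≤ σ * M.Λ) (ha : a ≤ σ * M.Λ) :
    ∃ j < M.R, ∃ D : ℝ, 0 ≤ D ∧ (D ≤ M.w / 2 * (l + 2) ^ 3 → M.Good ((l + 2) ^ 3) s) ∧
      -β * M.Λ * En M.v s + ν * s.card + a * QQ s ≤
        (1300 * (162 / M.R + σ) * M.Λ * (l + 2) ^ 3 - M.Λ * D / 2) +
          3 * M.Λ * (s.card - occ (M.R * (2 * M.ε)) (j * (2 * M.ε)) s) := by
  set V : ℝ := (l + 2) ^ 3 with hV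
  have hV0 : 0 ≤ V := by positivity
  have hp1 := M.p1; have hp8 := M.p8
  obtain ⟨j, hj, D, hD, h1, h2, h3, h4, h5, h6, h7⟩ :=
    det M.hv M.ε0 M.hR M.hb s (P := M.p * V) fun X hX hX' =>
      (M.hp l hl X (fun x hx => hs x (hX x hx)) hX').trans
        (mul_le_mul_of_nonneg_left (pow_le_pow_left₀ (by linarith) (by linarith) 3) (by linarith))
  have hθ0 := M.θ0; have hθ1 := M.θ1; have hθ := M.hθ; have hτ0 := M.τ0; have hτ1 := M.τ1
  have hw0 := M.w0; have hw1 := M.w1; have hΛ := M.Λ8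
  set θ : ℝ := 162 / M.R
  set P := M.p * V with hP
  have hP8 : P ≤ 8 * V := mul_le_mul_of_nonneg_right hp8 hV0
  have hP0 : 0 ≤ P := by positivity
  have hσ0 : 0 ≤ σ := (abs_nonneg _).trans hβ
  refine ⟨j, hj, D, hD, fun hDw => ?_, ?_⟩
  · have hDV : D ≤ V / 2 := hDw.trans (by nlinarith)
    have h8 : θ * (32 * P + 3 * D) ≤ M.w / 2 * V :=
      (mul_le_mul_of_nonneg_left (by linarith : 32 * P + 3 * D ≤ 259 * V) hθ0.le).trans
        (by nlinarith)
    have : 0 ≤ M.w * V := by positivity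
    exact ⟨by linarith, by linarith, by linarith, by rw [add_mul]; linarith⟩
  · set S := 32 * P + 3 * D
    have hQ0 : 0 ≤ QQ s := (Nat.cast_nonneg _).trans (card_le_Qc _ _ s)
    have a1 : -(β - 1) * En M.v s ≤ σ * (3 * S) := by
      have : |En M.v s| ≤ 3 * S := abs_le.2 ⟨by linarith, by linarith⟩
      calc _ ≤ |-(β - 1) * En M.v s| := le_abs_self _
        _ = |β - 1| * |En M.v s| := by rw [abs_mul, abs_neg]
        _ ≤ _ := mul_le_mul hβ this (abs_nonneg _) hσ0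
    have a2 : ν * s.card ≤ σ * M.Λ * S :=
      mul_le_mul ((le_abs_self _).trans hν) h4 (Nat.cast_nonneg _) (by positivity)
    have a3 : a * QQ s ≤ σ * M.Λ * (33 * P + 4 * D) :=
      (mul_le_mul_of_nonneg_right ha hQ0).trans (mul_le_mul_of_nonneg_left h5 (by positivity))
    have a4 : θ * S + σ * (3 * S) + σ * S + σ * (33 * P + 4 * D) ≤
        1300 * (θ + σ) * V + D / 2 := by
      have b1 : θ * P ≤ θ * (8 * V) := by gcongr
      have b2 : σ * P ≤ σ * (8 * V) := by gcongr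
      have b3 : θ * D ≤ 1 / 32 * D := by gcongr
      have b4 : σ * D ≤ 1 / 10400 * D := by gcongr; linarith
      have b5 : 0 ≤ θ * V := by positivity
      have b6 : 0 ≤ σ * V := by positivity
      simp only [S]
      nlinarith
    have a5 := mul_le_mul_of_nonneg_left a1 (by linarith : 0 ≤ M.Λ)
    have a6 := mul_le_mul_of_nonneg_left a4 (by linarith : 0 ≤ M.Λ)
    have a7 := mul_le_mul_of_nonneg_left h1 (by linarith : 0 ≤ M.Λ)
    linarith

theorem conf1 {l : ℝ} (hl : 0 ≤ l) {β ν a σ : ℝ} (hσ : σ ≤ M.τ) (hβ : |β - 1| ≤ σ)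
    (hν : |ν| ≤ σ * M.Λ) (ha : a ≤ σ * M.Λ) :
    (LP (cube l) fun s => ex (-β * M.Λ * En M.v s + ν * s.card + a * QQ s)) ≤
      ex ((CR M.R + 1300 * (162 / M.R + σ) * M.Λ) * (l + 2) ^ 3) := by
  refine (M.confA hl (c := 1300 * (162 / M.R + σ) * M.Λ * (l + 2) ^ 3) fun s hs => ?_).trans
    (le_of_eq (by congr 1; ring))
  obtain ⟨j, hj, D, hD, -, h⟩ := M.det_arith hl hs hσ hβ hν ha
  refine ⟨j, hj, ex_le_ex.2 (h.trans ?_)⟩
  have := mul_nonneg (by linarith [M.Λ8] : 0 ≤ M.Λ) hD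
  linarith

open Classical in
theorem conf2 {l : ℝ} (hl : 0 ≤ l) {β ν a : ℝ} (hβ : |β - 1| ≤ M.τ)
    (hν : |ν| ≤ M.τ * M.Λ) (ha : a ≤ M.τ * M.Λ) :
    (LP (cube l) fun s => if M.Good ((l + 2) ^ 3) s then 0 else
      ex (-β * M.Λ * En M.v s + ν * s.card + a * QQ s)) ≤ 1 := by
  have hV0 : 0 ≤ (l + 2) ^ 3 := by positivity
  have hΛ : 0 ≤ M.Λ := by linarith [M.Λ8]
  refine (M.confA hl (c := -(M.w * M.Λ / 8 * (l + 2) ^ 3)) fun s hs => ?_).trans ?_
  · obtain ⟨j, hj, D, hD, hG, h⟩ := M.det_arith hl hs le_rfl hβ hν ha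
    refine ⟨j, hj, ?_⟩
    split_ifs with hg
    · exact zero_le
    · refine ex_le_ex.2 (h.trans ?_)
      have h1 : M.w / 2 * (l + 2) ^ 3 ≤ D := le_of_not_ge fun h => hg (hG h)
      have h2 := mul_le_mul_of_nonneg_left h1 hΛ
      have h3 := mul_le_mul_of_nonneg_right M.hθ (mul_nonneg hΛ hV0)
      linarith
  · rw [← ex_zero, ex_le_ex]
    have := mul_le_mul_of_nonneg_right M.hC hV0
    linarith

end Mod

end Crest.Agent.R149
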