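import Crest.Prelude.Def_UnitPacking

/-!
Row 149 (S0209, S0210): shared definitions.

Configurations are multisets of points; `ZN` is the canonical and `LP` the grand canonical
(Lebesgue-Poisson) integral of a functional of configurations.
-/

set_option autoImplicit false
open MeasureTheory Crest.ProbabilityR.Continuum
open scoped ENNReal BigOperators

namespace Crest.Agent.R149

/-- finite configurations -/
abbrev Cfg : Type := Multiset Pt

/-- the configuration of a labelled family of points -/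
def mk {ι : Type} [Fintype ι] (x : ι → Pt) : Cfg := Finset.univ.val.map x

/-- exponential with values in `ℝ≥0∞` -/
noncomputable def ex (t : ℝ) : ℝ≥0∞ := ENNReal.ofReal (Real.exp t)

/-- measurable functionals -/
def Meas (f : Cfg → ℝ≥0∞) : Prop := ∀ n : ℕ, Measurable fun x : Fin n → Pt => f (mk x)

/-- measurable real functionals -/
def MeasR (f : Cfg → ℝ) : Prop := ∀ n : ℕ, Measurable fun x : Fin n → Pt => f (mk x)

/-- measurable properties -/
def MeasP (P : Cfg → Prop) : Prop := ∀ n : ℕ, MeasurableSet {x : Fin n → Pt | P (mk x)}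

/-- canonical integral -/
noncomputable def ZN (A : Set Pt) (n : ℕ) (f : Cfg → ℝ≥0∞) : ℝ≥0∞ :=
  (n.factorial : ℝ≥0∞)⁻¹ * ∫⁻ x in Set.pi Set.univ (fun _ : Fin n => A), f (mk x)

/-- grand canonical integral -/
noncomputable def LP (A : Set Pt) (f : Cfg → ℝ≥0∞) : ℝ≥0∞ := ∑' n, ZN A n f

/-- all points lie in `A` -/
def In (A : Set Pt) (s : Cfg) : Prop := ∀ a ∈ s, a ∈ A

/-- translation -/
noncomputable def sh (z : Pt) (s : Cfg) : Cfg := s.map (· + z)

/-- sum over ordered pairs -/
noncomputable def PS (g : Pt → Pt → ℝ) (s t : Cfg) : ℝ := (s.map fun a => (t.map (g a)).sum).sum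

/-- pair energy -/
noncomputable def En (φ : ℝ → ℝ) (s : Cfg) : ℝ :=
  (PS (fun a b => φ (dist a b)) s s - s.card * φ 0) / 2

/-- index of the cube of side `b` (grid shifted by `c`) that contains `x` -/
noncomputable def cell (b c : ℝ) (x : Pt) : Fin 3 → ℤ := fun k => ⌊(x k + c) / b⌋

/-- lower corner of a cell -/
noncomputable def corner (b c : ℝ) (q : Fin 3 → ℤ) : Pt := WithLp.toLp 2 fun k => b * q k - c

/-- sum of the squares of the occupation numbers of the cells -/
noncomputable def Qc (b c : ℝ) (s : Cfg) : ℝ :=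
  PS (fun x y => if cell b c x = cell b c y then 1 else 0) s s

/-- the same for cells of side `1/2` -/
noncomputable def QQ (s : Cfg) : ℝ := Qc (1 / 2) 0 s

/-- number of occupied cells -/
noncomputable def occ (b c : ℝ) (s : Cfg) : ℕ := (s.map (cell b c)).toFinset.card

/-- the pair sum of `φ` is dominated by `QQ` -/
def Dom (φ : ℝ → ℝ) (A : ℝ) : Prop := ∀ s : Cfg, PS (fun a b => φ (dist a b)) s s ≤ A * QQ s

/-- potentials for which the thermodynamic limit is proved -/
structure Tame (φ : ℝ → ℝ) : Prop where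
  meas : Measurable φ
  stable : ∃ B : ℝ, ∀ s : Cfg, -B * s.card ≤ En φ s
  far : ∀ r, 2 ≤ r → φ r ≤ 0
  bdd : ∀ d, 0 < d → ∃ M : ℝ, ∀ r, d ≤ r → φ r ≤ M

/-- shape of the short range potential -/
structure Shape (ε r₁ : ℝ) (v : ℝ → ℝ) : Prop where
  meas : Measurable v
  core : ∀ r, 0 ≤ r → r < 1 → (r < 13 / 10 * ε ∨ 3 / 2 * ε < r) → 100 ≤ v r
  low : ∀ r, -(3 / 2) ≤ v r
  mid : ∀ r, 1 ≤ r → 0 ≤ v r
  far : ∀ r, r₁ ≤ r → v r = 0
  well : ∀ r, 27 / 20 * ε ≤ r → r ≤ 29 / 20 * ε → v r = -(3 / 2)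

/-- `p` bounds the density of unit packings -/
def PackBd (p : ℝ) : Prop :=
  ∀ L : ℝ, 0 ≤ L → ∀ X : Finset Pt, (∀ x ∈ X, x ∈ cube L) →
    (∀ x ∈ X, ∀ y ∈ X, x ≠ y → 1 ≤ dist x y) → (X.card : ℝ) ≤ p * (L + 1) ^ 3

end Crest.Agent.R149
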