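import Crest.Agent.R149.LP

/-! Task 149-D: the thermodynamic limit. -/

set_option autoImplicit false
open MeasureTheory Crest.ProbabilityR.Continuum Filter Topology
open scoped ENNReal BigOperators

namespace Crest.Agent.R149

namespace D

/-- canonical partition function -/
noncomputable def Z (φ : ℝ → ℝ) (β L : ℝ) (N : ℕ) : ℝ≥0∞ :=
  ZN (cube L) N fun s => ex (-β * En φ s)

theorem lattice {ι : Type} [Fintype ι] {l g L : ℝ} (hl : 0 ≤ l) (hg : 0 < g) {K : ℕ}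
    (hK : K * (l + g) ≤ L + g) (hι : Fintype.card ι ≤ K ^ 3) :
    ∃ z : ι → Pt, (∀ q q', q ≠ q' → ∀ x ∈ cube l, ∀ y ∈ cube l, g ≤ dist (x + z q) (y + z q')) ∧
      ∀ q, ∀ x ∈ cube l, x + z q ∈ cube L := by
  obtain ⟨e⟩ : Nonempty (ι ↪ (Fin 3 → Fin K)) :=
    Function.Embedding.nonempty_of_card_le (by simpa using hι)
  refine ⟨fun q => WithLp.toLp 2 fun k => (l + g) * ((e q k : ℕ) : ℝ), fun q q' h x hx y hy => ?_,
    fun q x hx k => ?_⟩
  · obtain ⟨k, hk⟩ := Function.ne_iff.mp (e.injective.ne h)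
    refine le_trans ?_ (abs_sub_le_dist _ _ k)
    simp only [PiLp.add_apply]
    obtain ⟨a1, a2⟩ := hx k
    obtain ⟨b1, b2⟩ := hy k
    rcases lt_or_gt_of_ne hk with h' | h'
    · have : ((e q k : ℕ) : ℝ) + 1 ≤ (e q' k : ℕ) := by exact_mod_cast h'
      refine le_trans ?_ (neg_le_abs _)
      nlinarith
    · have : ((e q' k : ℕ) : ℝ) + 1 ≤ (e q k : ℕ) := by exact_mod_cast h'
      refine le_trans ?_ (le_abs_self _)
      nlinarith
  · simp only [PiLp.add_apply]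
    obtain ⟨a1, a2⟩ := hx k
    have h1 : ((e q k : ℕ) : ℝ) + 1 ≤ K := by exact_mod_cast (e q k).2
    have h2 : (0 : ℝ) ≤ (e q k : ℕ) := Nat.cast_nonneg _
    constructor <;> nlinarith

theorem tile {φ : ℝ → ℝ} (hφ : Tame φ) {β : ℝ} (hβ : 0 < β) {ι : Type} [Fintype ι] {l L : ℝ}
    (hl : 0 ≤ l) {K : ℕ} (hK : K * (l + 2) ≤ L + 2) (hι : Fintype.card ι ≤ K ^ 3) (n : ι → ℕ) :
    ∏ q, Z φ β l (n q) ≤ Z φ β L (∑ q, n q) := by
  classical
  obtain ⟨z, h1, h2⟩ := lattice hl two_pos hK hι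
  refine tile_le Finset.univ (measurableSet_cube l) z (fun q _ q' _ h x hx y hy he => ?_)
    (fun q _ => h2 q) n (fun _ => ((measR_En hφ.meas).const_mul (-β)).ex) fun s hs => ?_
  · have := h1 q q' h x hx y hy
    rw [he, dist_self] at this
    linarith
  · rw [← ex_sum, ex_le_ex, En_sum, ← Finset.mul_sum]
    simp only [En_sh]
    have : ∑ q, ∑ q' ∈ Finset.univ.erase q,
        PS (fun a b => φ (dist a b)) (sh (z q) (s q)) (sh (z q') (s q')) ≤ 0 := by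
      refine Finset.sum_nonpos fun q _ => Finset.sum_nonpos fun q' hq' => ?_
      refine (PS_mono (g' := fun _ _ => 0) fun a ha b hb => ?_).trans (by simp [PS_const])
      obtain ⟨x, hx, rfl⟩ := mem_sh.mp ha
      obtain ⟨y, hy, rfl⟩ := mem_sh.mp hb
      exact hφ.far _ (h1 q q' (Finset.ne_of_mem_erase hq').symm x ((hs q (Finset.mem_univ _)).1 x hx)
        y ((hs q' (Finset.mem_univ _)).1 y hy))
    nlinarith

theorem low {φ : ℝ → ℝ} (hφ : Tame φ) {β : ℝ} (hβ : 0 < β) {ρ : ℝ} (hρ : 0 < ρ) :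
    ∃ C : ℝ, 0 ≤ C ∧ ∀ L : ℝ, 1 ≤ L → ∀ N : ℕ, N ≤ ρ * L ^ 3 → ex (-(C * L ^ 3)) ≤ Z φ β L N := by
  classical
  set d : ℝ := 1 / (4 * (ρ + 1)) with hd
  have hd0 : 0 < d := by positivity
  have hd1 : d * (4 * (ρ + 1)) = 1 := by
    rw [hd]
    field_simp
  have hd2 : d ≤ 1 / 4 := by nlinarith
  obtain ⟨M, hM⟩ := hφ.bdd d hd0
  set c : ℝ := (2 * 2 / (d / 2) + 3) ^ 3 with hc
  have hc0 : 0 ≤ c := by positivity
  set E : ℝ := β * (|M| * c / 2) with hE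
  have hE0 : 0 ≤ E := by positivity
  have hlog : Real.log d ≤ 0 := Real.log_nonpos hd0.le (by linarith)
  refine ⟨ρ * (E - 3 * Real.log d), mul_nonneg hρ.le (by linarith), fun L hL N hN => ?_⟩
  set K := ⌊L / (2 * d)⌋₊ with hK
  have hK1 : K * (d + d) ≤ L + d := by
    have := Nat.floor_le (show 0 ≤ L / (2 * d) by positivity)
    rw [le_div_iff₀ (by positivity)] at this
    linarith
  have hK2 : (ρ + 1) * L ≤ K := by
    have h1 := Nat.lt_floor_add_one (L / (2 * d))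
    rw [div_lt_iff₀ (by positivity), ← hK] at h1
    have h2 : L * (4 * (ρ + 1)) < (K + 1) * 2 := by
      have := mul_lt_mul_of_pos_right h1 (show 0 < 4 * (ρ + 1) by positivity)
      calc _ < _ := this
        _ = (K + 1) * 2 * (d * (4 * (ρ + 1))) := by ring
        _ = _ := by rw [hd1, mul_one]
    nlinarith
  have hι : Fintype.card (Fin N) ≤ K ^ 3 := by
    rw [Fintype.card_fin]
    have h1 := pow_le_pow_left₀ (by positivity) hK2 3
    have h2 : ρ ≤ (ρ + 1) ^ 3 := by nlinarith [sq_nonneg ρ, mul_pos hρ (mul_pos hρ hρ)]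
    have h3 := mul_le_mul_of_nonneg_right h2 (show 0 ≤ L ^ 3 by positivity)
    rw [mul_pow] at h1
    exact_mod_cast hN.trans (h3.trans h1)
  obtain ⟨z, h1, h2⟩ := lattice hd0.le hd0 hK1 hι
  have h3 := tile_le (B := cube L) Finset.univ (measurableSet_cube d) z
    (fun q _ q' _ h x hx y hy he => ?_) (fun q _ => h2 q) (fun _ => 1)
    (f := fun _ _ => ex (-E)) (fun _ => meas_card fun _ => ex (-E))
    (F := fun s => ex (-β * En φ s)) fun s hs => ?_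
  · simp only [ZN_const, Finset.prod_const, Finset.card_univ, Fintype.card_fin, Finset.sum_const,
      smul_eq_mul, mul_one, Nat.factorial_one, Nat.cast_one, inv_one, one_mul, pow_one,
      volume_cube] at h3
    refine le_trans ?_ h3
    have e1 : ENNReal.ofReal d = ex (Real.log d) := by rw [ex, Real.exp_log hd0]
    rw [e1, ← ex_nat_mul, ← ex_add, ← ex_nat_mul, ex_le_ex]
    push_cast
    nlinarith
  · have := h1 q q' h x hx y hy
    rw [he, dist_self] at this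
    linarith
  · have hs1 : ∀ q, ∃ a ∈ cube d, sh (z q) (s q) = {a + z q} := by
      intro q
      obtain ⟨a, ha⟩ := Multiset.card_eq_one.mp (hs q (Finset.mem_univ _)).2
      refine ⟨a, (hs q (Finset.mem_univ _)).1 a (by simp [ha]), by simp [ha, sh]⟩
    choose a ha hsa using hs1
    simp only [hsa]
    rw [← ex_sum, ex_le_ex, En_sum]
    simp only [En_singleton, Finset.sum_const, Finset.card_univ, Fintype.card_fin, smul_zero,
      zero_add, nsmul_eq_mul]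
    have h4 : ∑ q, ∑ q' ∈ Finset.univ.erase q,
        PS (fun a b => φ (dist a b)) {a q + z q} {a q' + z q'} ≤
        ∑ q, ∑ q', PS (fun x y => |M| * if dist x y ≤ 2 then 1 else 0) {a q + z q} {a q' + z q'} := by
      refine Finset.sum_le_sum fun q _ => ?_
      refine le_trans (Finset.sum_le_sum fun q' hq' => ?_)
        (Finset.sum_le_sum_of_subset_of_nonneg (Finset.erase_subset q _) fun q' _ _ => ?_)
      · refine PS_mono fun x hx y hy => ?_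
        rw [Multiset.mem_singleton] at hx hy
        have h5 := h1 q q' (Finset.ne_of_mem_erase hq').symm _ (ha q) _ (ha q')
        rw [← hx, ← hy] at h5
        split_ifs with h6
        · rw [mul_one]
          exact (hM _ h5).trans (le_abs_self _)
        · rw [mul_zero]
          exact hφ.far _ (not_le.mp h6).le
      · refine le_trans (by simp [PS_const]) (PS_mono (g := fun _ _ => 0) fun x _ y _ => ?_)
        positivity
    rw [← PS_sum, PS_mul] at h4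
    have h5 := near_le (show 0 < d / 2 by positivity) 0 (show (0 : ℝ) ≤ 2 by norm_num)
      (∑ q, ({a q + z q} : Cfg))
    rw [Qc_sum, ← hc] at h5
    · have h6 : ∀ x : Pt, Qc (d / 2) 0 {x} = 1 := fun x => by simp [Qc, PS]
      simp only [h6, Finset.sum_const, Finset.card_univ, Fintype.card_fin, nsmul_eq_mul,
        mul_one] at h5
      have h7 := h4.trans (mul_le_mul_of_nonneg_left h5 (abs_nonneg M))
      have h8 := mul_le_mul_of_nonneg_left h7 hβ.le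
      rw [hE]
      nlinarith
    · intro q _ q' _ hne x hx y hy he
      rw [Multiset.mem_singleton] at hx hy
      have h6 := h1 q q' hne _ (ha q) _ (ha q')
      rw [← hx, ← hy] at h6
      have h7 := dist_le_of_cell (show 0 < d / 2 by positivity) he
      linarith

theorem up {φ : ℝ → ℝ} (hφ : Tame φ) {β : ℝ} (hβ : 0 < β) :
    ∃ U : ℝ, 0 ≤ U ∧ ∀ L : ℝ, 0 ≤ L → ∀ N : ℕ, Z φ β L N ≤ ex (L ^ 3 + U * N) := by
  obtain ⟨B, hB⟩ := hφ.stable
  refine ⟨β * |B|, by positivity, fun L hL N => ?_⟩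
  refine (ZN_mono (g := fun _ => ex (β * |B| * N)) (measurableSet_cube L) le_rfl
    fun s _ hc => ?_).trans ?_
  · rw [ex_le_ex]
    have h1 := hB s
    rw [hc] at h1
    have h2 := mul_le_mul_of_nonneg_right (le_abs_self B) (Nat.cast_nonneg (α := ℝ) N)
    nlinarith
  · rw [ZN_const, ex_add, volume_cube]
    refine mul_le_mul_left ?_ _
    have h1 := ENNReal.ofReal_le_ofReal
      (Real.pow_div_factorial_le_exp (L ^ 3) (by positivity) N)
    rw [ENNReal.ofReal_div_of_pos (by exact_mod_cast N.factorial_pos),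
      ENNReal.ofReal_pow (by positivity), ENNReal.ofReal_pow hL, ENNReal.ofReal_natCast,
      div_eq_mul_inv, mul_comm] at h1
    exact h1

theorem le_log {F : ℝ} {W : ℝ≥0∞} (h : ex F ≤ W) (h1 : W ≠ ⊤) : F ≤ Real.log W.toReal := by
  have h0 : W ≠ 0 := fun h' => ex_ne_zero F (le_antisymm (h' ▸ h) bot_le)
  rwa [← ex_le_ex, ex_log h0 h1]

theorem log_le {F : ℝ} {W : ℝ≥0∞} (h : W ≤ ex F) (h0 : W ≠ 0) : Real.log W.toReal ≤ F := by
  have h1 : W ≠ ⊤ := ne_top_of_le_ne_top (ex_ne_top F) h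
  rwa [← ex_le_ex, ex_log h0 h1]

theorem Z_ne_top {φ : ℝ → ℝ} (hφ : Tame φ) {β : ℝ} (hβ : 0 < β) {L : ℝ} (hL : 0 ≤ L) (N : ℕ) :
    Z φ β L N ≠ ⊤ := by
  obtain ⟨U, -, h⟩ := up hφ hβ
  exact ne_top_of_le_ne_top (ex_ne_top _) (h L hL N)

theorem Z_ne_zero {φ : ℝ → ℝ} (hφ : Tame φ) {β : ℝ} (hβ : 0 < β) {L : ℝ} (hL : 1 ≤ L) (N : ℕ) :
    Z φ β L N ≠ 0 := by
  obtain ⟨C, -, h⟩ := low hφ hβ (show (0 : ℝ) < N + 1 by positivity)
  have h1 : 1 ≤ L ^ 3 := one_le_pow₀ hL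
  have := h L hL N (by nlinarith [Nat.cast_nonneg (α := ℝ) N])
  exact fun h' => ex_ne_zero _ (le_antisymm (h' ▸ this) bot_le)

/-- finite volume free entropy -/
noncomputable def a (φ : ℝ → ℝ) (β ρ L : ℝ) : ℝ :=
  Real.log (Z φ β L ⌊ρ * L ^ 3⌋₊).toReal / L ^ 3

theorem tendsto_N {ρ : ℝ} (hρ : 0 ≤ ρ) :
    Tendsto (fun L : ℝ => (⌊ρ * L ^ 3⌋₊ : ℝ) / L ^ 3) atTop (𝓝 ρ) :=
  (tendsto_nat_floor_mul_div_atTop hρ).comp (tendsto_pow_atTop three_ne_zero)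

theorem tendsto_inv3 (c : ℝ) : Tendsto (fun L : ℝ => c / L ^ 3) atTop (𝓝 0) :=
  tendsto_const_nhds.div_atTop (tendsto_pow_atTop three_ne_zero)

theorem tendsto_ratio : Tendsto (fun L : ℝ => (L + 2) / L) atTop (𝓝 1) := by
  have h : Tendsto (fun L : ℝ => 1 + 2 / L) atTop (𝓝 (1 + 0)) :=
    tendsto_const_nhds.add (tendsto_const_nhds.div_atTop tendsto_id)
  rw [add_zero] at h
  refine h.congr' ?_
  filter_upwards [eventually_gt_atTop 0] with L hL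
  field_simp

theorem tendsto_K {p : ℝ} (hp : 0 < p) :
    Tendsto (fun L : ℝ => ((⌊p⁻¹ * (L + 2)⌋₊ ^ 3 - 1 : ℕ) : ℝ) / L ^ 3) atTop (𝓝 (p ^ 3)⁻¹) := by
  have h1 := ((tendsto_nat_floor_mul_div_atTop (inv_pos.mpr hp).le).comp
    (tendsto_atTop_add_const_right atTop 2 tendsto_id)).mul tendsto_ratio
  have h2 := (h1.pow 3).sub (tendsto_inv3 1)
  rw [mul_one, sub_zero, inv_pow] at h2
  refine h2.congr' ?_
  filter_upwards [eventually_ge_atTop p] with L hL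
  have hL0 : 0 < L := by linarith
  have h3 : 1 ≤ ⌊p⁻¹ * (L + 2)⌋₊ := by
    rw [Nat.one_le_floor_iff, inv_mul_eq_div, one_le_div hp]
    linarith
  rw [Nat.cast_sub (Nat.one_le_pow _ _ h3)]
  simp only [Function.comp, id]
  push_cast
  field_simp

theorem mix {φ : ℝ → ℝ} (hφ : Tame φ) {β ρ : ℝ} (hβ : 0 < β) (hρ : 0 < ρ) {l : ℝ} {n₁ n₂ : ℕ}
    {F₁ F₂ θ : ℝ} (hl : 1 ≤ l) (h1 : (n₁ : ℝ) < ρ * (l + 2) ^ 3) (h2 : ρ * (l + 2) ^ 3 < n₂)
    (hθ : θ * n₁ + (1 - θ) * n₂ = ρ * (l + 2) ^ 3) (hF₁ : ex F₁ ≤ Z φ β l n₁)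
    (hF₂ : ex F₂ ≤ Z φ β l n₂) {b : ℝ} (hb : b < (θ * F₁ + (1 - θ) * F₂) / (l + 2) ^ 3) :
    ∀ᶠ L in atTop, b < a φ β ρ L := by
  have hp : 0 < l + 2 := by linarith
  have hp3 : 0 < (l + 2) ^ 3 := by positivity
  have h12 : (n₁ : ℝ) < n₂ := h1.trans h2
  have h12' : n₁ < n₂ := by exact_mod_cast h12
  have hn2 : (0 : ℝ) < n₂ := lt_of_le_of_lt (Nat.cast_nonneg _) h12
  obtain ⟨C, hC0, hC⟩ := low hφ hβ hn2
  set c := (F₂ - F₁) / ((n₂ : ℝ) - n₁) with hc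
  have hcc : c * ((n₂ : ℝ) - n₁) = F₂ - F₁ := div_mul_cancel₀ _ (by linarith)
  set M : ℝ → ℕ := fun L => ⌊(l + 2)⁻¹ * (L + 2)⌋₊ ^ 3 - 1 with hM
  set N : ℝ → ℕ := fun L => ⌊ρ * L ^ 3⌋₊ with hN
  have tM : Tendsto (fun L => (M L : ℝ) / L ^ 3) atTop (𝓝 ((l + 2) ^ 3)⁻¹) := tendsto_K hp
  have tN : Tendsto (fun L => (N L : ℝ) / L ^ 3) atTop (𝓝 ρ) := tendsto_N hρ.le
  have tG := ((tM.mul_const F₁).add ((tN.sub (tM.mul_const (n₁ : ℝ))).mul_const c)).sub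
    (tendsto_inv3 (n₂ * |c| + C * l ^ 3))
  have e1 : ((l + 2) ^ 3)⁻¹ * F₁ + (ρ - ((l + 2) ^ 3)⁻¹ * n₁) * c - 0 =
      (θ * F₁ + (1 - θ) * F₂) / (l + 2) ^ 3 := by
    have : ρ = (θ * n₁ + (1 - θ) * n₂) / (l + 2) ^ 3 := by
      rw [hθ]
      field_simp
    have e2 : F₂ = F₁ + c * ((n₂ : ℝ) - n₁) := by linarith
    rw [this, e2]
    field_simp
    ring
  rw [e1] at tG
  have ev1 : ∀ᶠ L in atTop, (M L : ℝ) / L ^ 3 * n₁ < (N L : ℝ) / L ^ 3 := by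
    refine (tM.mul_const (n₁ : ℝ)).eventually_lt tN ?_
    rwa [inv_mul_eq_div, div_lt_iff₀ hp3]
  have ev2 : ∀ᶠ L in atTop, (N L : ℝ) / L ^ 3 < (M L : ℝ) / L ^ 3 * n₂ := by
    refine tN.eventually_lt (tM.mul_const (n₂ : ℝ)) ?_
    rwa [inv_mul_eq_div, lt_div_iff₀ hp3]
  filter_upwards [ev1, ev2, tG.eventually (lt_mem_nhds hb), eventually_ge_atTop (l + 2)]
    with L e1 e2 e3 hL
  have hL0 : 0 < L := by linarith
  have hL3 : 0 < L ^ 3 := by positivity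
  refine e3.trans_le ?_
  rw [div_mul_eq_mul_div, div_lt_div_iff_of_pos_right hL3] at e1 e2
  have e1' : M L * n₁ < N L := by exact_mod_cast e1
  have e2' : N L < M L * n₂ := by exact_mod_cast e2
  obtain ⟨k₂, r, hr, hk⟩ : ∃ k₂ r : ℕ, r < n₂ - n₁ ∧ N L - M L * n₁ = (n₂ - n₁) * k₂ + r :=
    ⟨_, _, Nat.mod_lt _ (by omega), (Nat.div_add_mod _ _).symm⟩
  have hkM : k₂ ≤ M L := by
    by_contra h
    have h3 : (n₂ - n₁) * (M L) ≤ (n₂ - n₁) * k₂ := Nat.mul_le_mul_left _ (by omega)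
    rw [Nat.sub_mul, mul_comm n₂, mul_comm n₁] at h3
    omega
  obtain ⟨k₁, hk₁⟩ := Nat.exists_eq_add_of_le hkM
  have hK1 : 1 ≤ ⌊(l + 2)⁻¹ * (L + 2)⌋₊ := by
    rw [Nat.one_le_floor_iff, inv_mul_eq_div, one_le_div hp]
    linarith
  have hK3 := Nat.one_le_pow 3 _ hK1
  have hT := tile hφ hβ (ι := Fin k₁ ⊕ Fin k₂ ⊕ Unit) (l := l) (L := L) (by linarith)
    (K := ⌊(l + 2)⁻¹ * (L + 2)⌋₊) (by
      have := Nat.floor_le (show 0 ≤ (l + 2)⁻¹ * (L + 2) by positivity)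
      rwa [inv_mul_eq_div, le_div_iff₀ hp, ← inv_mul_eq_div] at this)
    (by
      simp only [Fintype.card_sum, Fintype.card_fin, Fintype.card_unit]
      simp only [hM] at hk₁
      omega)
    (Sum.elim (fun _ => n₁) (Sum.elim (fun _ => n₂) fun _ => r))
  simp only [Fintype.prod_sum_type, Fintype.sum_sum_type, Sum.elim_inl, Sum.elim_inr,
    Finset.prod_const, Finset.sum_const, Finset.card_univ, Fintype.card_fin, Fintype.card_unit,
    smul_eq_mul, pow_one, one_mul] at hT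
  have hNe : k₁ * n₁ + (k₂ * n₂ + r) = N L := by
    obtain ⟨u, hu⟩ := Nat.exists_eq_add_of_le h12'.le
    have h3 : N L = M L * n₁ + ((n₂ - n₁) * k₂ + r) := by omega
    rw [h3, hk₁, hu, Nat.add_sub_cancel_left]
    ring
  rw [hNe] at hT
  have hl3 : 1 ≤ l ^ 3 := one_le_pow₀ hl
  have hrn : (r : ℝ) ≤ n₂ := by exact_mod_cast (by omega : r ≤ n₂)
  have h4 : ex (k₁ * F₁ + (k₂ * F₂ + -(C * l ^ 3))) ≤ Z φ β L (N L) := by
    rw [ex_add, ex_add, ex_nat_mul, ex_nat_mul]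
    refine le_trans ?_ hT
    exact mul_le_mul' (pow_le_pow_left' hF₁ _) (mul_le_mul' (pow_le_pow_left' hF₂ _)
      (hC l hl r (by nlinarith)))
  have h5 := le_log h4 (Z_ne_top hφ hβ hL0.le _)
  have e4 : (M L : ℝ) / L ^ 3 * F₁ + ((N L : ℝ) / L ^ 3 - (M L : ℝ) / L ^ 3 * n₁) * c -
      (n₂ * |c| + C * l ^ 3) / L ^ 3 =
      (M L * F₁ + (N L - M L * n₁) * c - (n₂ * |c| + C * l ^ 3)) / L ^ 3 := by ring
  rw [e4]
  refine div_le_div_of_nonneg_right (le_trans ?_ h5) hL3.le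
  rw [← hNe, hk₁]
  push_cast
  have h6 : (r : ℝ) * c ≤ n₂ * |c| :=
    (mul_le_mul_of_nonneg_left (le_abs_self c) (Nat.cast_nonneg r)).trans
      (mul_le_mul_of_nonneg_right hrn (abs_nonneg c))
  have e2 : F₂ = F₁ + c * ((n₂ : ℝ) - n₁) := by linarith
  rw [e2]
  nlinarith

theorem bounds {φ : ℝ → ℝ} (hφ : Tame φ) {β ρ : ℝ} (hβ : 0 < β) (hρ : 0 < ρ) :
    ∃ U : ℝ, ∀ L : ℝ, 1 ≤ L → |a φ β ρ L| ≤ U := by
  obtain ⟨C, hC0, hC⟩ := low hφ hβ hρ
  obtain ⟨U, hU0, hU⟩ := up hφ hβ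
  refine ⟨C + 1 + U * ρ, fun L hL => ?_⟩
  have hL3 : 0 < L ^ 3 := by positivity
  have hN : (⌊ρ * L ^ 3⌋₊ : ℝ) ≤ ρ * L ^ 3 := Nat.floor_le (by positivity)
  have h1 := le_log (hC L hL _ hN) (Z_ne_top hφ hβ (by linarith) _)
  have h2 := log_le (hU L (by linarith) ⌊ρ * L ^ 3⌋₊) (Z_ne_zero hφ hβ hL _)
  have h3 := mul_le_mul_of_nonneg_left hN hU0
  have h4 : 0 ≤ U * ρ * L ^ 3 := by positivity
  have h5 : 0 ≤ C * L ^ 3 := by positivity
  rw [a, abs_le, le_div_iff₀ hL3, div_le_iff₀ hL3]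
  constructor <;> nlinarith

theorem cauchy {φ : ℝ → ℝ} (hφ : Tame φ) {β ρ : ℝ} (hβ : 0 < β) (hρ : 0 < ρ) {ε : ℝ} (hε : 0 < ε) :
    ∀ᶠ l in atTop, ∀ᶠ L in atTop, a φ β ρ l - ε < a φ β ρ L := by
  obtain ⟨U, hU⟩ := bounds hφ hβ hρ
  obtain ⟨C, hC0, hC⟩ := low hφ hβ (show 0 < 54 * ρ + 1 by positivity)
  have t1 : Tendsto (fun l : ℝ => (((l + 2) / l) ^ 3)⁻¹) atTop (𝓝 1) := by
    simpa using (tendsto_ratio.pow 3).inv₀ (by norm_num)
  have t2 : Tendsto (fun l : ℝ => 1 - (⌊ρ * l ^ 3⌋₊ : ℝ) / l ^ 3 * (((l + 2) / l) ^ 3)⁻¹ / ρ)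
      atTop (𝓝 0) := by
    have := (tendsto_const_nhds (x := (1 : ℝ))).sub (((tendsto_N hρ.le).mul t1).div_const ρ)
    rwa [mul_one, div_self hρ.ne', sub_self] at this
  have t3 := (((tendsto_const_nhds (x := (1 : ℝ))).sub t1).mul_const U).add (t2.mul_const (U + C))
  rw [sub_self, zero_mul, zero_mul, add_zero] at t3
  filter_upwards [t3.eventually (gt_mem_nhds hε), eventually_ge_atTop 1] with l h1 hl
  have hl0 : 0 < l := by linarith
  have hl3 : 1 ≤ l ^ 3 := one_le_pow₀ hl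
  set P := (l + 2) ^ 3 with hP
  have hP1 : l ^ 3 < P := pow_lt_pow_left₀ (by linarith) hl0.le three_ne_zero
  have hP2 : P ≤ 27 * l ^ 3 := by
    have := pow_le_pow_left₀ (show 0 ≤ l + 2 by linarith) (show l + 2 ≤ 3 * l by linarith) 3
    linarith
  have hP0 : 0 < P := by linarith
  set n₁ := ⌊ρ * l ^ 3⌋₊ with hn₁
  set n₂ := ⌈2 * ρ * P⌉₊ with hn₂
  have a1 : (n₁ : ℝ) ≤ ρ * l ^ 3 := Nat.floor_le (by positivity)
  have a2 : (n₁ : ℝ) < ρ * P := by nlinarith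
  have a3 : 2 * ρ * P ≤ n₂ := Nat.le_ceil _
  have a4 : (n₂ : ℝ) < 2 * ρ * P + 1 := Nat.ceil_lt_add_one (by positivity)
  have a5 : 0 < ρ * P := by positivity
  set η := (ρ * P - n₁) / ((n₂ : ℝ) - n₁) with hη
  have b1 : η * ((n₂ : ℝ) - n₁) = ρ * P - n₁ := div_mul_cancel₀ _ (by linarith)
  have b2 : 0 ≤ η := div_nonneg (by linarith) (by linarith)
  have b3 : η ≤ 1 - (n₁ : ℝ) / l ^ 3 * (((l + 2) / l) ^ 3)⁻¹ / ρ := by
    have : 1 - (n₁ : ℝ) / l ^ 3 * (((l + 2) / l) ^ 3)⁻¹ / ρ = (ρ * P - n₁) / (ρ * P) := by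
      rw [hP]
      field_simp
    rw [this]
    exact div_le_div_of_nonneg_left (by linarith) a5 (by linarith)
  refine mix hφ hβ hρ (n₁ := n₁) (n₂ := n₂) (θ := 1 - η) (F₁ := a φ β ρ l * l ^ 3)
    (F₂ := -(C * l ^ 3)) hl a2 (by linarith) (by linarith) ?_ (hC l hl _ (by nlinarith)) ?_
  · rw [a, div_mul_cancel₀ _ (by positivity),
      ex_log (Z_ne_zero hφ hβ hl _) (Z_ne_top hφ hβ hl0.le _)]
  · set w := (((l + 2) / l) ^ 3)⁻¹ with hw
    have c1 : w = l ^ 3 / P := by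
      rw [hw, hP]
      field_simp
    have c2 : w ≤ 1 := by
      rw [c1, div_le_one hP0]
      linarith
    have c3 : 0 ≤ w := by positivity
    have c4 : ((1 - η) * (a φ β ρ l * l ^ 3) + (1 - (1 - η)) * -(C * l ^ 3)) / P =
        w * (a φ β ρ l - η * (a φ β ρ l + C)) := by
      rw [c1]
      field_simp
      ring
    rw [c4]
    obtain ⟨d1, d2⟩ := abs_le.mp (hU l hl)
    have d3 : 0 ≤ U + C := by linarith
    have d4 := mul_le_mul_of_nonneg_right b3 d3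
    have d5 : (1 - w) * a φ β ρ l ≤ (1 - w) * U := mul_le_mul_of_nonneg_left d2 (by linarith)
    have d6 : η * (a φ β ρ l + C) ≤ η * (U + C) := mul_le_mul_of_nonneg_left (by linarith) b2
    have d7 : w * (η * (a φ β ρ l + C)) ≤ η * (U + C) :=
      (mul_le_mul_of_nonneg_left d6 c3).trans (mul_le_of_le_one_left (by positivity) c2)
    nlinarith

theorem conv {φ : ℝ → ℝ} (hφ : Tame φ) {β ρ : ℝ} (hβ : 0 < β) (hρ : 0 < ρ) :
    Tendsto (a φ β ρ) atTop (𝓝 (limsup (a φ β ρ) atTop)) := by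
  obtain ⟨U, hU⟩ := bounds hφ hβ hρ
  have h1 : IsBoundedUnder (· ≤ ·) atTop (a φ β ρ) := isBoundedUnder_of_eventually_le (a := U) (by
    filter_upwards [eventually_ge_atTop 1] with L hL using (abs_le.mp (hU L hL)).2)
  have h2 : IsBoundedUnder (· ≥ ·) atTop (a φ β ρ) := isBoundedUnder_of_eventually_ge (a := -U) (by
    filter_upwards [eventually_ge_atTop 1] with L hL using (abs_le.mp (hU L hL)).1)
  refine tendsto_order.mpr ⟨fun b hb => ?_, fun b hb => eventually_lt_of_limsup_lt hb h1⟩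
  obtain ⟨c, hc1, hc2⟩ := exists_between hb
  obtain ⟨l, hl1, hl2⟩ := ((frequently_lt_of_lt_limsup h2.isCoboundedUnder_le hc2).and_eventually
    (cauchy hφ hβ hρ (sub_pos.mpr hc1))).exists
  filter_upwards [hl2] with L hL
  linarith

end D

open D

theorem thermo {φ : ℝ → ℝ} (hφ : Tame φ) : ∃ S : ℝ → ℝ → ℝ,
    (∀ β ρ : ℝ, 0 < β → 0 < ρ →
      Tendsto (fun L : ℝ => Real.log (partitionFn φ L ⌊ρ * L ^ 3⌋₊ β) / L ^ 3) atTop (𝓝 (S β ρ))) ∧
    (∀ ρ : ℝ, 0 < ρ → ConvexOn ℝ (Set.Ioi 0) fun β => S β ρ) ∧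
    (∀ β ρ : ℝ, 0 < β → 0 < ρ → ∀ (l : ℝ) (n₁ n₂ : ℕ) (F₁ F₂ θ : ℝ), 1 ≤ l →
      (n₁ : ℝ) < ρ * (l + 2) ^ 3 → ρ * (l + 2) ^ 3 < n₂ →
      θ * n₁ + (1 - θ) * n₂ = ρ * (l + 2) ^ 3 →
      ex F₁ ≤ (ZN (cube l) n₁ fun s => ex (-β * En φ s)) →
      ex F₂ ≤ (ZN (cube l) n₂ fun s => ex (-β * En φ s)) →
      (θ * F₁ + (1 - θ) * F₂) / (l + 2) ^ 3 ≤ S β ρ) ∧
    ∀ β ρ : ℝ, 0 < β → 0 < ρ → ∀ ν P : ℝ,
      (∀ δ : ℝ, 0 < δ → ∀ᶠ L : ℝ in atTop,
        (LP (cube L) fun s => ex (-β * En φ s + ν * s.card)) ≤ ex ((P + δ) * L ^ 3)) →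
      S β ρ + ν * ρ ≤ P := by
  refine ⟨fun β ρ => limsup (a φ β ρ) atTop, fun β ρ hβ hρ => ?_, fun ρ hρ => ?_,
    fun β ρ hβ hρ l n₁ n₂ F₁ F₂ θ hl h1 h2 hθ hF₁ hF₂ => ?_, fun β ρ hβ hρ ν P hP => ?_⟩
  · simp only [partitionFn_eq hφ.meas]
    exact conv hφ hβ hρ
  · refine ⟨convex_Ioi 0, fun x hx y hy s t hs ht hst => ?_⟩
    have hxy := convex_Ioi (0 : ℝ) hx hy hs ht hst
    simp only [smul_eq_mul] at hxy ⊢
    refine le_of_tendsto_of_tendsto (conv hφ hxy hρ)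
      (((conv hφ hx hρ).const_mul s).add ((conv hφ hy hρ).const_mul t)) ?_
    filter_upwards [eventually_ge_atTop 1] with L hL
    have hL3 : 0 < L ^ 3 := by positivity
    have h := ZN_holder (cube L) ⌊ρ * L ^ 3⌋₊ ((measR_En hφ.meas).const_mul (-x))
      ((measR_En hφ.meas).const_mul (-y)) hs ht hst
    have e : ∀ u v : ℝ, 0 ≤ v → ex u ^ v = ex (v * u) := by
      intro u v hv
      unfold ex
      rw [ENNReal.ofReal_rpow_of_nonneg (Real.exp_pos _).le hv, ← Real.exp_mul, mul_comm]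
    have e2 : (fun c : Cfg => ex (s * (-x * En φ c) + t * (-y * En φ c))) =
        fun c => ex (-(s * x + t * y) * En φ c) := by
      funext c
      congr 1
      ring
    rw [e2] at h
    change Z φ _ L _ ≤ Z φ _ L _ ^ s * Z φ _ L _ ^ t at h
    rw [← ex_log (Z_ne_zero hφ hx hL _) (Z_ne_top hφ hx (by linarith) _),
      ← ex_log (Z_ne_zero hφ hy hL _) (Z_ne_top hφ hy (by linarith) _), e _ _ hs, e _ _ ht,
      ← ex_add] at h
    have h2 := div_le_div_of_nonneg_right (log_le h (Z_ne_zero hφ hxy hL _)) hL3.le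
    simp only [a]
    refine h2.trans (le_of_eq ?_)
    ring
  · refine le_of_forall_lt_imp_le_of_dense fun b hb => ?_
    exact ge_of_tendsto (conv hφ hβ hρ)
      ((mix hφ hβ hρ hl h1 h2 hθ hF₁ hF₂ hb).mono fun L hL => hL.le)
  · refine le_of_forall_pos_le_add fun δ hδ => ?_
    refine le_of_tendsto ((conv hφ hβ hρ).add ((tendsto_N hρ.le).const_mul ν)) ?_
    filter_upwards [hP δ hδ, eventually_ge_atTop 1] with L h hL
    have hL3 : 0 < L ^ 3 := by positivity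
    have h1 : ex (ν * ⌊ρ * L ^ 3⌋₊) * Z φ β L ⌊ρ * L ^ 3⌋₊ ≤ ex ((P + δ) * L ^ 3) := by
      refine le_trans ?_ ((ZN_le_LP _ ⌊ρ * L ^ 3⌋₊ _).trans h)
      rw [Z, ← ZN_const_mul _ _ (ex_ne_top _)]
      refine ZN_mono (measurableSet_cube L) le_rfl fun s _ hc => ?_
      rw [← ex_add, hc, add_comm]
    rw [← ex_log (Z_ne_zero hφ hβ hL _) (Z_ne_top hφ hβ (by linarith) _), ← ex_add,
      ex_le_ex] at h1
    rw [a, ← mul_div_assoc, ← add_div, div_le_iff₀ hL3]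
    linarith

theorem kink {S : ℝ → ℝ} (hS : ConvexOn ℝ (Set.Ioi 0) S) {e₁ e₂ : ℝ} (he : e₁ < e₂)
    (h₁ : ∀ β, 1 < β → S 1 - (β - 1) * e₁ ≤ S β)
    (h₂ : ∀ β, 0 < β → β < 1 → S 1 + (1 - β) * e₂ ≤ S β) :
    ∃ Dl Dr : ℝ, HasDerivWithinAt (fun β => -S β / β) Dl (Set.Iio 1) 1 ∧
      HasDerivWithinAt (fun β => -S β / β) Dr (Set.Ioi 1) 1 ∧ Dr < Dl := by
  have hi : (1 : ℝ) ∈ interior (Set.Ioi (0 : ℝ)) := by
    rw [interior_Ioi]
    exact Set.mem_Ioi.mpr one_pos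
  have hl := hS.hasDerivWithinAt_leftDeriv_of_mem_interior hi
  have hr := hS.hasDerivWithinAt_rightDeriv_of_mem_interior hi
  have h3 : -e₁ ≤ derivWithin S (Set.Ioi 1) 1 := by
    refine ge_of_tendsto ((hasDerivWithinAt_iff_tendsto_slope' (by simp)).mp hr) ?_
    filter_upwards [self_mem_nhdsWithin] with β hβ
    have hβ' : 1 < β := hβ
    rw [slope_def_field, le_div_iff₀ (by linarith)]
    linarith [h₁ β hβ']
  have h4 : derivWithin S (Set.Iio 1) 1 ≤ -e₂ := by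
    refine le_of_tendsto ((hasDerivWithinAt_iff_tendsto_slope' (by simp)).mp hl) ?_
    filter_upwards [Ioo_mem_nhdsLT one_pos] with β hβ
    rw [slope_def_field, div_le_iff_of_neg (by linarith [hβ.2])]
    linarith [h₂ β hβ.1 hβ.2]
  refine ⟨_, _, hl.neg.div (hasDerivWithinAt_id 1 _) one_ne_zero,
    hr.neg.div (hasDerivWithinAt_id 1 _) one_ne_zero, ?_⟩
  simp only [id, mul_one, one_pow, div_one]
  linarith

end Crest.Agent.R149
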