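import Crest.Agent.R149.Iter
import Crest.Agent.R149.Thermo

/-! Row 149: the two one-sided estimates for the limiting potential. -/

set_option autoImplicit false
open MeasureTheory Crest.ProbabilityR.Continuum Filter Topology
open scoped ENNReal BigOperators

namespace Crest.Agent.R149

theorem pick (I : Finset ℕ) {π x d : ℕ → ℝ} {s D : ℝ} (hs : 0 < s) (hD : 0 < D)
    (h0 : ∀ i ∈ I, 0 ≤ π i ∧ 0 ≤ x i ∧ x i ≤ s ∧ 0 ≤ d i) (h1 : s / 4 ≤ ∑ i ∈ I, π i * x i)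
    (h2 : ∑ i ∈ I, π i * (x i * (s - x i)) ≤ s ^ 2 / 80) (h3 : ∑ i ∈ I, π i * d i ≤ D) :
    ∃ i ∈ I, 9 / 10 * s ≤ x i ∧ d i ≤ 16 * D := by
  by_contra h
  push Not at h
  have h4 : ∀ i ∈ I, 16 * D * s * (π i * x i) - 160 * D * (π i * (x i * (s - x i))) ≤
      s ^ 2 * (π i * d i) := fun i hi => by
    obtain ⟨a1, a2, a3, a4⟩ := h0 i hi
    have : 16 * D * (x i * (10 * x i - 9 * s)) ≤ s ^ 2 * d i := by
      rcases le_or_gt (9 / 10 * s) (x i) with h5 | h5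
      · have h6 : x i * (10 * x i - 9 * s) ≤ s ^ 2 := by nlinarith
        nlinarith [mul_le_mul_of_nonneg_left (h i hi h5).le (sq_nonneg s)]
      · have h6 : x i * (10 * x i - 9 * s) ≤ 0 := mul_nonpos_of_nonneg_of_nonpos a2 (by linarith)
        nlinarith [mul_nonneg (sq_nonneg s) a4]
    linarith [mul_le_mul_of_nonneg_left this a1]
  have h5 := Finset.sum_le_sum h4
  simp only [Finset.sum_sub_distrib, ← Finset.mul_sum] at h5
  have h6 := mul_le_mul_of_nonneg_left h1 (by positivity : 0 ≤ 16 * D * s)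
  have h7 := mul_le_mul_of_nonneg_left h2 (by positivity : 0 ≤ 160 * D)
  have h8 := mul_le_mul_of_nonneg_left h3 (sq_nonneg s)
  have h9 : 0 < D * s ^ 2 := by positivity
  linarith

theorem press_le {l Y δ : ℝ} (hl : 0 < l) (hY : 0 ≤ Y) (hδ : 0 < δ) :
    ∀ᶠ L : ℝ in atTop, l + (⌊L / l⌋₊ + 2) ^ 3 * Y ≤ (Y / l ^ 3 + δ) * L ^ 3 := by
  have h1 : Tendsto (fun x : ℝ => l * x ^ 3 + (1 / l + 2 * x) ^ 3 * Y) (𝓝 0) (𝓝 (Y / l ^ 3)) := by
    have : Continuous fun x : ℝ => l * x ^ 3 + (1 / l + 2 * x) ^ 3 * Y := by fun_prop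
    convert this.tendsto 0 using 2
    field_simp; ring
  filter_upwards [(h1.comp tendsto_inv_atTop_zero).eventually
    (ge_mem_nhds (lt_add_of_pos_right _ hδ)), eventually_gt_atTop 0] with L h2 hL
  have h3 := mul_le_mul_of_nonneg_right h2 (pow_pos hL 3).le
  have h4 : (l * L⁻¹ ^ 3 + (1 / l + 2 * L⁻¹) ^ 3 * Y) * L ^ 3 = l + (L / l + 2) ^ 3 * Y := by
    field_simp
  simp only [Function.comp] at h3
  rw [h4] at h3
  refine le_trans ?_ h3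
  gcongr
  exact Nat.floor_le (by positivity)

theorem mix_lower {S ρ V c₀ c₁ n₁ n₂ G₁ G₂ : ℝ} (hV : 0 < V) (h1 : n₁ < ρ * V) (h2 : ρ * V < n₂)
    (hmix : ∀ θ : ℝ, θ * n₁ + (1 - θ) * n₂ = ρ * V → (θ * G₁ + (1 - θ) * G₂) / V ≤ S)
    (g1 : c₀ * V - c₁ * n₁ ≤ G₁) (g2 : c₀ * V - c₁ * n₂ ≤ G₂) : c₀ - c₁ * ρ ≤ S := by
  have h3 : 0 < n₂ - n₁ := by linarith
  obtain ⟨θ, hθ⟩ : ∃ θ, θ = (n₂ - ρ * V) / (n₂ - n₁) := ⟨_, rfl⟩
  have h4 : θ * n₁ + (1 - θ) * n₂ = ρ * V := by rw [hθ]; field_simp; ring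
  have h5 : 0 ≤ θ := hθ ▸ div_nonneg (by linarith) h3.le
  have h6 : 0 ≤ 1 - θ := by rw [sub_nonneg, hθ, div_le_one h3]; linarith
  refine le_trans ?_ (hmix θ h4)
  rw [le_div_iff₀ hV]
  have h7 := mul_le_mul_of_nonneg_left g1 h5
  have h8 := mul_le_mul_of_nonneg_left g2 h6
  have h9 : c₁ * (θ * n₁ + (1 - θ) * n₂) = c₁ * (ρ * V) := by rw [h4]
  linarith

theorem le_of_forall_small {x y K e₀ : ℝ} (he₀ : 0 < e₀)
    (h : ∀ e, 0 < e → e ≤ e₀ → x ≤ y + K * e) : x ≤ y := by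
  have h1 : Tendsto (fun e : ℝ => y + K * e) (𝓝[>] 0) (𝓝 y) := by
    have : Continuous fun e : ℝ => y + K * e := by fun_prop
    simpa using (this.tendsto 0).mono_left nhdsWithin_le_nhds
  refine ge_of_tendsto h1 ?_
  filter_upwards [Ioc_mem_nhdsGT he₀] with e he using h e he.1 he.2

theorem En_phi (c : ℝ) (v Ψ : ℝ → ℝ) (s : Cfg) :
    En (fun r => c * v r - Ψ r) s = c * En v s - En Ψ s := by
  have := En_lin c (-1) v Ψ s
  simp only [neg_mul, one_mul, ← sub_eq_add_neg] at this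
  exact this

namespace Mod
variable (M : Mod)

theorem stable {c A : ℝ} {Ψ : ℝ → ℝ} (h0 : 0 ≤ Ψ 0) (hA : Dom Ψ A) (hA0 : 0 ≤ A) (hc : 4 * A ≤ c) :
    ∃ B : ℝ, ∀ s : Cfg, -B * s.card ≤ En (fun r => c * M.v r - Ψ r) s := by
  refine ⟨4 * c + 17 * A, fun s => ?_⟩
  obtain ⟨j, -, D, hD, h1, -, -, -, h5, -⟩ := det M.hv M.ε0 M.hR M.hb s (P := s.card)
    fun X hX _ => by
      exact_mod_cast Multiset.card_le_card ((Multiset.le_iff_subset X.nodup).2 hX)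
  have hn : (0 : ℝ) ≤ s.card := Nat.cast_nonneg _
  have h2 := mul_le_mul_of_nonneg_right M.θ1 (by positivity : (0 : ℝ) ≤ 32 * s.card + 3 * D)
  have h3 : (0 : ℝ) ≤ occ (M.R * (2 * M.ε)) (j * (2 * M.ε)) s := Nat.cast_nonneg _
  have h4 := mul_le_mul_of_nonneg_left (by linarith : D / 2 - 4 * s.card ≤ En M.v s)
    (by linarith : 0 ≤ c)
  have h6 := (hA.en_le h0 s).trans (mul_le_mul_of_nonneg_left h5 (by positivity))
  have h7 := mul_le_mul_of_nonneg_right hc hD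
  have h8 := mul_nonneg hA0 hn
  rw [En_phi]
  linarith

theorem Xi_shift (t : ℕ) (Ψ : ℝ → ℝ) {β b e : ℝ} (h : |β - b| ≤ e) (ν g : ℝ) :
    M.Xi t Ψ b ν g ≤ ex (700 * M.Λ * e * t ^ 3) * M.Xi t Ψ β ν g := by
  rw [Xi, Xi, ← LP_const_mul _ (ex_ne_top _)]
  refine LP_mono (measurableSet_cube _) subset_rfl fun s _ => ?_
  rw [M.wt_shift _ _ β b, mul_left_comm]
  by_cases hg : M.Good ((t : ℝ) ^ 3) s
  · refine mul_le_mul_left (ex_le_ex.2 ((le_abs_self _).trans ?_)) _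
    rw [abs_mul, abs_neg, abs_mul, abs_sub_comm, abs_of_nonneg (by linarith [M.Λ8] : 0 ≤ M.Λ)]
    refine (mul_le_mul (mul_le_mul_of_nonneg_right h (by linarith [M.Λ8]))
      (M.good_bd (by positivity) hg).2 (abs_nonneg _)
      (mul_nonneg ((abs_nonneg _).trans h) (by linarith [M.Λ8]))).trans (le_of_eq (by ring))
  · simp [wt, hg]

theorem ZN_lower (l n : ℕ) {Ψ Ψ₀ : ℝ → ℝ} (h0 : ∀ r, 0 ≤ Ψ₀ r ∧ Ψ₀ r ≤ Ψ r) {A : ℝ} (hA0 : 0 ≤ A)
    (hA : Dom Ψ A) (b : ℝ) {β F : ℝ} (hβ : 0 ≤ β) (hF : ex F ≤ M.ZG (l + 2) Ψ₀ n (β * b)) :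
    ex (F - max 0 (1 - β) * (150 * A) * (l + 2) ^ 3) ≤
      ZN (cube l) n fun s => ex (-β * En (fun r => b * M.Λ * M.v r - Ψ r) s) := by
  have e1 : (((l + 2 : ℕ) : ℝ) - 2) = l := by push_cast; ring
  have e2 : ((l + 2 : ℕ) : ℝ) = l + 2 := by push_cast; ring
  rw [ZG, e1, e2] at hF
  rw [sub_eq_neg_add, ex_add]
  refine (mul_le_mul_right hF _).trans ?_
  rw [← ZN_const_mul _ _ (ex_ne_top _)]
  refine ZN_mono (measurableSet_cube _) subset_rfl fun s _ _ => ?_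
  rw [wt]
  split_ifs with hg
  · rw [← ex_add, ex_le_ex, En_phi]
    have h1 := En_mono (fun r _ => (h0 r).2) s
    have h2 := En_nonneg (fun r _ => (h0 r).1) s
    have h3 := h1.trans ((hA.en_le ((h0 0).1.trans (h0 0).2) s).trans
      (mul_le_mul_of_nonneg_left hg.1 (by positivity)))
    have h4 := mul_le_mul_of_nonneg_left h1 hβ
    have h5 := mul_le_mul (le_max_right 0 (1 - β)) h3 h2 (le_max_left _ _)
    linarith
  · simp

theorem up_bd {l : ℕ} {Ψ Ψ₀ : ℝ → ℝ} {A e b β ν U : ℝ} (he : 0 < e) (hl : 1 ≤ e * l)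
    (hm : Measurable Ψ₀) (h0 : ∀ r, 0 ≤ Ψ₀ r ∧ Ψ₀ r ≤ Ψ r) (hA : Dom Ψ A) (hA0 : 0 ≤ A)
    (h1 : Dom (fun r => Ψ r - Ψ₀ r) e) (h2 : Dom (fun r => 3 * (r + 1) * Ψ₀ r) (e * l))
    (hb : |b - 1| ≤ M.τ) (hβ : |β - b| ≤ e) (hν : |ν| ≤ M.τ * M.Λ)
    (hbud : A / 2 + 3088 * M.Λ * e ≤ M.τ * M.Λ) (hU : M.Xi (l + 2) Ψ₀ β ν 0 ≤ ex (U * (l + 2) ^ 3))
    {δ : ℝ} (hδ : 0 < δ) : ∀ᶠ L : ℝ in atTop, (LP (cube L) fun s =>
      ex (-1 * En (fun r => b * M.Λ * M.v r - Ψ r) s + ν * s.card)) ≤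
        ex ((U + 10 ^ 6 * M.Λ * e + δ) * L ^ 3) := by
  have hΛ := M.Λ8
  have hτ := M.τ1
  have hΛe : 0 < M.Λ * e := by positivity
  have hτΛ := mul_le_mul_of_nonneg_right hτ (by linarith : 0 ≤ M.Λ)
  have he1 : e ≤ 1 := le_of_mul_le_mul_left (by linarith) (by linarith : 0 < M.Λ)
  have hl1 : (1 : ℝ) ≤ l := hl.trans (mul_le_of_le_one_left (Nat.cast_nonneg l) he1)
  have hl0 : (0 : ℝ) < l := by linarith
  have e2 : ((l + 2 : ℕ) : ℝ) = l + 2 := by push_cast; ring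
  have hA' : Dom Ψ₀ A := hA.mono (fun r _ => (h0 r).2) le_rfl
  have x1 := (M.Xi_shift (l + 2) Ψ₀ hβ ν 0).trans (mul_le_mul_right hU _)
  have x2 := M.Xi_le (t := l + 2) (by omega) (h0 0).1 hA' le_rfl le_rfl hb hν (by linarith)
  rw [← ex_add, e2] at x1
  rw [e2] at x2
  obtain ⟨V, hV⟩ : ∃ V : ℝ, V = (l + 2) ^ 3 := ⟨_, rfl⟩
  rw [← hV] at x1 x2
  have hV1 : 1 ≤ e * V := hl.trans (mul_le_mul_of_nonneg_left
    (hV ▸ (by linarith : (l : ℝ) ≤ l + 2).trans (le_self_pow₀ (by linarith) (by norm_num))) he.le)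
  have hV0 : 0 < V := by rw [hV]; positivity
  have hXm := (Monotone.map_min (f := ex) fun _ _ => ex_le_ex.2).ge.trans' (le_min x1 x2)
  have hX0 := ex_le_ex.1 (ex_zero.trans_le ((M.one_le_Xi _ _ _ _ _).trans hXm))
  obtain ⟨X, hXd⟩ : ∃ X, X = min (700 * M.Λ * e * V + U * V)
    ((CR M.R + 1300 * (162 / M.R + M.τ) * M.Λ) * V) := ⟨_, rfl⟩
  rw [← hXd] at hXm hX0
  have b1 := hXd.trans_le (min_le_left _ _)
  have b2 := (hXd.trans_le (min_le_right _ _)).trans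
    (mul_le_mul_of_nonneg_right (M.K_le le_rfl) hV0.le)
  obtain ⟨Y, hY⟩ : ∃ Y, Y = 1 + 300 * (3088 * M.Λ * e) * V + X := ⟨_, rfl⟩
  have hY0 : 0 ≤ Y := by rw [hY]; positivity
  have hY1 : Y ≤ M.Λ * V := by
    have c1 := mul_le_mul_of_nonneg_right (by linarith : 3088 * M.Λ * e ≤ M.Λ / 10400) hV0.le
    have c2 := mul_le_mul_of_nonneg_right he1 hV0.le
    have c3 := mul_le_mul_of_nonneg_right hΛ hV0.le
    linarith
  have hY2 : Y / l ^ 3 ≤ U + 10 ^ 6 * M.Λ * e := by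
    have c1 : V ≤ l ^ 3 * (1 + 26 * e) := by
      have := mul_le_mul_of_nonneg_left hl (by positivity : (0 : ℝ) ≤ 26 * l ^ 2)
      rw [hV]; nlinarith
    have c2 : Y / l ^ 3 ≤ Y / V * (1 + 26 * e) := by
      rw [div_mul_eq_mul_div, div_le_div_iff₀ (by positivity) hV0]
      linarith [mul_le_mul_of_nonneg_left c1 hY0]
    have c3 : Y / V ≤ M.Λ := (div_le_iff₀ hV0).2 hY1
    have c4 : Y / V ≤ U + (926400 + 700 + 1) * M.Λ * e := by
      rw [div_le_iff₀ hV0]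
      have := mul_le_mul_of_nonneg_right hΛ (by positivity : 0 ≤ e * V)
      linarith
    have c5 := mul_le_mul_of_nonneg_right c3 he.le
    linarith
  filter_upwards [press_le hl0 hY0 hδ, eventually_ge_atTop 0] with L hL hL0
  have key := M.upper' (l := l) (by exact_mod_cast hl1) L hm (fun r _ => (h0 r).1) hA' h2 le_rfl
    (η := 3088 * M.Λ * e) (by positivity) (Ψ' := fun r => Ψ r - Ψ₀ r) (A' := e / 2)
    (fun j s => by rw [zero_mul, zero_add]; exact h1.en_le (sub_nonneg.2 (h0 0).2) s) ?_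
    (by linarith) hb hν hXm
  · simp only [add_sub_cancel] at key
    rw [← hV, ← hY] at key
    refine le_trans (le_of_eq ?_) (key.trans (ex_le_ex.2 (hL.trans (by gcongr))))
    simp only [En_phi]
    congr 1; funext s; congr 1; ring
  · have c1 : (e * l + 6174 * M.Λ) / (2 * l) ≤ e / 2 + 3087 * M.Λ * e := by
      rw [div_le_iff₀ (by positivity)]
      linarith [mul_le_mul_of_nonneg_left hl (by linarith : 0 ≤ M.Λ)]
    linarith [mul_le_mul_of_nonneg_right hΛ he.le]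

theorem phases (hw : M.w = 1 / 10 ^ 4) {ρ₀ : ℝ} (hρ1 : M.p - M.w ≤ ρ₀) (hρ2 : ρ₀ ≤ M.p) {t : ℕ}
    (ht : 1 ≤ t) {Ψ : ℝ → ℝ} {e β : ℝ} (he : 0 < e)
    (hS : M.St ρ₀ t Ψ e (17 / 3 * ρ₀ ^ 2 - 1 / 125) β) :
    ∃ ν U : ℝ, |ν| ≤ M.τ * M.Λ ∧ M.Xi t Ψ β ν 0 ≤ ex (U * t ^ 3) ∧
      ∀ c : Fin 3, ∃ (n : ℕ) (F h : ℝ), (∀ β' : ℝ, ex (F - β' * M.Λ * h) ≤ M.ZG t Ψ n β') ∧
        M.Tri (t ^ 3) n h ∧ (U - 16 * e) * t ^ 3 ≤ ν * n + (F - β * M.Λ * h) ∧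
        9 / 10 * ((M.p + 3 * M.w) * t ^ 3) ≤ ![(M.p + M.w) * t ^ 3 - n - h / 3,
          n + 4 / 9 * h + M.w * t ^ 3, -h / 9 + M.w * t ^ 3] c := by
  obtain ⟨I, π, F, h, n, ν, s1, s2, s3, s4, -, s6, s7, s8⟩ := hS
  have hp := M.p1
  have hV : (0 : ℝ) < (t : ℝ) ^ 3 := by positivity
  obtain ⟨U, hU⟩ : ∃ U, U * (t : ℝ) ^ 3 = ∑ i ∈ I, π i * F i +
      (3 * β * M.Λ * ρ₀ + 5 / 3 * ν * ρ₀ + e) * (t : ℝ) ^ 3 := ⟨_, div_mul_cancel₀ _ hV.ne'⟩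
  rw [← hU] at s7
  refine ⟨ν, U, s6, s7, fun c => ?_⟩
  have hd : ∀ i ∈ I, 0 ≤ U * t ^ 3 - (ν * n i + (F i - β * M.Λ * h i)) := fun i hi => by
    have := ex_le_ex.1 ((M.term_le_Xi t Ψ β ν 0 (n i) ((s1 i hi).2.1 β)).trans s7)
    linarith
  generalize (t : ℝ) ^ 3 = V at *
  have lin : ∀ (a b c d : ℝ), ∑ i ∈ I, π i * (a + b * n i + c * h i + d * n i ^ 2) =
      a + b * (5 / 3 * ρ₀ * V) + c * (-3 * ρ₀ * V) + d * ∑ i ∈ I, π i * (n i : ℝ) ^ 2 :=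
    fun a b c d => by
      rw [← s3, ← s4]
      conv_rhs => rw [← mul_one a, ← s2]
      simp only [Finset.mul_sum, ← Finset.sum_add_distrib]
      exact Finset.sum_congr rfl fun i _ => by ring
  have hwV : 0 < M.w * V := mul_pos M.w0 hV
  have a1 := mul_le_mul_of_nonneg_right hρ1 hV.le
  have a2 := mul_le_mul_of_nonneg_right hρ2 hV.le
  have a3 := mul_le_mul_of_nonneg_right hp hV.le
  have a4 := mul_le_of_le_one_left hV.le M.w1
  refine (pick I (π := π) (s := (M.p + 3 * M.w) * V) (D := e * V)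
    (x := fun i => ![(M.p + M.w) * V - n i - h i / 3, n i + 4 / 9 * h i + M.w * V,
      -h i / 9 + M.w * V] c) (d := fun i => U * V - (ν * n i + (F i - β * M.Λ * h i)))
    (by linarith) (by positivity) (fun i hi => ?_) ?_ ?_ ?_).elim fun i ⟨hi, h1, h2⟩ =>
      ⟨n i, F i, h i, (s1 i hi).2.1, (s1 i hi).2.2, by linarith, h1⟩
  · obtain ⟨b1, b2, b3⟩ := (s1 i hi).2.2
    refine ⟨(s1 i hi).1, ?_, ?_, hd i hi⟩ <;> fin_cases c <;> simp <;> linarith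
  · fin_cases c
    · refine le_trans ?_ ((lin ((M.p + M.w) * V) (-1) (-1 / 3) 0).symm.trans_le
        (le_of_eq (Finset.sum_congr rfl fun i _ => by simp; ring_nf; simp)))
      linarith
    · refine le_trans ?_ ((lin (M.w * V) 1 (4 / 9) 0).symm.trans_le
        (le_of_eq (Finset.sum_congr rfl fun i _ => by simp; ring_nf; simp)))
      linarith
    · refine le_trans ?_ ((lin (M.w * V) 0 (-1 / 9) 0).symm.trans_le
        (le_of_eq (Finset.sum_congr rfl fun i _ => by simp; ring_nf; simp)))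
      linarith
  · refine (Finset.sum_le_sum fun i hi => mul_le_mul_of_nonneg_left ?_ (s1 i hi).1).trans
      ((lin ((M.p + 3 * M.w) * V * (17 * (M.w * V))) ((M.p + 3 * M.w) * V)
        ((M.p + 3 * M.w) * V * (-4 / 3)) (-1)).trans_le ?_)
    · obtain ⟨b1, b2, b3⟩ := (s1 i hi).2.2
      obtain ⟨x, hx⟩ : ∃ x, x = (M.p + M.w) * V - n i - h i / 3 := ⟨_, rfl⟩
      obtain ⟨y, hy⟩ : ∃ y, y = n i + 4 / 9 * h i + M.w * V := ⟨_, rfl⟩
      obtain ⟨z, hz⟩ : ∃ z, z = -h i / 9 + M.w * V := ⟨_, rfl⟩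
      have c1 : (M.p + 3 * M.w) * V = x + y + z := by rw [hx, hy, hz]; ring
      have c2 : (n i : ℝ) ^ 2 ≤ (y + 4 * z) ^ 2 :=
        pow_le_pow_left₀ (Nat.cast_nonneg _) (by linarith) 2
      have c3 : (x + y + z) * (17 * (M.w * V)) + (x + y + z) * n i +
          (x + y + z) * (-4 / 3) * h i = (x + y + z) * (y + 16 * z) := by rw [hy, hz]; ring
      have c4 := mul_nonneg (by linarith : 0 ≤ x) (by linarith : 0 ≤ y)
      have c5 := mul_nonneg (by linarith : 0 ≤ x) (by linarith : 0 ≤ z)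
      have c6 := mul_nonneg (by linarith : 0 ≤ y) (by linarith : 0 ≤ z)
      rw [← hx, ← hy, ← hz, c1, c3]
      fin_cases c <;> simp <;> linarith
    · have c1 : (M.p + 3 * M.w) * (17 * M.w + 17 / 3 * ρ₀) - (17 / 3 * ρ₀ ^ 2 - 1 / 125) ≤
          (M.p + 3 * M.w) ^ 2 / 80 := by
        rw [hw] at hρ1 ⊢
        nlinarith
      linarith [mul_le_mul_of_nonneg_right c1 (sq_nonneg V)]
  · have c1 := lin (U * V) (-ν) (β * M.Λ) 0
    have c2 : ∑ i ∈ I, π i * (U * V - (ν * n i + (F i - β * M.Λ * h i))) =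
        ∑ i ∈ I, π i * (U * V + -ν * n i + β * M.Λ * h i + 0 * n i ^ 2) - ∑ i ∈ I, π i * F i := by
      rw [← Finset.sum_sub_distrib]
      exact Finset.sum_congr rfl fun i _ => by ring
    linarith

end Mod

end Crest.Agent.R149
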