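import Crest.Agent.R149.Pair

/-! Task 149-C: the packing density. -/

set_option autoImplicit false
open MeasureTheory Crest.ProbabilityR.Continuum Filter Topology
open scoped ENNReal BigOperators

namespace Crest.Agent.R149

namespace Pk

lemma card_le {L : ℝ} (hL : 0 ≤ L) {n : ℕ} (hn : n ∈ packingSet L) : (n : ℝ) ≤ 8 * (L + 1) ^ 3 := by
  obtain ⟨X, rfl, h1, h2⟩ := hn
  have h3 : X.card ≤ (Fintype.piFinset fun _ : Fin 3 =>
      Finset.Ico (0 : ℤ) ((⌊L / (1 / 2)⌋₊ + 2 : ℕ) : ℤ)).card := by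
    refine Finset.card_le_card_of_injOn (cell (1 / 2) 0)
      (fun x hx => cell_mem_box (by norm_num) le_rfl (by norm_num) (h1 x hx)) fun x hx y hy h => ?_
    by_contra hne
    have := dist_le_of_cell (by norm_num) h
    linarith [h2 x hx y hy hne]
  rw [Fintype.card_piFinset] at h3
  simp only [Int.card_Ico, sub_zero, Int.toNat_natCast, Finset.prod_const, Finset.card_univ,
    Fintype.card_fin] at h3
  have h4 : (X.card : ℝ) ≤ ((⌊L / (1 / 2)⌋₊ : ℝ) + 2) ^ 3 := by exact_mod_cast h3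
  have h5 := Nat.floor_le (show 0 ≤ L / (1 / 2) by positivity)
  calc _ ≤ _ := h4
    _ ≤ (2 * (L + 1)) ^ 3 := pow_le_pow_left₀ (by positivity) (by linarith) 3
    _ = _ := by ring

lemma bdd {L : ℝ} (hL : 0 ≤ L) : BddAbove (packingSet L) :=
  ⟨⌊8 * (L + 1) ^ 3⌋₊, fun _ hn => Nat.le_floor (card_le hL hn)⟩

lemma mem {L : ℝ} (hL : 0 ≤ L) : packingNumber L ∈ packingSet L :=
  Nat.sSup_mem ⟨0, ∅, by simp⟩ (bdd hL)

lemma le_pack {L : ℝ} (hL : 0 ≤ L) {n : ℕ} (hn : n ∈ packingSet L) : n ≤ packingNumber L :=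
  le_csSup (bdd hL) hn

lemma tile {l L : ℝ} (hl : 0 ≤ l) (hL : 0 ≤ L) {K : ℕ} (hK : K * (l + 1) ≤ L + 1) :
    K ^ 3 * packingNumber l ≤ packingNumber L := by
  classical
  obtain ⟨X, hX, h1, h2⟩ := mem hl
  set F : (Fin 3 → Fin K) × Pt → Pt :=
    fun p => p.2 + WithLp.toLp 2 fun k => (l + 1) * ((p.1 k : ℕ) : ℝ) with hF
  have hFk : ∀ p k, F p k = p.2 k + (l + 1) * ((p.1 k : ℕ) : ℝ) := fun p k => rfl
  have hsep : ∀ p ∈ Finset.univ ×ˢ X, ∀ p' ∈ Finset.univ ×ˢ X, p ≠ p' → 1 ≤ dist (F p) (F p') := by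
    rintro ⟨q, x⟩ hp ⟨q', x'⟩ hp' hne
    have hx := (Finset.mem_product.1 hp).2
    have hx' := (Finset.mem_product.1 hp').2
    by_cases hq : q = q'
    · subst hq
      simp only [hF, dist_add_right]
      exact h2 x hx x' hx' fun h => hne (by rw [h])
    · obtain ⟨k, hk⟩ := Function.ne_iff.1 hq
      refine le_trans ?_ (abs_sub_le_dist _ _ k)
      rw [hFk, hFk]
      obtain ⟨a1, a2⟩ := h1 x hx k
      obtain ⟨b1, b2⟩ := h1 x' hx' k
      have hk' : (q k : ℕ) ≠ q' k := fun h => hk (Fin.ext h)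
      rcases lt_or_gt_of_ne hk' with h | h
      · have : ((q k : ℕ) : ℝ) + 1 ≤ (q' k : ℕ) := by exact_mod_cast h
        refine le_trans ?_ (neg_le_abs _)
        simp only at *
        nlinarith
      · have : ((q' k : ℕ) : ℝ) + 1 ≤ (q k : ℕ) := by exact_mod_cast h
        refine le_trans ?_ (le_abs_self _)
        simp only at *
        nlinarith
  refine le_pack hL ⟨(Finset.univ ×ˢ X).image F, ?_, ?_, ?_⟩
  · rw [Finset.card_image_of_injOn, Finset.card_product, hX]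
    · simp
    · intro p hp p' hp' h
      by_contra hne
      have := hsep p hp p' hp' hne
      rw [h, dist_self] at this
      linarith
  · intro y hy k
    obtain ⟨p, hp, rfl⟩ := Finset.mem_image.1 hy
    obtain ⟨a1, a2⟩ := h1 _ (Finset.mem_product.1 hp).2 k
    have : ((p.1 k : ℕ) : ℝ) + 1 ≤ K := by exact_mod_cast (p.1 k).2
    rw [hFk]
    constructor
    · positivity
    · nlinarith
  · intro y hy y' hy' hne
    obtain ⟨p, hp, rfl⟩ := Finset.mem_image.1 hy
    obtain ⟨p', hp', rfl⟩ := Finset.mem_image.1 hy'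
    exact hsep p hp p' hp' fun h => hne (by rw [h])

lemma ratio (a c : ℝ) : Tendsto (fun L : ℝ => a * ((L + c) / L) ^ 3) atTop (𝓝 a) := by
  have h1 : Tendsto (fun L : ℝ => 1 + c / L) atTop (𝓝 (1 + 0)) :=
    tendsto_const_nhds.add (tendsto_const_nhds.div_atTop tendsto_id)
  have h2 := (h1.pow 3).const_mul a
  simp only [add_zero, one_pow, mul_one] at h2
  refine h2.congr' ?_
  filter_upwards [eventually_gt_atTop 0] with L hL
  congr 2; field_simp

end Pk

theorem exists_packing {L : ℝ} (hL : 0 ≤ L) : ∃ X : Finset Pt, X.card = packingNumber L ∧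
    (∀ x ∈ X, x ∈ cube L) ∧ ∀ x ∈ X, ∀ y ∈ X, x ≠ y → 1 ≤ dist x y := Pk.mem hL

open Pk in
theorem pack : ∃ p : ℝ, 1 ≤ p ∧ p ≤ 8 ∧ PackBd p ∧
    Tendsto (fun L : ℝ => (packingNumber L : ℝ) / L ^ 3) atTop (𝓝 p) := by
  set S : Set ℝ := (fun L : ℝ => (packingNumber L : ℝ) / (L + 1) ^ 3) '' Set.Ici 0 with hS
  have h8 : ∀ a ∈ S, a ≤ 8 := by
    rintro _ ⟨L, hL, rfl⟩
    have hL' : (0 : ℝ) ≤ L := hL
    exact (div_le_iff₀ (by positivity)).2 (card_le hL' (mem hL'))
  have hb : BddAbove S := ⟨8, h8⟩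
  have hne : S.Nonempty := ⟨_, 0, Set.self_mem_Ici, rfl⟩
  have hup : ∀ L : ℝ, 0 ≤ L → (packingNumber L : ℝ) ≤ sSup S * (L + 1) ^ 3 := fun L hL =>
    (div_le_iff₀ (by positivity)).1 (le_csSup hb ⟨L, hL, rfl⟩)
  refine ⟨sSup S, ?_, csSup_le hne h8, fun L hL X h1 h2 => ?_, ?_⟩
  · have h1 : 1 ≤ packingNumber 0 := le_pack le_rfl ⟨{0}, by simp, by simp [cube], by simp⟩
    have h2 : (1 : ℝ) ≤ packingNumber 0 := by exact_mod_cast h1
    simpa using h2.trans (hup 0 le_rfl)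
  · have : X.card ≤ packingNumber L := le_pack hL ⟨X, rfl, h1, h2⟩
    exact le_trans (by exact_mod_cast this) (hup L hL)
  · refine tendsto_order.2 ⟨fun a ha => ?_, fun a ha => ?_⟩
    · obtain ⟨_, ⟨l, hl, rfl⟩, hal⟩ := exists_lt_of_lt_csSup hne ha
      have hl' : (0 : ℝ) ≤ l := hl
      filter_upwards [(tendsto_order.1 (ratio _ (-l))).1 a hal, eventually_gt_atTop l] with L h1 h2
      refine h1.trans_le ?_
      have hL : 0 < L := hl'.trans_lt h2
      set K := ⌊(L + 1) / (l + 1)⌋₊ with hK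
      have h3 : (K : ℝ) * (l + 1) ≤ L + 1 :=
        (le_div_iff₀ (by positivity)).1 (Nat.floor_le (by positivity))
      have h4 : L + 1 < (K + 1) * (l + 1) :=
        (div_lt_iff₀ (by positivity)).1 (Nat.lt_floor_add_one _)
      have h5 : ((K : ℝ)) ^ 3 * packingNumber l ≤ packingNumber L := by
        exact_mod_cast tile hl' hL.le h3
      have h6 : (L + -l) ^ 3 ≤ (K * (l + 1)) ^ 3 := pow_le_pow_left₀ (by linarith) (by linarith) 3
      rw [div_pow, ← mul_div_assoc]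
      refine div_le_div_of_nonneg_right (le_trans ?_ h5) (by positivity)
      calc _ ≤ (packingNumber l : ℝ) / (l + 1) ^ 3 * (K * (l + 1)) ^ 3 :=
            mul_le_mul_of_nonneg_left h6 (by positivity)
        _ = _ := by field_simp
    · filter_upwards [(tendsto_order.1 (ratio _ 1)).2 a ha, eventually_gt_atTop 0] with L h1 h2
      refine lt_of_le_of_lt ?_ h1
      rw [div_pow, ← mul_div_assoc]
      exact div_le_div_of_nonneg_right (hup L h2.le) (by positivity)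

end Crest.Agent.R149
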