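import Crest.Agent.R149.State
import Crest.Agent.R149.Pack

/-! Task 149-G: the reference phases at the first level. -/

set_option autoImplicit false
open MeasureTheory Crest.ProbabilityR.Continuum Filter Topology
open scoped ENNReal BigOperators

namespace Crest.Agent.R149

/-- slightly dilated, almost optimal packings -/
theorem init_pack {p : ℝ} (p8 : p ≤ 8) (hp : PackBd p)
    (hlim : Tendsto (fun L : ℝ => (packingNumber L : ℝ) / L ^ 3) atTop (𝓝 p)) :
    ∃ T : ℕ, ∀ t : ℕ, T ≤ t → ∃ X : Finset Pt, (p - 1 / 10 ^ 4) * (t : ℝ) ^ 3 ≤ X.card ∧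
      (X.card : ℝ) ≤ p * (t : ℝ) ^ 3 ∧ (∀ x ∈ X, x ∈ cube ((t : ℝ) - 3)) ∧
      ∀ x ∈ X, ∀ y ∈ X, x ≠ y → 1 + 2 / 10 ^ 6 ≤ dist x y := by
  classical
  have p0 : 0 ≤ p := by simpa using hp 0 le_rfl ∅ (by simp) (by simp)
  set c : ℝ := 1 + 2 / 10 ^ 6 with hc
  have c1 : 1 < c := by rw [hc]; norm_num
  have c0 : 0 < c := by linarith
  have h1 : Tendsto (fun t : ℕ => ((t : ℝ) + -3) / c) atTop atTop :=
    (tendsto_atTop_add_const_right _ _ tendsto_natCast_atTop_atTop).atTop_div_const c0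
  have h2 := (hlim.comp h1).mul ((Pk.ratio (1 / c ^ 3) (-3)).comp tendsto_natCast_atTop_atTop)
  have h3 : p - 1 / 10 ^ 4 < p * (1 / c ^ 3) := by
    have : 1 - 1 / 10 ^ 5 ≤ 1 / c ^ 3 := by rw [hc]; norm_num
    nlinarith
  obtain ⟨T, hT⟩ := eventually_atTop.1
    (((tendsto_order.1 h2).1 _ h3).and (eventually_ge_atTop 4))
  refine ⟨T, fun t ht => ?_⟩
  obtain ⟨h4, h5⟩ := hT t ht
  have h6 : (4 : ℝ) ≤ t := by exact_mod_cast h5
  obtain ⟨Y, hY, hY1, hY2⟩ := exists_packing (L := ((t : ℝ) + -3) / c) (div_nonneg (by linarith) c0.le)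
  have hinj : Function.Injective fun y : Pt => c • y := smul_right_injective _ c0.ne'
  have hcard : (Y.image fun y : Pt => c • y).card = Y.card := Finset.card_image_of_injective _ hinj
  have hin : ∀ x ∈ Y.image fun y : Pt => c • y, x ∈ cube ((t : ℝ) - 3) := by
    intro x hx k
    obtain ⟨y, hy, rfl⟩ := Finset.mem_image.1 hx
    have h7 := hY1 y hy k
    have h8 := h7.2
    rw [le_div_iff₀ c0] at h8
    simp only [PiLp.smul_apply, smul_eq_mul]
    exact ⟨mul_nonneg c0.le h7.1, by linarith⟩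
  have hsep : ∀ x ∈ Y.image fun y : Pt => c • y, ∀ y ∈ Y.image fun y : Pt => c • y, x ≠ y →
      c ≤ dist x y := by
    intro x hx y hy hne
    obtain ⟨x', hx', rfl⟩ := Finset.mem_image.1 hx
    obtain ⟨y', hy', rfl⟩ := Finset.mem_image.1 hy
    have h7 := hY2 x' hx' y' hy' fun h => hne (by rw [h])
    rw [dist_smul₀, Real.norm_of_nonneg c0.le]
    nlinarith
  refine ⟨_, ?_, ?_, hin, hsep⟩
  · rw [hcard, hY]
    simp only [Function.comp] at h4
    have e : (packingNumber (((t : ℝ) + -3) / c) : ℝ) / (((t : ℝ) + -3) / c) ^ 3 *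
        (1 / c ^ 3 * (((t : ℝ) + -3) / t) ^ 3) = packingNumber (((t : ℝ) + -3) / c) / t ^ 3 := by
      have : (t : ℝ) + -3 ≠ 0 := by linarith
      field_simp
    rw [e, lt_div_iff₀ (by positivity)] at h4
    exact h4.le
  · refine (hp _ (by linarith) _ hin fun x hx y hy h => c1.le.trans (hsep x hx y hy h)).trans ?_
    exact mul_le_mul_of_nonneg_left (pow_le_pow_left₀ (by linarith) (by linarith) 3) p0

namespace G

/-- small clusters placed at the sites of a dilated packing -/
theorem sites (M : Mod) (hr : M.r₁ ≤ 1 + 1 / 10 ^ 6) {t : ℕ} {X : Finset Pt}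
    (h1 : ∀ x ∈ X, x ∈ cube ((t : ℝ) - 3))
    (h2 : ∀ x ∈ X, ∀ y ∈ X, x ≠ y → 1 + 2 / 10 ^ 6 ≤ dist x y) (n : ℕ) (e : ℝ)
    {f : Cfg → ℝ≥0∞} (hf : Meas f) (hf1 : ∀ s, f s ≤ 1)
    (hfe : ∀ s : Cfg, s.card = n → f s ≠ 0 → En M.v s = e)
    (g1 : (X.card : ℝ) * n ^ 2 ≤ 300 * (t : ℝ) ^ 3) (g2 : X.card * e ≤ 9 * M.w * (t : ℝ) ^ 3)
    (g3 : -(M.w * (t : ℝ) ^ 3) ≤ X.card * n + 4 / 9 * (X.card * e))
    (g4 : X.card * n + X.card * e / 3 ≤ (M.p + M.w) * (t : ℝ) ^ 3) (β : ℝ) :
    ex (-β * M.Λ * (X.card * e)) * ZN (cube (4 / 10 ^ 7)) n f ^ X.card ≤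
      M.ZG t (fun _ => 0) (X.card * n) β := by
  classical
  have hfar0 : ∀ q ∈ X, ∀ q' ∈ X, q ≠ q' → ∀ x ∈ cube (4 / 10 ^ 7), ∀ y ∈ cube (4 / 10 ^ 7),
      1 + 1 / 10 ^ 6 ≤ dist (x + q) (y + q') := fun q hq q' hq' h x hx y hy => by
    have a1 := h2 q hq q' hq' h
    have a2 : dist x y ≤ 7 / 4 * (4 / 10 ^ 7) := dist_le_of_coord fun k => by
      have := hx k; have := hy k
      rw [abs_le]; constructor <;> linarith [(hx k).1, (hx k).2, (hy k).1, (hy k).2]
    have a3 : dist q q' ≤ dist (x + q) (y + q') + dist x y := by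
      have := dist_triangle (x + q) (y + q') (x + q')
      rw [dist_add_left, dist_add_right, dist_comm y x] at this
      exact this
    linarith
  have h3 := tile_le X (B := cube ((t : ℝ) - 2)) (measurableSet_cube (4 / 10 ^ 7)) id
    (fun q hq q' hq' h x hx y hy e => by
      have := hfar0 q hq q' hq' h x hx y hy
      simp only [id] at e
      rw [e, dist_self] at this; linarith)
    (fun q hq x hx k => by
      have a1 := hx k
      have a2 := h1 q hq k
      simp only [id, PiLp.add_apply]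
      constructor <;> linarith [a1.1, a1.2, a2.1, a2.2])
    (fun _ => n) (f := fun _ => f) (fun _ => hf)
    (F := fun s => ex (β * M.Λ * (X.card * e)) * M.wt ((t : ℝ) ^ 3) (fun _ => 0) β s)
    fun s hs => by
      by_cases hg : ∀ q ∈ X, f (s q) ≠ 0
      swap
      · push Not at hg
        obtain ⟨q, hq, hg⟩ := hg
        rw [Finset.prod_eq_zero hq hg]; exact zero_le
      simp only [id]
      have hfar : ∀ q ∈ X, ∀ q' ∈ X, q ≠ q' → ∀ x ∈ sh q (s q),
          ∀ y ∈ sh q' (s q'), 1 + 1 / 10 ^ 6 ≤ dist x y := fun q hq q' hq' h x hx y hy => by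
        obtain ⟨x', hx', rfl⟩ := mem_sh.1 hx
        obtain ⟨y', hy', rfl⟩ := mem_sh.1 hy
        exact hfar0 q hq q' hq' h _ ((hs q hq).1 x' hx') _ ((hs q' hq').1 y' hy')
      have e1 : En M.v (∑ q ∈ X, sh q (s q)) = X.card * e := by
        rw [En_sum]
        simp only [En_sh]
        rw [Finset.sum_eq_zero (s := X) (f := fun q => ∑ q' ∈ X.erase q, _), zero_div,
          add_zero, Finset.sum_congr rfl fun q hq => hfe _ (hs q hq).2 (hg q hq)]
        · simp
        intro q hq
        refine Finset.sum_eq_zero fun q' hq' => ?_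
        rw [PS_congr (g' := fun _ _ => 0), PS_const, zero_mul, zero_mul]
        exact fun x hx y hy => M.hv.far _ (hr.trans (hfar q hq q' (Finset.mem_of_mem_erase hq')
          (Finset.ne_of_mem_erase hq').symm x hx y hy))
      have e3 : QQ (∑ q ∈ X, sh q (s q)) ≤ X.card * n ^ 2 := by
        rw [QQ, Qc_sum _ _ _ _ fun q hq q' hq' h x hx y hy e => by
          have h1 := dist_le_of_cell (by norm_num) e
          have h2 := hfar q hq q' hq' h x hx y hy
          linarith]
        rw [← nsmul_eq_mul, ← Finset.sum_const]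
        refine Finset.sum_le_sum fun q hq => ?_
        refine (PS_mono (g' := fun _ _ => 1) fun _ _ _ _ => by split_ifs <;> norm_num).trans ?_
        rw [PS_const, card_sh, (hs q hq).2, one_mul, sq]
      have e4 : (((∑ q ∈ X, sh q (s q)).card : ℕ) : ℝ) = X.card * n := by
        rw [Multiset.card_sum]; simp only [card_sh]
        rw [Finset.sum_congr rfl fun q hq => (hs q hq).2]; simp
      have hG : M.Good ((t : ℝ) ^ 3) (∑ q ∈ X, sh q (s q)) :=
        ⟨e3.trans g1, by rw [e1]; exact g2, by rw [e1, e4]; exact g3, by rw [e1, e4]; exact g4⟩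
      have e5 : En (fun _ => 0) (∑ q ∈ X, sh q (s q)) = 0 := by simp [En, PS]
      rw [Mod.wt, if_pos hG, e1, e5, ← ex_add]
      refine (Finset.prod_le_one' fun q _ => hf1 _).trans (le_of_eq ?_)
      rw [← ex_zero]; congr 1; ring
  rw [ZN_const_mul _ _ (ex_ne_top _), Finset.prod_const, Finset.sum_const, smul_eq_mul] at h3
  refine (mul_le_mul_right h3 _).trans (le_of_eq ?_)
  rw [← mul_assoc, ← ex_add]
  have : -β * M.Λ * (X.card * e) + β * M.Λ * (X.card * e) = 0 := by ring
  rw [this, ex_zero, one_mul, Mod.ZG]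

theorem exp200 : (10 : ℝ) ^ 60 ≤ Real.exp 200 := by
  have h1 : (2 : ℝ) ≤ Real.exp 1 := by linarith [Real.add_one_le_exp (1 : ℝ)]
  have h2 : Real.exp 200 = Real.exp 1 ^ 200 := by rw [← Real.exp_nat_mul]; norm_num
  rw [h2]
  exact le_trans (by norm_num) (pow_le_pow_left₀ (by norm_num) h1 200)

theorem expm200 : Real.exp (-200) ≤ 1 / 10 ^ 60 := by
  rw [Real.exp_neg, one_div]
  exact inv_anti₀ (by positivity) exp200

/-- the vertices of a regular tetrahedron other than the origin -/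
noncomputable def E (i : Fin 3) : Pt := WithLp.toLp 2 fun k => if k = i then 0 else 1

theorem norm_E (i : Fin 3) : ‖E i‖ = √2 := by
  rw [EuclideanSpace.norm_eq]
  congr 1
  fin_cases i <;> simp [E, Fin.sum_univ_three] <;> norm_num

theorem dist_E {i j : Fin 3} (h : i ≠ j) : dist (E i) (E j) = √2 := by
  rw [EuclideanSpace.dist_eq]
  congr 1
  fin_cases i <;> fin_cases j <;> simp [E, Fin.sum_univ_three, Real.dist_eq] at h ⊢ <;> norm_num

theorem vol_tet (ε a b : ℝ) :
    volume {x : Fin 4 → Pt | x 0 ∈ cube a ∧ ∀ i : Fin 3, x i.succ - (x 0 + ε • E i) ∈ cube b} =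
      ENNReal.ofReal a ^ 3 * (ENNReal.ofReal b ^ 3) ^ 3 := by
  set T : Set (Pt × (Fin 3 → Pt)) :=
    {p | p.1 ∈ cube a ∧ ∀ i : Fin 3, p.2 i - (p.1 + ε • E i) ∈ cube b} with hT
  have hTm : MeasurableSet T := by
    have : T = Prod.fst ⁻¹' cube a ∩
        ⋂ i : Fin 3, (fun p : Pt × (Fin 3 → Pt) => p.2 i - (p.1 + ε • E i)) ⁻¹' cube b := by
      ext p; simp [hT]
    rw [this]
    exact (measurable_fst (measurableSet_cube a)).inter
      (MeasurableSet.iInter fun i => (by fun_prop : Measurable _) (measurableSet_cube b))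
  have h := (volume_preserving_piFinSuccAbove (fun _ : Fin 4 => Pt) 0).measure_preimage
    hTm.nullMeasurableSet
  have e : {x : Fin 4 → Pt | x 0 ∈ cube a ∧ ∀ i : Fin 3, x i.succ - (x 0 + ε • E i) ∈ cube b} =
      MeasurableEquiv.piFinSuccAbove (fun _ : Fin 4 => Pt) 0 ⁻¹' T := by
    ext x; simp [hT, Fin.tail]
  rw [e, h, Measure.volume_eq_prod, Measure.prod_apply hTm]
  have e2 : ∀ y : Pt, volume (Prod.mk y ⁻¹' T) =
      (cube a).indicator (fun _ => (ENNReal.ofReal b ^ 3) ^ 3) y := fun y => by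
    by_cases hy : y ∈ cube a
    · have : Prod.mk y ⁻¹' T =
          Set.pi Set.univ fun i : Fin 3 => (fun u => u - (y + ε • E i)) ⁻¹' cube b := by
        ext u; simp [hT, hy]
      rw [this, volume_pi_pi, Set.indicator_of_mem hy]
      simp only [sub_eq_add_neg, measure_preimage_add_right, volume_cube]
      simp
    · have : Prod.mk y ⁻¹' T = ∅ := by
        ext u; simp [hT, hy]
      rw [this, Set.indicator_of_notMem hy, measure_empty]
  simp only [e2]
  rw [lintegral_indicator (measurableSet_cube a), setLIntegral_const, volume_cube, mul_comm]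

open Classical in
theorem tet (M : Mod) (hε : M.ε ≤ 1 / 10 ^ 7) :
    ex (-200 - 9 * M.Λ) ≤
      ZN (cube (4 / 10 ^ 7)) 4 fun s => if En M.v s ≤ -9 ∧ -9 ≤ En M.v s then 1 else 0 := by
  have ε0 := M.ε0
  set S := {x : Fin 4 → Pt | x 0 ∈ cube (2 / 10 ^ 7) ∧
    ∀ i : Fin 3, x i.succ - (x 0 + M.ε • E i) ∈ cube (M.ε / 100)} with hS
  have hSm : MeasurableSet S := by
    have : S = (fun x : Fin 4 → Pt => x 0) ⁻¹' cube (2 / 10 ^ 7) ∩ ⋂ i : Fin 3,
        (fun x : Fin 4 → Pt => x i.succ - (x 0 + M.ε • E i)) ⁻¹' cube (M.ε / 100) := by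
      ext p; simp [hS]
    rw [this]
    exact ((by fun_prop : Measurable _) (measurableSet_cube _)).inter
      (MeasurableSet.iInter fun i => (by fun_prop : Measurable _) (measurableSet_cube _))
  have hsub : S ⊆ Set.pi Set.univ fun _ : Fin 4 => cube (4 / 10 ^ 7) := by
    intro x hx i _ k
    have a1 := hx.1 k
    induction i using Fin.cases with
    | zero => constructor <;> linarith [a1.1, a1.2]
    | succ i =>
      have a2 := hx.2 i k
      simp only [PiLp.sub_apply, PiLp.add_apply, PiLp.smul_apply, smul_eq_mul, E] at a2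
      split_ifs at a2 <;> constructor <;> linarith [a1.1, a1.2, a2.1, a2.2]
  have hE : ∀ x ∈ S, En M.v (mk x) = -9 := by
    intro x hx
    have s1 : (1.414 : ℝ) ≤ √2 := Real.le_sqrt_of_sq_le (by norm_num)
    have s2 : √2 ≤ (1.415 : ℝ) := Real.sqrt_le_iff.2 ⟨by norm_num, by norm_num⟩
    have s3 := mul_le_mul_of_nonneg_left s1 ε0.le
    have s4 := mul_le_mul_of_nonneg_left s2 ε0.le
    have a1 : ∀ i : Fin 3, dist (x i.succ) (x 0 + M.ε • E i) ≤ 7 / 4 * (M.ε / 100) := fun i =>
      dist_le_of_coord fun k => by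
        have := hx.2 i k
        rw [PiLp.sub_apply] at this
        rw [abs_of_nonneg this.1]; exact this.2
    have a2 : ∀ i : Fin 3, M.v (dist (x 0) (x i.succ)) = -(3 / 2) := fun i => by
      have b1 : dist (x 0) (x 0 + M.ε • E i) = M.ε * √2 := by
        rw [dist_self_add_right, norm_smul, norm_E, Real.norm_of_nonneg ε0.le]
      have b2 := dist_triangle_right (x 0) (x i.succ) (x 0 + M.ε • E i)
      have b3 := dist_triangle (x 0) (x i.succ) (x 0 + M.ε • E i)
      have := a1 i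
      exact M.hv.well _ (by linarith) (by linarith)
    have a3 : ∀ i j : Fin 3, i ≠ j → M.v (dist (x i.succ) (x j.succ)) = -(3 / 2) := fun i j h => by
      have b1 : dist (x 0 + M.ε • E i) (x 0 + M.ε • E j) = M.ε * √2 := by
        rw [dist_add_left, dist_smul₀, dist_E h, Real.norm_of_nonneg ε0.le]
      have b2 := dist_triangle4_right (x i.succ) (x j.succ) (x 0 + M.ε • E i) (x 0 + M.ε • E j)
      have b3 := dist_triangle4_left (x i.succ) (x j.succ) (x 0 + M.ε • E i) (x 0 + M.ε • E j)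
      have := a1 i
      have := a1 j
      exact M.hv.well _ (by linarith) (by linarith)
    have a4 : ∀ i j : Fin 4, i ≠ j → M.v (dist (x i) (x j)) = -(3 / 2) := fun i j h => by
      induction i using Fin.cases with
      | zero =>
        induction j using Fin.cases with
        | zero => exact absurd rfl h
        | succ j => exact a2 j
      | succ i =>
        induction j using Fin.cases with
        | zero => rw [dist_comm]; exact a2 i
        | succ j => exact a3 i j fun e => h (by rw [e])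
    rw [mk, En_map, Finset.sum_congr rfl fun i _ => Finset.sum_congr rfl fun j hj =>
      a4 i j (Finset.ne_of_mem_erase hj).symm]
    simp [Finset.card_erase_of_mem]
    norm_num
  have h1 : volume S ≤ ∫⁻ x in Set.pi Set.univ fun _ : Fin 4 => cube (4 / 10 ^ 7),
      (if En M.v (mk x) ≤ -9 ∧ -9 ≤ En M.v (mk x) then 1 else 0 : ℝ≥0∞) := by
    refine le_trans ?_ (lintegral_mono_set hsub)
    rw [← setLIntegral_one]
    refine setLIntegral_mono' hSm fun x hx => ?_
    rw [hE x hx]; simp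
  refine le_trans ?_ (mul_le_mul_right h1 _)
  rw [hS, vol_tet, ← ENNReal.ofReal_pow (by positivity), ← ENNReal.ofReal_pow (by positivity),
    ← ENNReal.ofReal_pow (by positivity), ← ENNReal.ofReal_mul (by positivity),
    ← ENNReal.ofReal_natCast, ← ENNReal.ofReal_inv_of_pos (by positivity),
    ← ENNReal.ofReal_mul (by positivity)]
  refine ENNReal.ofReal_le_ofReal ?_
  have h2 : Real.exp (-200 - 9 * M.Λ) = Real.exp (-200) * M.ε ^ 9 := by
    rw [← M.hΛ, ← Real.exp_nat_mul, ← Real.exp_add]; congr 1; push_cast; ring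
  have h3 := mul_le_mul_of_nonneg_right expm200 (by positivity : 0 ≤ M.ε ^ 9)
  have h4 : 0 ≤ M.ε ^ 9 := by positivity
  rw [h2]
  refine h3.trans ?_
  have h5 : ((Nat.factorial 4 : ℕ) : ℝ)⁻¹ * ((2 / 10 ^ 7) ^ 3 * ((M.ε / 100) ^ 3) ^ 3) =
      (1 / (3 * 10 ^ 39)) * M.ε ^ 9 := by
    simp only [Nat.factorial]; push_cast; ring
  rw [h5]
  exact mul_le_mul_of_nonneg_right (by norm_num) h4

end G

theorem init_base (M : Mod) (hr : M.r₁ ≤ 1 + 1 / 10 ^ 6) (hε : M.ε ≤ 1 / 10 ^ 7) {t : ℕ}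
    (ht : 3 ≤ t) {X : Finset Pt} (hX : (X.card : ℝ) ≤ M.p * (t : ℝ) ^ 3)
    (h1 : ∀ x ∈ X, x ∈ cube ((t : ℝ) - 3))
    (h2 : ∀ x ∈ X, ∀ y ∈ X, x ≠ y → 1 + 2 / 10 ^ 6 ≤ dist x y) :
    M.Base (X.card / (t : ℝ) ^ 3) t fun _ => 0 := by
  classical
  have t0 : (0 : ℝ) < t := by exact_mod_cast (by omega : 0 < t)
  have V0 : 0 < (t : ℝ) ^ 3 := by positivity
  have w0 := M.w0
  have k0 : (0 : ℝ) ≤ X.card := Nat.cast_nonneg _
  have k8 : (X.card : ℝ) ≤ 8 * (t : ℝ) ^ 3 := hX.trans (mul_le_mul_of_nonneg_right M.p8 V0.le)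
  have wV : 0 ≤ M.w * (t : ℝ) ^ 3 := by positivity
  refine ⟨X.card, by field_simp, fun β => ⟨?_, ?_⟩⟩
  · have h := G.sites M hr h1 h2 1 0 (f := fun _ => 1) (meas_card fun _ => 1) (fun _ => le_rfl)
      (fun s hs _ => by
        obtain ⟨a, rfl⟩ := Multiset.card_eq_one.1 hs
        exact En_singleton _ _)
      (by push_cast; linarith) (by linarith) (by push_cast; linarith) (by push_cast; linarith) β
    rw [mul_one] at h
    refine le_trans ?_ h
    have h3 : ex (-200) ≤ ZN (cube (4 / 10 ^ 7)) 1 fun _ => 1 := by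
      rw [ZN_const, volume_cube, ← ENNReal.ofReal_pow (by positivity)]
      simp only [Nat.factorial_one, Nat.cast_one, inv_one, one_mul, pow_one, mul_one]
      exact ENNReal.ofReal_le_ofReal (G.expm200.trans (by norm_num))
    refine le_trans ?_ (mul_le_mul_right (pow_le_pow_left' h3 _) _)
    rw [← ex_nat_mul, ← ex_add, ex_le_ex]
    linarith
  · have hc : ∀ c : ℝ, MeasR fun _ => c := fun c => measR_card fun _ => c
    have h := G.sites M hr h1 h2 4 (-9)
      (f := fun s => if En M.v s ≤ -9 ∧ -9 ≤ En M.v s then 1 else 0)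
      (Meas.ite (((measR_En M.hv.meas).le (hc _)).and ((hc _).le (measR_En M.hv.meas)))
        (meas_card fun _ => 1) (meas_card fun _ => 0))
      (fun _ => by split_ifs <;> simp)
      (fun s _ h => by
        by_contra h'
        exact h (if_neg fun h'' => h' (le_antisymm h''.1 h''.2)))
      (by push_cast; linarith) (by linarith) (by push_cast; linarith) (by push_cast; linarith) β
    rw [mul_comm X.card 4] at h
    refine le_trans ?_ h
    refine le_trans ?_ (mul_le_mul_right (pow_le_pow_left' (G.tet M hε) _) _)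
    rw [← ex_nat_mul, ← ex_add, ex_le_ex]
    linarith

end Crest.Agent.R149
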