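import Crest.Agent.R149.Step

/-! Row 149: the iteration over scales and the limiting long range attraction. -/

set_option autoImplicit false
open MeasureTheory Crest.ProbabilityR.Continuum Filter Topology
open scoped ENNReal BigOperators

namespace Crest.Agent.R149

theorem dom_zero (A : ℝ) (hA : 0 ≤ A) : Dom (fun _ => 0) A := fun s => by
  rw [PS_const]; simpa using mul_nonneg hA (QQ_nonneg s)

theorem dom_tsum {ψ : ℕ → ℝ → ℝ} {c : ℕ → ℝ} {C : ℝ} (hs : ∀ r, Summable fun j => ψ j r)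
    (hd : ∀ j, Dom (ψ j) (c j)) (hc : HasSum c C) : Dom (fun r => ∑' j, ψ j r) C := fun s =>
  hasSum_le (fun j => hd j s) (PS_hasSum (g := fun j a b => ψ j (dist a b))
    (fun _ _ => (hs _).hasSum) s s) (hc.mul_right _)

theorem kac_decay {κ L B r s : ℝ} (hκ : 0 ≤ κ) (hB : L + 1 ≤ B) (hB0 : 0 ≤ B) (hr : 0 < r)
    (hs : 0 ≤ s) : kac κ L r ≤ κ * B ^ s * r ^ (-s) := by
  rcases le_total (L + 1) r with h | h
  · rw [kac_far _ h]; positivity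
  · rw [Real.rpow_neg hr.le, mul_assoc]
    refine (kac_le hκ _ _).trans (le_mul_of_one_le_right hκ ?_)
    rw [← div_eq_mul_inv, one_le_div (by positivity)]
    exact Real.rpow_le_rpow hr.le (h.trans hB) hs

theorem decay_arith {κ τ : ℝ} (hκ : 0 ≤ κ) (hτ : 864 ≤ τ) (h : κ * ((τ ^ 16) ^ 3) ^ 3 ≤ 2 / τ ^ 3) :
    κ * (6 * (τ ^ 16) ^ 3) ^ (3 + 1 / 32 : ℝ) ≤ 864 / τ := by
  have hτ0 : 0 < τ := by linarith
  have h1 : (6 * (τ ^ 16) ^ 3) ^ (1 / 32 : ℝ) ≤ 2 * τ ^ 2 := by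
    rw [one_div]
    refine (Real.rpow_le_rpow (by positivity) ?_ (by norm_num)).trans
      (Real.pow_rpow_inv_natCast (n := 32) (by positivity) (by norm_num)).le
    have h2 : τ ^ 48 ≤ τ ^ 64 := pow_le_pow_right₀ (by linarith) (by norm_num)
    have h3 : 0 ≤ τ ^ 64 := by positivity
    linarith
  rw [Real.rpow_add (by positivity), Real.rpow_ofNat]
  calc _ = 216 * (κ * ((τ ^ 16) ^ 3) ^ 3) * (6 * (τ ^ 16) ^ 3) ^ (1 / 32 : ℝ) := by ring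
    _ ≤ 216 * (2 / τ ^ 3) * (2 * τ ^ 2) := by gcongr
    _ = _ := by field_simp; norm_num

namespace Mod
variable (M : Mod)

theorem St.mono {M : Mod} {ρ₀ : ℝ} {t : ℕ} {Ψ : ℝ → ℝ} {δ m₂ β δ' m₂' : ℝ}
    (h : M.St ρ₀ t Ψ δ m₂ β) (h1 : δ ≤ δ') (h2 : m₂' ≤ m₂) : M.St ρ₀ t Ψ δ' m₂' β := by
  obtain ⟨I, π, F, h, n, ν, s1, s2, s3, s4, s5, s6, s7, s8⟩ := h
  exact ⟨I, π, F, h, n, ν, s1, s2, s3, s4, s5, s6, s7.trans (ex_le_ex.2 (by gcongr)),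
    le_trans (by gcongr) s8⟩

theorem st_init {ρ₀ : ℝ} (hρ : ρ₀ ≤ M.p) {t : ℕ} (ht : 2 ≤ t) (hB : M.Base ρ₀ t fun _ => 0) :
    M.St ρ₀ t (fun _ => 0) (CR M.R + 1300 * (162 / M.R) * M.Λ + 1600) (17 / 3 * ρ₀ ^ 2) 1 := by
  obtain ⟨k, hk, hB⟩ := hB
  have hV : (0 : ℝ) ≤ (t : ℝ) ^ 3 := by positivity
  have h1 := mul_nonneg M.w0.le hV
  have h2 := mul_le_mul_of_nonneg_right hρ hV
  have h3 : (0 : ℝ) ≤ k := Nat.cast_nonneg k
  have hτ := M.τ0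
  have hΛ := M.Λ8
  refine ⟨Finset.range 3, fun _ => 1 / 3,
    fun i => if i = 0 then 0 else if i = 1 then -1600 * t ^ 3 else -1600 * t ^ 3 - 9 * M.Λ * k,
    fun i => if i = 2 then -9 * k else 0, fun i => if i = 0 then 0 else if i = 1 then k else 4 * k,
    0, fun i hi => ⟨by norm_num, ?_⟩, by norm_num, ?_, ?_, by simpa using hτ.le,
    by simp only [abs_zero]; positivity, ?_, ?_⟩
  · have := Finset.mem_range.1 hi
    interval_cases i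
    · refine ⟨fun β => by simp [ZG_zero, ex_zero], ?_⟩
      simp only [Tri]; norm_num
      refine ⟨by linarith, by linarith, by linarith⟩
    · refine ⟨fun β => by simpa using (hB β).1, ?_⟩
      simp only [Tri]; norm_num
      refine ⟨by linarith, by linarith, by linarith⟩
    · refine ⟨fun β => le_trans (le_of_eq ?_) (hB β).2, ?_⟩
      · norm_num; congr 1; ring
      · simp only [Tri]; norm_num
        refine ⟨by linarith, by linarith, by linarith⟩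
  · simp [Finset.sum_range_succ]; linarith
  · simp [Finset.sum_range_succ]; linarith
  · refine (M.Xi_le ht (σ := 0) le_rfl (dom_zero 0 le_rfl) le_rfl hτ.le (by simp) (by simp)
      (by simp)).trans (ex_le_ex.2 ?_)
    simp [Finset.sum_range_succ]
    rw [hk]; linarith
  · simp [Finset.sum_range_succ]
    rw [hk]; linarith

/-- the inductive invariant at level `τ` -/
def Inv (ρ₀ A Cm C m : ℝ) (τ : ℕ) (Ψ : ℝ → ℝ) (β : ℝ) : Prop :=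
  Measurable Ψ ∧ (∀ r, 0 ≤ Ψ r) ∧ Dom Ψ (A - 1 / τ) ∧
    Dom (fun r => 3 * (r + 1) * Ψ r) (Cm * τ ^ 24) ∧ M.Base ρ₀ ((τ ^ 16) ^ 2) Ψ ∧
    M.St ρ₀ ((τ ^ 16) ^ 2) Ψ (C / τ ^ 4) (m + 2 * (C + 1) / τ) β

theorem inv_step {ρ₀ σ A Cm C m : ℝ} (hσ0 : 0 ≤ σ) (hσ : σ * M.Λ + 1 ≤ M.τ * M.Λ) (hA : 1 ≤ A)
    (hb : A / 2 + 64 ≤ σ * M.Λ) (hCm : 1 ≤ Cm)
    (hC : 300 * (Cm + 6174 * M.Λ) + (7 * M.Λ + 3) + 3600000 ≤ C)
    (hρ : CR M.R + 1300 * (162 / M.R + σ) * M.Λ + 1600 < ρ₀ * M.τ * M.Λ / 3)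
    {τ : ℕ} (hτ : C ≤ τ) {Ψ : ℝ → ℝ} {β : ℝ} (h : M.Inv ρ₀ A Cm C m τ Ψ β) :
    ∃ κ L β' : ℝ, 0 ≤ κ ∧ κ ≤ 864 / τ ∧ Dom (kac κ L) (864 / τ) ∧
      (∀ r, 0 < r → kac κ L r ≤ 864 / τ * r ^ (-(3 + 1 / 32 : ℝ))) ∧
      M.Inv ρ₀ A Cm C m (τ ^ 2) (fun r => Ψ r + kac κ L r) β' := by
  obtain ⟨h1, h2, h3, h4, h5, h6⟩ := h
  have hΛ := M.Λ8
  have hx : (3600000 : ℝ) ≤ τ := by linarith
  have hx0 : (0 : ℝ) < τ := by linarith
  have hx1 : (1 : ℝ) ≤ τ := by linarith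
  have hp : ∀ i j : ℕ, i ≤ j → (τ : ℝ) ^ i ≤ τ ^ j := fun i j h => pow_le_pow_right₀ hx1 h
  have hq : ∀ (c : ℝ) (i j : ℕ), 0 ≤ c → i ≤ j → c / (τ : ℝ) ^ j ≤ c / τ ^ i := fun c i j hc h =>
    div_le_div_of_nonneg_left hc (by positivity) (hp i j h)
  have ha1 : 1 / (τ : ℝ) ^ 3 ≤ 1 := by simpa using hq 1 0 3 zero_le_one (by norm_num)
  have ht1 : 1 / (τ : ℝ) ≤ 1 := by simpa using hq 1 0 1 zero_le_one (by norm_num)
  have ht0 : 0 < 1 / (τ : ℝ) := by positivity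
  have hη : (Cm * τ ^ 24 + 6174 * M.Λ) / ((τ ^ 16 : ℕ) : ℝ) ^ 2 ≤ (Cm + 6174 * M.Λ) / τ ^ 8 := by
    push_cast
    have e : (Cm * τ ^ 24 + 6174 * M.Λ) / ((τ : ℝ) ^ 16) ^ 2 = Cm / τ ^ 8 + 6174 * M.Λ / τ ^ 32 := by
      field_simp
    rw [e, add_div]
    exact add_le_add_right (hq _ 8 32 (by positivity) (by norm_num)) _
  have hη1 : (Cm + 6174 * M.Λ) / τ ^ 8 ≤ 1 := by
    rw [div_le_one (by positivity)]
    have := hp 1 8 (by norm_num)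
    linarith
  obtain ⟨κ, L, β', k0, k1, k2, k3, k4, k5, k6⟩ := M.step (σ := σ) (u := τ ^ 16)
    (le_trans (by exact_mod_cast (by linarith : (36 : ℝ) ≤ τ)) (Nat.le_self_pow (by norm_num) τ))
    h1 (fun r _ => h2 r) h3 h4 (by positivity) (a := 1 / τ ^ 3) (by positivity) hσ0
    (le_of_mul_le_mul_right (by linarith) (by linarith : 0 < M.Λ)) (by linarith) hη (by linarith)
    (by linarith) hρ h5 h6
  push_cast at k1 k2 k4 k6
  rw [mul_one_div] at k1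
  have e1 : 31250 * (1 / (τ : ℝ) ^ 3) ≤ 1 / τ ^ 2 := by
    rw [mul_one_div, div_le_div_iff₀ (by positivity) (by positivity)]
    nlinarith [mul_le_mul_of_nonneg_right hx (by positivity : (0 : ℝ) ≤ τ ^ 2)]
  have e2 : 2 * (1 / (τ : ℝ) ^ 2) ≤ 1 / τ := by
    rw [mul_one_div, div_le_div_iff₀ (by positivity) (by positivity)]; nlinarith
  have e3 : (864 : ℝ) / τ = 864 * (1 / τ) := by ring
  have e4 : (0 : ℝ) < 1 / τ ^ 2 := by positivity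
  refine ⟨κ, L, β', k0, ?_, k3.mono (fun _ _ => le_rfl) (by linarith), fun r hr =>
    (kac_decay k0 k2 (by positivity) hr (by norm_num)).trans
      (mul_le_mul_of_nonneg_right (decay_arith k0 (by linarith) k1) (by positivity)),
    h1.add (continuous_kac κ L).measurable, fun r => add_nonneg (h2 r) (kac_nonneg k0 _ _),
    (h3.add k3).mono (fun _ _ => le_rfl) (by push_cast; linarith),
    (h4.add k4).mono (fun _ _ => le_of_eq (mul_add _ _ _)) ?_, ?_, ?_⟩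
  · have h7 : κ ≤ κ * (((τ : ℝ) ^ 16) ^ 3) ^ 3 :=
      le_mul_of_one_le_right k0 (one_le_pow₀ (one_le_pow₀ (one_le_pow₀ hx1)))
    have h8 := hq 2 2 3 zero_le_two (by norm_num)
    rw [← mul_one_div 2 (_ ^ 2)] at h8
    linarith
  · push_cast
    have h7 : 656250 * (1 / (τ : ℝ) ^ 3) ≤ 1 / 2 := by
      rw [mul_one_div, div_le_iff₀ (by positivity)]
      have := hp 1 3 (by norm_num)
      linarith
    have h8 : 2 * (τ : ℝ) ^ 24 ≤ τ ^ 48 := (by nlinarith [pow_pos hx0 24] :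
      2 * (τ : ℝ) ^ 24 ≤ τ ^ 25).trans (hp _ _ (by norm_num))
    have h9 := mul_le_mul_of_nonneg_right h7 (pow_pos hx0 48).le
    have h10 := mul_le_mul_of_nonneg_left h8 (by linarith : 0 ≤ Cm)
    have h11 := mul_le_mul_of_nonneg_right hCm (pow_pos hx0 48).le
    linarith
  · rw [show ((τ ^ 2) ^ 16) ^ 2 = ((τ ^ 16) ^ 2) ^ 2 by ring]; exact k5
  · rw [show ((τ ^ 2) ^ 16) ^ 2 = ((τ ^ 16) ^ 2) ^ 2 by ring]
    refine k6.mono ?_ ?_
    · push_cast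
      have h7 := hq (7 * M.Λ + 3) 8 32 (by positivity) (by norm_num)
      have h8 := hq 3600000 8 19 (by positivity) (by norm_num)
      have h9 := div_le_div_of_nonneg_right hC (pow_pos hx0 8).le
      have e5 : 3600000 * (1 / (τ : ℝ) ^ 3) / τ ^ 16 = 3600000 / τ ^ 19 := by field_simp
      rw [e5, ← pow_mul, ← pow_mul]
      simp only [add_div, mul_div_assoc] at h7 h9 ⊢
      linarith
    · push_cast
      have e5 : (C / τ ^ 4 + 1 / ((τ : ℝ) ^ 16) ^ 2) / (1 / τ ^ 3) = C * (1 / τ) + 1 / τ ^ 29 := by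
        field_simp
      have h7 := hq 1 1 29 zero_le_one (by norm_num)
      have h8 := mul_le_mul_of_nonneg_left e2 (by linarith : 0 ≤ C + 1)
      rw [e5, div_eq_mul_one_div (2 * _), div_eq_mul_one_div (2 * _)]
      rw [pow_one] at h7
      linarith

theorem inv_first {σ : ℝ} (hσ0 : 0 < σ) (hσ : 31200 * σ ≤ M.τ)
    (h1 : 1300 * (162 / M.R) ≤ σ / 10 ^ 7) (h2 : CR M.R + 1601 ≤ σ * M.Λ / 10 ^ 7) :
    ∃ Cm C : ℝ, 1 ≤ Cm ∧ 300 * (Cm + 6174 * M.Λ) + (7 * M.Λ + 3) + 3600000 ≤ C ∧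
      ∀ (τ : ℕ) (ρ₀ : ℝ), 500 * (C + 1) ≤ τ → 1 / 2 ≤ ρ₀ → ρ₀ ≤ M.p →
        M.Base ρ₀ ((τ ^ 16) ^ 2) (fun _ => 0) →
        CR M.R + 1300 * (162 / M.R + σ) * M.Λ + 1600 < ρ₀ * M.τ * M.Λ / 3 ∧
        ∃ κ L β : ℝ, 0 ≤ κ ∧ M.Inv ρ₀ (25 / 16 * (σ * M.Λ) + 1) Cm C (17 / 3 * ρ₀ ^ 2 - 1 / 125)
          (τ ^ 2) (kac κ L) β := by
  have hΛ := M.Λ8
  have hCR := M.CR1
  obtain ⟨a, ha⟩ : ∃ a, a = σ * M.Λ / 20000 := ⟨_, rfl⟩
  have ha0 : 0 < a := by rw [ha]; positivity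
  refine ⟨656250 * a + 1, 300 * (656250 * a + 1 + 6174 * M.Λ) + (7 * M.Λ + 3) + 3600000,
    by linarith, le_rfl, fun τ ρ₀ hτ hρ1 hρ2 hB => ?_⟩
  generalize hC : 300 * (656250 * a + 1 + 6174 * M.Λ) + (7 * M.Λ + 3) + 3600000 = C at hτ ⊢
  have hx : (3600000 : ℝ) ≤ τ := by linarith
  have hx0 : (0 : ℝ) < τ := by linarith
  have hx1 : (1 : ℝ) ≤ τ := by linarith
  have hp : ∀ i j : ℕ, i ≤ j → (τ : ℝ) ^ i ≤ τ ^ j := fun i j h => pow_le_pow_right₀ hx1 h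
  have hq : ∀ (c : ℝ) (i j : ℕ), 0 ≤ c → i ≤ j → c / (τ : ℝ) ^ j ≤ c / τ ^ i := fun c i j hc h =>
    div_le_div_of_nonneg_left hc (by positivity) (hp i j h)
  have b1 := mul_le_mul_of_nonneg_right h1 (by linarith : 0 ≤ M.Λ)
  have b2 := mul_le_mul_of_nonneg_right hσ (by linarith : 0 ≤ M.Λ)
  have hρ : CR M.R + 1300 * (162 / M.R + σ) * M.Λ + 1600 < ρ₀ * M.τ * M.Λ / 3 := by
    have := mul_le_mul_of_nonneg_right hρ1 (by linarith : 0 ≤ M.τ * M.Λ)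
    linarith
  have hu : 36 ≤ τ ^ 16 :=
    le_trans (by exact_mod_cast (by linarith : (36 : ℝ) ≤ τ)) (Nat.le_self_pow (by norm_num) τ)
  have hη1 : 6174 * M.Λ / τ ^ 32 ≤ 1 := by
    rw [div_le_one (by positivity)]
    have := hp 1 32 (by norm_num)
    linarith
  obtain ⟨κ, L, β', k0, -, -, k3, k4, k5, k6⟩ := M.step (σ := σ) hu measurable_const
    (fun _ _ => le_rfl) (dom_zero 0 le_rfl) (Mo := 0) (η := 6174 * M.Λ / τ ^ 32)
    ((dom_zero 0 le_rfl).mono (fun _ _ => by simp) le_rfl) le_rfl ha0 hσ0.le (by linarith)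
    (by linarith) (le_of_eq (by push_cast; ring)) le_rfl (by linarith) hρ hB
    (M.st_init hρ2 (le_trans (by omega) (Nat.le_self_pow two_ne_zero _)) hB)
  simp only [zero_add] at k5 k6
  push_cast at k4 k6
  refine ⟨hρ, κ, L, β', k0, (continuous_kac κ L).measurable, kac_nonneg k0 _,
    k3.mono (fun _ _ => le_rfl) ?_, k4.mono (fun _ _ => le_rfl) ?_, ?_, ?_⟩
  · have := hq 1 0 2 zero_le_one (by norm_num)
    rw [pow_zero] at this
    push_cast; linarith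
  · push_cast; linarith [pow_pos hx0 48]
  · rw [show ((τ ^ 2) ^ 16) ^ 2 = ((τ ^ 16) ^ 2) ^ 2 by ring]; exact k5
  · rw [show ((τ ^ 2) ^ 16) ^ 2 = ((τ ^ 16) ^ 2) ^ 2 by ring]
    refine k6.mono ?_ ?_
    · push_cast
      have h7 := hq (300 * (6174 * M.Λ) + (7 * M.Λ + 3)) 8 32 (by positivity) (by norm_num)
      have h8 := hq (3600000 * a) 8 16 (by positivity) (by norm_num)
      have h9 := div_le_div_of_nonneg_right (by linarith :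
        300 * (6174 * M.Λ) + (7 * M.Λ + 3) + 3600000 * a ≤ C) (pow_pos hx0 8).le
      rw [← pow_mul, ← pow_mul]
      simp only [add_div, mul_div_assoc] at h7 h8 h9 ⊢
      linarith
    · push_cast
      have h7 : (CR M.R + 1300 * (162 / M.R) * M.Λ + 1600 + 1 / ((τ : ℝ) ^ 16) ^ 2) / a ≤
          1 / 250 := by
        have := hq 1 0 (16 * 2) zero_le_one (by norm_num)
        rw [pow_zero] at this
        rw [div_le_iff₀ ha0, ← pow_mul]; linarith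
      have h8 : 2 * (C + 1) / (τ : ℝ) ^ 2 ≤ 1 / 250 := by
        have := hp 1 2 (by norm_num)
        rw [div_le_iff₀ (by positivity)]; linarith
      linarith

theorem limit {σ : ℝ} (hσ0 : 0 < σ) (hσ : 31200 * σ ≤ M.τ)
    (h1 : 1300 * (162 / M.R) ≤ σ / 10 ^ 7) (h2 : CR M.R + 1601 ≤ σ * M.Λ / 10 ^ 7)
    (hw : M.w ≤ 1 / 2) {T₀ : ℕ} (hinit : ∀ t : ℕ, T₀ ≤ t → ∃ ρ₀ : ℝ, M.p - M.w ≤ ρ₀ ∧ ρ₀ ≤ M.p ∧
      M.Base ρ₀ t fun _ => 0) :
    ∃ (ρ₀ b : ℝ) (Ψ : ℝ → ℝ), M.p - M.w ≤ ρ₀ ∧ ρ₀ ≤ M.p ∧ |b - 1| ≤ M.τ ∧ Continuous Ψ ∧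
      (∀ r, 0 ≤ Ψ r) ∧ (∃ K : ℝ, ∀ r, Ψ r ≤ K) ∧
      (∃ C : ℝ, ∀ r : ℝ, 1 ≤ r → Ψ r ≤ C * r ^ (-(3 + 1 / 32 : ℝ))) ∧ Dom Ψ (2 * (σ * M.Λ)) ∧
      ∀ e : ℝ, 0 < e → ∃ (l : ℕ) (Ψ₀ : ℝ → ℝ) (β : ℝ), 1 ≤ e * l ∧ Measurable Ψ₀ ∧
        (∀ r, 0 ≤ Ψ₀ r ∧ Ψ₀ r ≤ Ψ r) ∧ Dom (fun r => Ψ r - Ψ₀ r) e ∧
        Dom (fun r => 3 * (r + 1) * Ψ₀ r) (e * l) ∧ |β - b| ≤ e ∧
        M.St ρ₀ (l + 2) Ψ₀ e (17 / 3 * ρ₀ ^ 2 - 1 / 125) β := by
  have hΛ := M.Λ8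
  have hCR := M.CR1
  have b2 := mul_le_mul_of_nonneg_right hσ (by linarith : 0 ≤ M.Λ)
  obtain ⟨Cm, C, hCm, hC, hf⟩ := M.inv_first hσ0 hσ h1 h2
  obtain ⟨τ, hτ⟩ := exists_nat_ge (max (500 * (C + 1)) T₀)
  rw [max_le_iff] at hτ
  obtain ⟨ρ₀, hρ1, hρ2, hB⟩ := hinit ((τ ^ 16) ^ 2) (le_trans (by exact_mod_cast hτ.2)
    ((Nat.le_self_pow (by norm_num) τ).trans (Nat.le_self_pow two_ne_zero _)))
  obtain ⟨hρ, κ₀, L₀, β₀, hκ₀, hI⟩ := hf τ ρ₀ hτ.1 (by linarith [M.p1]) hρ2 hB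
  have hs := fun (t : ℕ) (Ψ : ℝ → ℝ) (β : ℝ) (ht : C ≤ t) => M.inv_step (τ := t) (Ψ := Ψ) (β := β)
    (m := 17 / 3 * ρ₀ ^ 2 - 1 / 125) (A := 25 / 16 * (σ * M.Λ) + 1) hσ0.le (by linarith)
    (by linarith) (by linarith) hCm hC hρ ht
  choose! κ L β' hs using hs
  let T : ℕ → ℕ := fun k => (τ ^ 2) ^ 2 ^ k
  have hT : ∀ k, T (k + 1) = T k ^ 2 := fun k => by simp only [T]; rw [pow_succ 2 k, pow_mul]
  have hτ2 : C ≤ T 0 := by
    simp only [T]; push_cast; nlinarith [hτ.1]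
  have hTk : ∀ k, C * 2 ^ k ≤ T k := fun k => by
    induction k with
    | zero => simpa using hτ2
    | succ k ih =>
      have h3 : (1 : ℝ) ≤ 2 ^ k := one_le_pow₀ one_le_two
      have h4 : (2 : ℝ) ≤ T k := le_trans (by nlinarith) ih
      rw [hT, pow_succ]; push_cast; nlinarith
  have hTC : ∀ k, C ≤ T k := fun k =>
    (le_mul_of_one_le_right (by linarith) (one_le_pow₀ one_le_two)).trans (hTk k)
  have hTd : ∀ k, ∀ c : ℝ, c ≤ C → c / T k ≤ (1 / 2) ^ k := fun k c hc => by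
    rw [div_le_iff₀ (by linarith [hTC k]), one_div, inv_pow, ← div_eq_inv_mul,
      le_div_iff₀ (by positivity)]
    exact (mul_le_mul_of_nonneg_right hc (by positivity)).trans (hTk k)
  let X : ℕ → (ℝ → ℝ) × ℝ := fun k => Nat.rec (kac κ₀ L₀, β₀) (fun k x =>
    (fun r => x.1 r + kac (κ (T k) x.1 x.2) (L (T k) x.1 x.2) r, β' (T k) x.1 x.2)) k
  have hX : ∀ k, M.Inv ρ₀ (25 / 16 * (σ * M.Λ) + 1) Cm C (17 / 3 * ρ₀ ^ 2 - 1 / 125) (T k)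
      (X k).1 (X k).2 := fun k => by
    induction k with
    | zero => simpa [T, X] using hI
    | succ k ih => rw [hT]; exact (hs _ _ _ (hTC k) ih).2.2.2.2
  obtain ⟨ψ, hψ⟩ : ∃ ψ : ℕ → ℝ → ℝ, ∀ k, ψ k =
    kac (κ (T k) (X k).1 (X k).2) (L (T k) (X k).1 (X k).2) := ⟨_, fun _ => rfl⟩
  have hXψ : ∀ k r, (X k).1 r = kac κ₀ L₀ r + ∑ j ∈ Finset.range k, ψ j r := fun k r => by
    induction k with
    | zero => simp [X]
    | succ k ih => rw [Finset.sum_range_succ, ← add_assoc, ← ih, hψ]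
  have p0 : ∀ k r, 0 ≤ ψ k r := fun k r => hψ k ▸ kac_nonneg (hs _ _ _ (hTC k) (hX k)).1 _ _
  have p1 : ∀ k r, ψ k r ≤ (1 / 2) ^ k := fun k r => hψ k ▸
    (kac_le (hs _ _ _ (hTC k) (hX k)).1 _ _).trans
      ((hs _ _ _ (hTC k) (hX k)).2.1.trans (hTd k _ (by linarith)))
  have p2 : ∀ k, Dom (ψ k) ((1 / 2) ^ k) := fun k => hψ k ▸
    (hs _ _ _ (hTC k) (hX k)).2.2.1.mono (fun _ _ => le_rfl) (hTd k _ (by linarith))
  have p3 : ∀ k r, 0 < r → ψ k r ≤ (1 / 2) ^ k * r ^ (-(3 + 1 / 32 : ℝ)) := fun k r hr => hψ k ▸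
    ((hs _ _ _ (hTC k) (hX k)).2.2.2.1 r hr).trans
      (mul_le_mul_of_nonneg_right (hTd k _ (by linarith)) (by positivity))
  have hsum : ∀ r, Summable fun k => ψ k r := fun r =>
    Summable.of_nonneg_of_le (p0 · r) (p1 · r) summable_geometric_two
  have hβ : ∀ k, (X k).2 ∈ Metric.closedBall (1 : ℝ) M.τ := fun k => by
    obtain ⟨_, _, _, _, _, _, -, -, -, -, h, -⟩ := (hX k).2.2.2.2.2
    exact h
  obtain ⟨b, hb, φ, hφ, hlim⟩ := (isCompact_closedBall (1 : ℝ) M.τ).tendsto_subseq hβ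
  refine ⟨ρ₀, b, fun r => kac κ₀ L₀ r + ∑' k, ψ k r, hρ1, hρ2, hb, (continuous_kac _ _).add
    (continuous_tsum (fun k => hψ k ▸ continuous_kac _ _) summable_geometric_two fun k r => by
      rw [Real.norm_of_nonneg (p0 k r)]; exact p1 k r),
    fun r => add_nonneg (kac_nonneg hκ₀ _ _) (tsum_nonneg (p0 · r)),
    ⟨κ₀ + 2, fun r => add_le_add (kac_le hκ₀ _ _)
      (hasSum_le (p1 · r) (hsum r).hasSum hasSum_geometric_two)⟩,
    ⟨κ₀ * |L₀ + 1| ^ (3 + 1 / 32 : ℝ) + 2, fun r hr => ?_⟩, ?_, fun e he => ?_⟩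
  · rw [add_mul]
    exact add_le_add (kac_decay hκ₀ (le_abs_self _) (abs_nonneg _) (by linarith) (by norm_num))
      (hasSum_le (p3 · r (by linarith)) (hsum r).hasSum (hasSum_geometric_two.mul_right _))
  · refine (hI.2.2.1.add (dom_tsum hsum p2 hasSum_geometric_two)).mono (fun _ _ => le_rfl) ?_
    have : (0 : ℝ) ≤ 1 / ((τ ^ 2 : ℕ) : ℝ) := by positivity
    linarith
  · have l1 : Tendsto (fun k => (1 / 2 : ℝ) ^ φ k) atTop (𝓝 0) :=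
      (tendsto_pow_atTop_nhds_zero_of_lt_one (by norm_num) (by norm_num)).comp hφ.tendsto_atTop
    obtain ⟨k, k1, k2⟩ := ((l1.eventually (ge_mem_nhds (half_pos he))).and
      (hlim.eventually (Metric.closedBall_mem_nhds b he))).exists
    replace k2 : |(X (φ k)).2 - b| ≤ e := k2
    generalize φ k = j at k1 k2
    have hx : (3600000 : ℝ) ≤ T j := by linarith [hTC j]
    have hx0 : (0 : ℝ) < T j := by linarith
    have hx1 : (1 : ℝ) ≤ T j := by linarith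
    obtain ⟨l, hl⟩ : ∃ l, (T j ^ 16) ^ 2 = l + 2 := by
      have : 2 ≤ (T j ^ 16) ^ 2 := le_trans (by exact_mod_cast (by linarith : (2 : ℝ) ≤ T j))
        ((Nat.le_self_pow (by norm_num) _).trans (Nat.le_self_pow two_ne_zero _))
      exact ⟨_, (Nat.sub_add_cancel this).symm⟩
    have hl' : (T j : ℝ) ^ 25 ≤ l := by
      have h3 : (((T j : ℝ)) ^ 16) ^ 2 = l + 2 := by exact_mod_cast hl
      have h4 : (T j : ℝ) ^ 26 ≤ T j ^ 32 := pow_le_pow_right₀ hx1 (by norm_num)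
      have h5 : (1 : ℝ) ≤ T j ^ 25 := one_le_pow₀ hx1
      nlinarith [mul_le_mul_of_nonneg_right hx (by positivity : (0 : ℝ) ≤ T j ^ 25)]
    have hCe : C ≤ e * T j := by
      rw [← div_le_iff₀ hx0]; linarith [hTd j C le_rfl]
    have hMo : Cm * T j ^ 24 ≤ e * l := by
      have h3 := mul_le_mul_of_nonneg_right (by linarith : Cm ≤ e * T j) (pow_pos hx0 24).le
      have h4 := mul_le_mul_of_nonneg_left hl' he.le
      linarith
    have htail : ∀ r, kac κ₀ L₀ r + ∑' k, ψ k r - (X j).1 r = ∑' k, ψ (k + j) r := fun r => by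
      rw [hXψ, ← (hsum r).sum_add_tsum_nat_add j]; ring
    obtain ⟨i1, i2, -, i4, -, i6⟩ := hX j
    refine ⟨l, (X j).1, (X j).2, le_trans (one_le_mul_of_one_le_of_one_le hCm (one_le_pow₀ hx1))
      hMo, i1, fun r => ⟨i2 r, ?_⟩, ?_, i4.mono (fun _ _ => le_rfl) hMo, k2,
      (hl ▸ i6).mono ?_ (le_add_of_nonneg_right (div_nonneg (by linarith) hx0.le))⟩
    · rw [← sub_nonneg, htail]; exact tsum_nonneg fun k => p0 _ r
    · simp only [htail]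
      refine (dom_tsum (fun r => (summable_nat_add_iff j).2 (hsum r))
        (fun k => (p2 (k + j)).mono (fun _ _ => le_rfl) (pow_add _ _ _).le)
        (hasSum_geometric_two.mul_right _)).mono (fun _ _ => le_rfl) (by linarith)
    · rw [div_le_iff₀ (by positivity)]
      exact hCe.trans (mul_le_mul_of_nonneg_left (le_self_pow₀ hx1 (by norm_num)) he.le)

end Mod

end Crest.Agent.R149
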