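import Crest.Agent.R149.Upper

/-! Row 149: the Kac type attraction added at one level. -/

set_option autoImplicit false
open MeasureTheory Crest.ProbabilityR.Continuum
open scoped ENNReal BigOperators

namespace Crest.Agent.R149

/-- plateau of height `κ` and range `L + 1` -/
noncomputable def kac (κ L r : ℝ) : ℝ := κ * max 0 (min 1 (L + 1 - r))

theorem continuous_kac (κ L : ℝ) : Continuous (kac κ L) := by unfold kac; fun_prop

theorem kac_nonneg {κ : ℝ} (hκ : 0 ≤ κ) (L r : ℝ) : 0 ≤ kac κ L r :=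
  mul_nonneg hκ (le_max_left _ _)

theorem kac_le {κ : ℝ} (hκ : 0 ≤ κ) (L r : ℝ) : kac κ L r ≤ κ :=
  mul_le_of_le_one_right hκ (max_le zero_le_one (min_le_left _ _))

theorem kac_far (κ : ℝ) {L r : ℝ} (h : L + 1 ≤ r) : kac κ L r = 0 := by
  rw [kac, max_eq_left ((min_le_right _ _).trans (by linarith)), mul_zero]

theorem kac_near (κ : ℝ) {L r : ℝ} (h : r ≤ L) : kac κ L r = κ := by
  rw [kac, min_eq_left (by linarith), max_eq_right zero_le_one, mul_one]

/-- a lattice vector as a point -/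
noncomputable def lat (z : Fin 3 → ℤ) : Pt := WithLp.toLp 2 fun k => (z k : ℝ)

theorem dist_corner {b : ℝ} (hb : 0 ≤ b) (c : ℝ) (q q' : Fin 3 → ℤ) :
    dist (corner b c q) (corner b c q') = b * ‖lat (q - q')‖ := by
  have : corner b c q - corner b c q' = b • lat (q - q') := by
    ext k; simp [corner, lat]; ring
  rw [dist_eq_norm, this, norm_smul, Real.norm_of_nonneg hb]

open Classical in
/-- lattice points of a ball -/
noncomputable def ballZ (j : ℕ) : Finset (Fin 3 → ℤ) :=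
  (Fintype.piFinset fun _ : Fin 3 => Finset.Icc (-j : ℤ) j).filter fun z => ‖lat z‖ ≤ j

theorem abs_le_lat (z : Fin 3 → ℤ) (k : Fin 3) : |(z k : ℝ)| ≤ ‖lat z‖ := by
  simpa [lat] using abs_sub_le_dist (lat z) 0 k

theorem mem_ballZ {j : ℕ} {z : Fin 3 → ℤ} : z ∈ ballZ j ↔ ‖lat z‖ ≤ j := by
  rw [ballZ, Finset.mem_filter, and_iff_right_iff_imp]
  intro h
  refine Fintype.mem_piFinset.2 fun k => Finset.mem_Icc.2 (abs_le.1 ?_)
  exact_mod_cast (abs_le_lat z k).trans h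

theorem card_ballZ_le (j : ℕ) : (ballZ j).card ≤ (2 * j + 1) ^ 3 := by
  refine (Finset.card_filter_le _ _).trans (le_of_eq ?_)
  simp only [Fintype.card_piFinset, Int.card_Icc, Finset.prod_const, Finset.card_univ,
    Fintype.card_fin]
  congr 1; omega

theorem le_card_ballZ {u j : ℕ} (h : u ≤ j) : u ^ 3 ≤ (ballZ j).card := by
  have h1 : (Fintype.piFinset fun _ : Fin 3 => Finset.Icc (-(u / 2 : ℕ) : ℤ) (u / 2 : ℕ)) ⊆
      ballZ j := fun z hz => by
    rw [mem_ballZ, ← dist_zero_right]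
    have h2 : ∀ k, |lat z k - (0 : Pt) k| ≤ (u / 2 : ℕ) := fun k => by
      have := abs_le.2 (Finset.mem_Icc.1 (Fintype.mem_piFinset.1 hz k))
      simp only [lat, PiLp.zero_apply, sub_zero]
      rw [← Int.cast_abs, ← Int.cast_natCast, Int.cast_le]
      exact this
    have h3 : (2 * (u / 2 : ℕ) : ℝ) ≤ j := by exact_mod_cast (by omega : 2 * (u / 2) ≤ j)
    have h4 : (0 : ℝ) ≤ (u / 2 : ℕ) := Nat.cast_nonneg _
    linarith [dist_le_of_coord h2]
  refine le_trans ?_ (Finset.card_le_card h1)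
  simp only [Fintype.card_piFinset, Int.card_Icc, Finset.prod_const, Finset.card_univ,
    Fintype.card_fin]
  exact Nat.pow_le_pow_left (by omega) 3

theorem exists_radius {u : ℕ} (hu : 1 ≤ u) : ∃ ρ : ℕ, u ≤ ρ ∧ ρ + 5 ≤ 6 * u ∧
    (ballZ (ρ + 5)).card ≤ (ballZ ρ).card + 2197 * u ^ 2 := by
  by_contra h
  push Not at h
  have h1 : ∀ i ≤ u, i * (2197 * u ^ 2 + 1) ≤ (ballZ (u + 5 * i)).card := fun i hi => by
    induction i with
    | zero => simp
    | succ i ih =>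
      have h2 := h (u + 5 * i) (by omega) (by omega)
      have h3 := ih (by omega)
      rw [show u + 5 * (i + 1) = u + 5 * i + 5 by ring, add_mul]
      omega
  have h2 := (h1 u le_rfl).trans ((card_ballZ_le _).trans
    (Nat.pow_le_pow_left (by omega : 2 * (u + 5 * u) + 1 ≤ 13 * u) 3))
  nlinarith

theorem kac_upper {κ : ℝ} (hκ : 0 ≤ κ) {ρ l : ℕ} (hl : 2 * ρ + 5 ≤ l) (c : ℝ) (s : Cfg) :
    En (kac κ ((ρ + 2) * (l + 2))) s ≤ κ * (ballZ (ρ + 5)).card / 2 * Qc l c s := by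
  have hl' : (2 * ρ + 5 : ℝ) ≤ l := by exact_mod_cast hl
  have hρ : (0 : ℝ) ≤ ρ := Nat.cast_nonneg _
  have hl0 : (0 : ℝ) < l := by linarith
  have h1 := mul_le_mul_of_nonneg_left (nbr_le l c (ballZ (ρ + 5)) s) hκ
  rw [← PS_mul] at h1
  have h2 : PS (fun a b => kac κ ((ρ + 2) * (l + 2)) (dist a b)) s s ≤ PS (fun x y =>
      κ * if cell l c x - cell l c y ∈ ballZ (ρ + 5) then 1 else 0) s s := by
    refine PS_mono fun x _ y _ => ?_
    split_ifs with h
    · rw [mul_one]; exact kac_le hκ _ _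
    · rw [mul_zero]
      refine le_of_eq (kac_far _ (le_of_not_ge fun h' => h (mem_ballZ.2 ?_)))
      have h3 := sub_corner_mem hl0 c x
      have h4 := sub_corner_mem hl0 c y
      have h5 : dist (x - corner l c (cell l c x)) (y - corner l c (cell l c y)) ≤ 7 / 4 * l :=
        dist_le_of_coord fun k => abs_le.2 ⟨by linarith [h3 k, h4 k], by linarith [h3 k, h4 k]⟩
      have h6 := dist_sub_sub_le x (x - corner l c (cell l c x)) y (y - corner l c (cell l c y))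
      rw [sub_sub_cancel, sub_sub_cancel, dist_corner hl0.le] at h6
      refine le_of_mul_le_mul_left ?_ hl0
      push_cast
      nlinarith
  have h3 := mul_nonneg (Nat.cast_nonneg (α := ℝ) s.card) (kac_nonneg hκ ((ρ + 2) * (l + 2)) 0)
  unfold En; linarith

theorem kac_lower {κ : ℝ} (hκ : 0 ≤ κ) {ρ t m n : ℕ} (hm : 2 * ρ ≤ m) {s : (Fin 3 → ℤ) → Cfg}
    (hs : ∀ q ∈ box m, In (cube ((t : ℝ) - 2)) (s q) ∧ (s q).card = n) :
    κ / 2 * ((n : ℝ) ^ 2 * (ballZ ρ).card * (m - 2 * ρ) ^ 3 - m ^ 3 * n) ≤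
      En (kac κ ((ρ + 2) * t)) (∑ q ∈ box m, sh (corner t 0 q) (s q)) := by
  classical
  have ht0 : (0 : ℝ) ≤ t := Nat.cast_nonneg t
  have hρ : (0 : ℝ) ≤ ρ := Nat.cast_nonneg _
  have e1 : (((∑ q ∈ box m, sh (corner t 0 q) (s q)).card : ℕ) : ℝ) = m ^ 3 * n := by
    rw [Multiset.card_sum, Finset.sum_congr rfl fun q hq => (card_sh _ _).trans (hs q hq).2,
      Finset.sum_const, card_box]
    simp
  have e2 : ∀ q ∈ box m, ∀ q' ∈ box m, κ * n ^ 2 * (if q - q' ∈ ballZ ρ then 1 else 0) ≤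
      PS (fun a b => kac κ ((ρ + 2) * t) (dist a b)) (sh (corner t 0 q) (s q))
        (sh (corner t 0 q') (s q')) := fun q hq q' hq' => by
    refine le_trans (le_of_eq ?_) (PS_mono (g := fun _ _ => κ * if q - q' ∈ ballZ ρ then 1 else 0)
      fun x hx y hy => ?_)
    · rw [PS_const, card_sh, card_sh, (hs q hq).2, (hs q' hq').2]; ring
    · split_ifs with h
      · obtain ⟨x', hx', rfl⟩ := mem_sh.1 hx
        obtain ⟨y', hy', rfl⟩ := mem_sh.1 hy
        have h3 := (hs q hq).1 x' hx'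
        have h4 := (hs q' hq').1 y' hy'
        have h5 : dist x' y' ≤ 7 / 4 * t :=
          dist_le_of_coord fun k => abs_le.2 ⟨by linarith [h3 k, h4 k], by linarith [h3 k, h4 k]⟩
        have h6 := dist_add_add_le x' (corner t 0 q) y' (corner t 0 q')
        rw [dist_corner ht0] at h6
        have h7 := mul_le_mul_of_nonneg_left (mem_ballZ.1 h) ht0
        rw [mul_one, kac_near _ (by linarith)]
      · rw [mul_zero]; exact kac_nonneg hκ _ _
  have e3 : ((ballZ ρ).card : ℝ) * (m - 2 * ρ) ^ 3 ≤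
      ∑ q ∈ box m, ∑ q' ∈ box m, if q - q' ∈ ballZ ρ then 1 else 0 := by
    set J := Fintype.piFinset fun _ : Fin 3 => Finset.Ico (ρ : ℤ) (m - ρ) with hJ
    have hJc : (J.card : ℝ) = (m - 2 * ρ) ^ 3 := by
      simp only [hJ, Fintype.card_piFinset, Int.card_Ico, Finset.prod_const, Finset.card_univ,
        Fintype.card_fin]
      rw [show ((m : ℤ) - ρ - ρ).toNat = m - 2 * ρ by omega]
      push_cast [Nat.cast_sub hm]; rfl
    refine le_trans ?_ (Finset.sum_le_sum_of_subset_of_nonneg (s := J) (fun q hq => ?_)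
      fun q _ _ => Finset.sum_nonneg fun _ _ => by split_ifs <;> norm_num)
    · rw [← hJc, mul_comm, ← nsmul_eq_mul, ← Finset.sum_const]
      refine Finset.sum_le_sum fun q hq => ?_
      rw [Finset.sum_boole, Nat.cast_le]
      refine Finset.card_le_card_of_injOn (fun z => q - z) (fun z hz => ?_)
        fun z _ z' _ h => by simpa using h
      refine Finset.mem_filter.2 ⟨Fintype.mem_piFinset.2 fun k => ?_, by simpa using hz⟩
      have h1 := Finset.mem_Ico.1 (Fintype.mem_piFinset.1 hq k)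
      have h2 := Finset.mem_Icc.1 (Fintype.mem_piFinset.1 (Finset.mem_filter.1 hz).1 k)
      simp only [Finset.mem_Ico, Pi.sub_apply]
      omega
    · refine Fintype.mem_piFinset.2 fun k => ?_
      have h1 := Finset.mem_Ico.1 (Fintype.mem_piFinset.1 hq k)
      simp only [Finset.mem_Ico]
      omega
  have e4 := Finset.sum_le_sum fun q hq => Finset.sum_le_sum (e2 q hq)
  rw [← PS_sum] at e4
  simp only [← Finset.mul_sum] at e4
  have e5 := mul_le_mul_of_nonneg_left e3 (by positivity : 0 ≤ κ * n ^ 2)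
  rw [En, e1, kac_near (r := 0) _ (by positivity)]
  linarith

theorem exists_kac {u l : ℕ} (hu : 36 ≤ u) (hl : 12 * u ≤ l) {a : ℝ} (ha : 0 ≤ a) :
    ∃ κ L : ℝ, 0 ≤ κ ∧ κ * (u * (l + 2)) ^ 3 ≤ 2 * a ∧ L + 1 ≤ 6 * (u * (l + 2)) ∧
      Dom (kac κ L) (31250 * a) ∧
      Dom (fun r => 3 * (r + 1) * kac κ L r) (656250 * a * (u * (l + 2))) ∧
      (∀ (c : ℝ) (s : Cfg), En (kac κ L) s ≤ a / (l + 2) ^ 3 * Qc l c s) ∧
      ∀ (n : ℕ) (s : (Fin 3 → ℤ) → Cfg),
        (∀ q ∈ box (u ^ 2), In (cube (((l + 2 : ℕ) : ℝ) - 2)) (s q) ∧ (s q).card = n) →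
        ((u : ℝ) ^ 2) ^ 3 * (a / (l + 2) ^ 3 * (n ^ 2 * (1 - 2233 / u) - n)) ≤
          En (kac κ L) (∑ q ∈ box (u ^ 2), sh (corner (l + 2 : ℕ) 0 q) (s q)) := by
  obtain ⟨ρ, h1, h2, h3⟩ := exists_radius (by omega : 1 ≤ u)
  have hu' : (36 : ℝ) ≤ u := by exact_mod_cast hu
  have hl0 : (0 : ℝ) ≤ l := Nat.cast_nonneg _
  have hρ0 : (0 : ℝ) ≤ ρ := Nat.cast_nonneg _
  have h2' : (ρ + 5 : ℝ) ≤ 6 * u := by exact_mod_cast h2
  have h3' : ((ballZ (ρ + 5)).card : ℝ) ≤ (ballZ ρ).card + 2197 * u ^ 2 := by exact_mod_cast h3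
  have h4 : (u : ℝ) ^ 3 ≤ (ballZ (ρ + 5)).card := by
    exact_mod_cast le_card_ballZ (by omega : u ≤ ρ + 5)
  set N : ℝ := ((ballZ (ρ + 5)).card : ℝ) with hN
  have hu3 : (1 : ℝ) ≤ u ^ 3 := one_le_pow₀ (by linarith)
  have hN0 : 0 < N := by linarith
  set g : ℝ := a / (l + 2) ^ 3 with hg
  have hg0 : 0 ≤ g := by positivity
  have hκ : 0 ≤ 2 * g / N := by positivity
  set T : ℝ := u * (l + 2) with hT
  have hT1 : 3 ≤ T := by nlinarith
  have hκT : 2 * g / N * T ^ 3 ≤ 2 * a := by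
    rw [div_mul_eq_mul_div, div_le_iff₀ hN0]
    have : 2 * g * T ^ 3 = 2 * a * u ^ 3 := by rw [hg, hT]; field_simp
    rw [this]; gcongr
  have hL : (ρ + 2 : ℝ) * (l + 2) + 1 ≤ 6 * T := by nlinarith
  have hL0 : 0 ≤ (ρ + 2 : ℝ) * (l + 2) + 1 := by positivity
  have hc : 2 * g / N * (4 * ((ρ + 2 : ℝ) * (l + 2) + 1) + 3) ^ 3 ≤ 31250 * a :=
    (mul_le_mul_of_nonneg_left (pow_le_pow_left₀ (by positivity) (by linarith :
      4 * ((ρ + 2 : ℝ) * (l + 2) + 1) + 3 ≤ 25 * T) 3) hκ).trans (by rw [mul_pow]; linarith)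
  refine ⟨2 * g / N, (ρ + 2) * (l + 2), hκ, hκT, hL, ?_, ?_, fun c s => ?_, fun n s hs => ?_⟩
  · exact (dom_of_supp hκ hL0 (fun r _ _ => kac_le hκ _ r)
      fun r h => (kac_far _ h.le).le).mono (fun _ _ => le_rfl) hc
  · refine (dom_of_supp (κ := 21 * T * (2 * g / N)) (by positivity) hL0 (fun r hr h => ?_)
      fun r h => by rw [kac_far _ h.le, mul_zero]).mono (fun _ _ => le_rfl) ?_
    · exact mul_le_mul (by linarith) (kac_le hκ _ r) (kac_nonneg hκ _ _) (by positivity)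
    · have := mul_le_mul_of_nonneg_left hc (by positivity : 0 ≤ 21 * T)
      linarith
  · refine (kac_upper hκ (by omega) c s).trans (le_of_eq ?_)
    rw [← hN]; congr 1; field_simp
  · have h5 := kac_lower hκ (ρ := ρ) (by nlinarith) hs
    push_cast at h5 ⊢
    refine le_trans ?_ h5
    have hu0 : (0 : ℝ) < u := by linarith
    have e1 : ((u : ℝ) ^ 2) ^ 3 * (1 - 36 / u) ≤ (u ^ 2 - 2 * ρ) ^ 3 := by
      have e0 : ((u : ℝ) ^ 2) ^ 3 * (1 - 36 / u) = (u ^ 2) ^ 3 - 3 * (u ^ 2) ^ 2 * (12 * u) := by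
        field_simp; ring
      have e2 : (u ^ 2 - 12 * u : ℝ) ^ 3 ≤ (u ^ 2 - 2 * ρ) ^ 3 :=
        pow_le_pow_left₀ (by nlinarith) (by linarith) 3
      have e3 : (0 : ℝ) ≤ (12 * u) ^ 2 * (3 * u ^ 2 - 12 * u) :=
        mul_nonneg (by positivity) (by nlinarith)
      nlinarith
    have e2 : N * (1 - 2197 / u) ≤ (ballZ ρ).card := by
      have : 2197 * (u : ℝ) ^ 2 ≤ N * (2197 / u) := by
        rw [mul_div_assoc', le_div_iff₀ hu0]; nlinarith
      linarith
    have e3 : (0 : ℝ) ≤ 1 - 36 / u := by rw [sub_nonneg, div_le_one hu0]; exact hu'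
    have e4 : N * ((u : ℝ) ^ 2) ^ 3 * (1 - 2233 / u) ≤ (ballZ ρ).card * (u ^ 2 - 2 * ρ) ^ 3 := by
      have e5 : (1 - 2233 / u : ℝ) ≤ (1 - 2197 / u) * (1 - 36 / u) := by
        have : (0 : ℝ) ≤ 2197 / u * (36 / u) := by positivity
        have : (2233 / u : ℝ) = 2197 / u + 36 / u := by ring
        nlinarith
      calc _ ≤ N * ((u : ℝ) ^ 2) ^ 3 * ((1 - 2197 / u) * (1 - 36 / u)) := by gcongr
        _ = N * (1 - 2197 / u) * (((u : ℝ) ^ 2) ^ 3 * (1 - 36 / u)) := by ring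
        _ ≤ _ := mul_le_mul e2 e1 (by positivity) (Nat.cast_nonneg _)
    have e5 : 2 * g / N / 2 * (((u : ℝ) ^ 2) ^ 3 * n) ≤ g * ((u ^ 2) ^ 3 * n) := by
      refine mul_le_mul_of_nonneg_right ?_ (by positivity)
      rw [div_div, div_le_iff₀ (by positivity)]; nlinarith
    have e6 := mul_le_mul_of_nonneg_left e4 (by positivity : 0 ≤ 2 * g / N / 2 * n ^ 2)
    have e7 : 2 * g / N / 2 * n ^ 2 * (N * ((u : ℝ) ^ 2) ^ 3 * (1 - 2233 / u)) =
        g * n ^ 2 * (((u : ℝ) ^ 2) ^ 3 * (1 - 2233 / u)) := by field_simp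
    linarith

end Crest.Agent.R149
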