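import Crest.Agent.R149.Pair

/-! Task 149-A: canonical and grand canonical integrals. -/

set_option autoImplicit false
open MeasureTheory Crest.ProbabilityR.Continuum
open scoped ENNReal BigOperators

namespace Crest.Agent.R149

namespace A

theorem mk_comp {ι κ : Type} [Fintype ι] [Fintype κ] (e : ι ≃ κ) (x : κ → Pt) :
    mk (fun i => x (e i)) = mk x := by
  unfold mk
  rw [← Finset.map_univ_equiv e, Finset.map_val, Multiset.map_map]
  rfl

theorem meas_fintype {f : Cfg → ℝ≥0∞} (hf : Meas f) (ι : Type) [Fintype ι] :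
    Measurable fun x : ι → Pt => f (mk x) := by
  let e := (Fintype.equivFin ι).symm
  have : (fun x : ι → Pt => f (mk x)) =
      (fun y : Fin (Fintype.card ι) → Pt => f (mk y)) ∘ fun x i => x (e i) := by
    funext x
    simp only [Function.comp, mk_comp]
  rw [this]
  exact (hf _).comp (measurable_pi_lambda _ fun i => measurable_pi_apply _)

theorem filter_mk {ι : Type} [Fintype ι] (x : ι → Pt) (P : Pt → Prop) [DecidablePred P]
    (p : ι → Prop) [Fintype {i // p i}] (h : ∀ i, P (x i) ↔ p i) :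
    (mk x).filter P = mk fun i : {i // p i} => x i := by
  classical
  unfold mk
  have e1 : (Finset.univ : Finset {i // p i}).map (Function.Embedding.subtype p) =
      Finset.univ.filter fun i => P (x i) := by
    ext i
    simp [h]
  rw [Multiset.filter_map]
  have e2 := congrArg Finset.val e1
  rw [Finset.map_val, Finset.filter_val] at e2
  have e3 : Multiset.filter (P ∘ x) Finset.univ.val =
      Multiset.filter (fun i => P (x i)) Finset.univ.val := by
    congr
  rw [e3, ← e2, Multiset.map_map]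
  rfl

theorem sh_mk {ι : Type} [Fintype ι] (z : Pt) (x : ι → Pt) : sh z (mk x) = mk fun i => x i + z := by
  unfold sh mk
  rw [Multiset.map_map]
  rfl

theorem sh_sh (z w : Pt) (s : Cfg) : sh z (sh w s) = sh (w + z) s := by
  unfold sh
  rw [Multiset.map_map]
  congr 1
  funext a
  simp [add_assoc]

theorem sh_zero (s : Cfg) : sh 0 s = s := by
  simp [sh]

/-- reindexing the canonical integral -/
theorem lint_reindex (ι : Type) [Fintype ι] (μ : Measure Pt) [SigmaFinite μ] (f : Cfg → ℝ≥0∞) :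
    ∫⁻ x, f (mk x) ∂(Measure.pi fun _ : ι => μ) =
      ∫⁻ x, f (mk x) ∂(Measure.pi fun _ : Fin (Fintype.card ι) => μ) := by
  have h := measurePreserving_piCongrLeft (α := fun _ : Fin (Fintype.card ι) => Pt)
    (fun _ => μ) (Fintype.equivFin ι)
  rw [← h.lintegral_comp_emb (MeasurableEquiv.measurableEmbedding _)]
  refine lintegral_congr fun x => ?_
  rw [← mk_comp (Fintype.equivFin ι)]
  congr 2
  funext i
  rw [MeasurableEquiv.coe_piCongrLeft, Equiv.piCongrLeft_apply_apply]

end A

open A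

theorem ex_add (a b : ℝ) : ex (a + b) = ex a * ex b := by
  unfold ex
  rw [Real.exp_add, ENNReal.ofReal_mul (Real.exp_pos a).le]
theorem ex_zero : ex 0 = 1 := by simp [ex]
theorem ex_le_ex {a b : ℝ} : ex a ≤ ex b ↔ a ≤ b := by
  unfold ex
  rw [ENNReal.ofReal_le_ofReal_iff (Real.exp_pos b).le, Real.exp_le_exp]
theorem ex_ne_top (a : ℝ) : ex a ≠ ⊤ := ENNReal.ofReal_ne_top
theorem ex_ne_zero (a : ℝ) : ex a ≠ 0 := (ENNReal.ofReal_pos.mpr (Real.exp_pos a)).ne'
theorem ex_sum {κ : Type} (Q : Finset κ) (a : κ → ℝ) : ex (∑ q ∈ Q, a q) = ∏ q ∈ Q, ex (a q) := by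
  unfold ex
  rw [Real.exp_sum, ENNReal.ofReal_prod_of_nonneg fun q _ => (Real.exp_pos _).le]
theorem ex_nat_mul (n : ℕ) (a : ℝ) : ex (n * a) = ex a ^ n := by
  unfold ex
  rw [Real.exp_nat_mul, ENNReal.ofReal_pow (Real.exp_pos _).le]
theorem ex_log {Z : ℝ≥0∞} (h0 : Z ≠ 0) (h1 : Z ≠ ⊤) : ex (Real.log Z.toReal) = Z := by
  unfold ex
  rw [Real.exp_log (ENNReal.toReal_pos h0 h1), ENNReal.ofReal_toReal h1]

theorem measR_PS {g : Pt → Pt → ℝ} (hg : Measurable (Function.uncurry g)) :
    MeasR fun s => PS g s s := by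
  intro n
  simp only [mk, PS_map]
  refine Finset.measurable_sum _ fun i _ => Finset.measurable_sum _ fun j _ => ?_
  have : Measurable fun x : Fin n → Pt => (x i, x j) := by fun_prop
  exact hg.comp this
theorem measR_card (c : ℕ → ℝ) : MeasR fun s => c s.card := by
  intro n
  simp only [card_mk]
  exact measurable_const
theorem measR_En {φ : ℝ → ℝ} (hφ : Measurable φ) : MeasR (En φ) := by
  intro n
  have h1 := measR_PS (g := fun a b => φ (dist a b)) (hφ.comp measurable_dist) n
  have h2 := measR_card (fun k => (k : ℝ) * φ 0) n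
  exact (h1.sub h2).div_const 2
theorem measR_Qc (b c : ℝ) : MeasR (Qc b c) := by
  refine measR_PS (g := fun x y => if cell b c x = cell b c y then 1 else 0) ?_
  exact Measurable.ite (measurableSet_eq_fun ((measurable_cell b c).comp measurable_fst)
    ((measurable_cell b c).comp measurable_snd)) measurable_const measurable_const
theorem MeasR.add {f g : Cfg → ℝ} (hf : MeasR f) (hg : MeasR g) : MeasR fun s => f s + g s :=
  fun n => (hf n).add (hg n)
theorem MeasR.const_mul {f : Cfg → ℝ} (hf : MeasR f) (c : ℝ) : MeasR fun s => c * f s :=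
  fun n => (hf n).const_mul c
theorem MeasR.ex {f : Cfg → ℝ} (hf : MeasR f) : Meas fun s => ex (f s) :=
  fun n => ENNReal.measurable_ofReal.comp (Real.measurable_exp.comp (hf n))
theorem MeasR.le {f g : Cfg → ℝ} (hf : MeasR f) (hg : MeasR g) : MeasP fun s => f s ≤ g s :=
  fun n => measurableSet_le (hf n) (hg n)
theorem MeasP.and {P P' : Cfg → Prop} (h : MeasP P) (h' : MeasP P') : MeasP fun s => P s ∧ P' s :=
  fun n => (h n).inter (h' n)
theorem Meas.ite {P : Cfg → Prop} [DecidablePred P] {f g : Cfg → ℝ≥0∞} (h : MeasP P) (hf : Meas f)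
    (hg : Meas g) : Meas fun s => if P s then f s else g s :=
  fun n => Measurable.ite (h n) (hf n) (hg n)
theorem meas_card (c : ℕ → ℝ≥0∞) : Meas fun s => c s.card := by
  intro n
  simp only [card_mk]
  exact measurable_const
theorem Meas.mul {f g : Cfg → ℝ≥0∞} (hf : Meas f) (hg : Meas g) : Meas fun s => f s * g s :=
  fun n => (hf n).mul (hg n)
theorem Meas.sh {f : Cfg → ℝ≥0∞} (hf : Meas f) (z : Pt) : Meas fun s => f (sh z s) := by
  intro n
  simp only [sh_mk]
  have : Measurable fun (x : Fin n → Pt) (i : Fin n) => x i + z := by fun_prop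
  exact (hf n).comp this
theorem Meas.filter {f : Cfg → ℝ≥0∞} (hf : Meas f) {P : Pt → Prop} [DecidablePred P]
    (hP : MeasurableSet {x | P x}) : Meas fun s => f (s.filter P) := by
  intro n
  have e : (fun x : Fin n → Pt => f ((mk x).filter P)) = fun x => ∑ S : Finset (Fin n),
      Set.indicator {x : Fin n → Pt | ∀ i, P (x i) ↔ i ∈ S}
        (fun x => f (mk fun i : {i // i ∈ S} => x i)) x := by
    funext x
    rw [Finset.sum_eq_single (Finset.univ.filter fun i => P (x i))]
    · rw [Set.indicator_of_mem (by simp)]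
      congr 1
      exact filter_mk x P _ (by simp)
    · intro S _ hS
      refine Set.indicator_of_notMem (fun h => hS ?_) _
      ext i
      simp [← h i]
    · simp
  rw [e]
  refine Finset.measurable_sum _ fun S _ => Measurable.indicator ?_ ?_
  · exact (meas_fintype hf _).comp (measurable_pi_lambda _ fun i => measurable_pi_apply _)
  · rw [Set.ofPred_forall]
    refine MeasurableSet.iInter fun i => ?_
    by_cases h : i ∈ S
    · simp only [h, iff_true]
      exact measurable_pi_apply i hP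
    · simp only [h, iff_false]
      exact (measurable_pi_apply i hP).compl

theorem ZN_mono {A B : Set Pt} (hA : MeasurableSet A) (hAB : A ⊆ B) {n : ℕ} {f g : Cfg → ℝ≥0∞}
    (h : ∀ s, In A s → s.card = n → f s ≤ g s) : ZN A n f ≤ ZN B n g := by
  unfold ZN
  refine mul_le_mul_right ?_ _
  refine le_trans (setLIntegral_mono' (MeasurableSet.univ_pi fun _ => hA) fun x hx => ?_)
    (lintegral_mono_set (Set.pi_mono fun _ _ => hAB))
  refine h _ (fun a ha => ?_) (by rw [card_mk, Fintype.card_fin])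
  obtain ⟨i, rfl⟩ := (mem_mk x a).mp ha
  exact hx i (Set.mem_univ _)
theorem LP_mono {A B : Set Pt} (hA : MeasurableSet A) (hAB : A ⊆ B) {f g : Cfg → ℝ≥0∞}
    (h : ∀ s, In A s → f s ≤ g s) : LP A f ≤ LP B g :=
  ENNReal.tsum_le_tsum fun _ => ZN_mono hA hAB fun s hs _ => h s hs
theorem ZN_le_LP (A : Set Pt) (n : ℕ) (f : Cfg → ℝ≥0∞) : ZN A n f ≤ LP A f :=
  ENNReal.le_tsum (f := fun n => ZN A n f) n
theorem ZN_zero (A : Set Pt) (f : Cfg → ℝ≥0∞) : ZN A 0 f = f 0 := by
  unfold ZN
  have e : ∀ x : Fin 0 → Pt, mk x = 0 := fun x => by simp [mk]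
  simp only [e]
  rw [setLIntegral_const, volume_pi_pi]
  simp
theorem ZN_const (A : Set Pt) (n : ℕ) (c : ℝ≥0∞) :
    ZN A n (fun _ => c) = (n.factorial : ℝ≥0∞)⁻¹ * volume A ^ n * c := by
  unfold ZN
  rw [setLIntegral_const, volume_pi_pi, Finset.prod_const, Finset.card_univ, Fintype.card_fin]
  ring
theorem ZN_const_mul (A : Set Pt) (n : ℕ) {c : ℝ≥0∞} (hc : c ≠ ⊤) (f : Cfg → ℝ≥0∞) :
    ZN A n (fun s => c * f s) = c * ZN A n f := by
  unfold ZN
  rw [lintegral_const_mul' _ _ hc]
  ring
theorem LP_const_mul (A : Set Pt) {c : ℝ≥0∞} (hc : c ≠ ⊤) (f : Cfg → ℝ≥0∞) :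
    LP A (fun s => c * f s) = c * LP A f := by
  unfold LP
  simp only [ZN_const_mul A _ hc]
  exact ENNReal.tsum_mul_left
theorem LP_add (A : Set Pt) {f : Cfg → ℝ≥0∞} (hf : Meas f) (g : Cfg → ℝ≥0∞) :
    LP A (fun s => f s + g s) = LP A f + LP A g := by
  unfold LP
  rw [← ENNReal.tsum_add]
  refine tsum_congr fun n => ?_
  unfold ZN
  rw [lintegral_add_left (hf n), mul_add]
theorem LP_sum {κ : Type} (A : Set Pt) (Q : Finset κ) {f : κ → Cfg → ℝ≥0∞} (hf : ∀ q, Meas (f q)) :
    LP A (fun s => ∑ q ∈ Q, f q s) = ∑ q ∈ Q, LP A (f q) := by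
  classical
  induction Q using Finset.induction_on with
  | empty => simp [LP, ZN]
  | insert a Q ha ih =>
    simp only [Finset.sum_insert ha]
    rw [LP_add A (hf a), ih]
theorem ZN_shift {A : Set Pt} (z : Pt) (n : ℕ) (f : Cfg → ℝ≥0∞) :
    ZN {x | x - z ∈ A} n f = ZN A n fun s => f (sh z s) := by
  unfold ZN
  congr 1
  have h := (measurePreserving_add_right (volume : Measure (Fin n → Pt))
    (fun _ => z)).setLIntegral_comp_preimage_emb (measurableEmbedding_addRight _)
    (fun x => f (mk x)) (Set.pi Set.univ fun _ : Fin n => {x | x - z ∈ A})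
  rw [← h]
  have e : (fun x : Fin n → Pt => x + fun _ => z) ⁻¹'
      (Set.pi Set.univ fun _ : Fin n => {x | x - z ∈ A}) = Set.pi Set.univ fun _ : Fin n => A := by
    ext x
    simp [Set.mem_pi]
  rw [e]
  simp only [sh_mk]
  rfl

namespace A

theorem ZN_eq (A : Set Pt) (n : ℕ) (f : Cfg → ℝ≥0∞) : ZN A n f = (n.factorial : ℝ≥0∞)⁻¹ *
    ∫⁻ x, f (mk x) ∂(Measure.pi fun _ : Fin n => volume.restrict A) := by
  unfold ZN
  rw [volume_pi, Measure.restrict_pi_pi]

open Classical in
theorem piece {A B : Set Pt} (hA : MeasurableSet A) (hB : MeasurableSet B) (hd : Disjoint A B)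
    {f g : Cfg → ℝ≥0∞} (hf : Meas f) (hg : Meas g) {n : ℕ} (p : Fin n → Prop) [DecidablePred p]
    {k : ℕ} (hk : Fintype.card {i // p i} = k) :
    ∫⁻ x in Set.pi Set.univ (fun i : Fin n => if p i then A else B),
      f ((mk x).filter (· ∈ A)) * g ((mk x).filter (· ∈ B)) =
    (∫⁻ x, f (mk x) ∂(Measure.pi fun _ : Fin k => volume.restrict A)) *
      ∫⁻ x, g (mk x) ∂(Measure.pi fun _ : Fin (n - k) => volume.restrict B) := by
  have hm : MeasurableSet (Set.pi Set.univ fun i : Fin n => if p i then A else B) :=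
    MeasurableSet.univ_pi fun i => by split_ifs <;> assumption
  have e1 : ∫⁻ x in Set.pi Set.univ (fun i : Fin n => if p i then A else B),
      f ((mk x).filter (· ∈ A)) * g ((mk x).filter (· ∈ B)) =
      ∫⁻ x in Set.pi Set.univ (fun i : Fin n => if p i then A else B),
      f (mk fun i : {i // p i} => x i) * g (mk fun i : {i // ¬ p i} => x i) := by
    refine setLIntegral_congr_fun hm fun x hx => ?_
    have h1 : ∀ i, x i ∈ A ↔ p i := by
      intro i
      have := hx i (Set.mem_univ _)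
      by_cases h : p i
      · simpa [h] using this
      · simp only [h, if_false, iff_false] at this ⊢
        exact fun h' => Set.disjoint_left.mp hd h' this
    have h2 : ∀ i, x i ∈ B ↔ ¬ p i := by
      intro i
      have := hx i (Set.mem_univ _)
      by_cases h : p i
      · simp only [h, if_true, not_true, iff_false] at this ⊢
        exact fun h' => Set.disjoint_left.mp hd this h'
      · simpa [h] using this
    rw [filter_mk x _ _ h1, filter_mk x _ _ h2]
  rw [e1, volume_pi, Measure.restrict_pi_pi]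
  have h := measurePreserving_piEquivPiSubtypeProd (α := fun _ : Fin n => Pt)
    (fun i => volume.restrict (if p i then A else B)) p
  have e2 := h.lintegral_comp_emb (MeasurableEquiv.measurableEmbedding _)
    (fun y => f (mk y.1) * g (mk y.2))
  have e3 : (fun i : {i // p i} => volume.restrict (if p i.1 then A else B)) =
      fun _ => volume.restrict A := funext fun i => by rw [if_pos i.2]
  have e4 : (fun i : {i // ¬ p i} => volume.restrict (if p i.1 then A else B)) =
      fun _ => volume.restrict B := funext fun i => by rw [if_neg i.2]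
  rw [e3, e4, lintegral_prod_mul (meas_fintype hf _).aemeasurable (meas_fintype hg _).aemeasurable,
    lint_reindex {i // p i}, lint_reindex {i // ¬ p i}] at e2
  have c2 : Fintype.card {i // ¬ p i} = n - k := by
    rw [Fintype.card_subtype_compl, hk, Fintype.card_fin]
  rw [hk, c2] at e2
  rw [← e2]
  rfl

theorem fact_choose {n k : ℕ} (h : k ≤ n) : (n.factorial : ℝ≥0∞)⁻¹ * n.choose k =
    (k.factorial : ℝ≥0∞)⁻¹ * ((n - k).factorial : ℝ≥0∞)⁻¹ := by
  rw [← Nat.choose_mul_factorial_mul_factorial h]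
  push_cast
  have h0 : (n.choose k : ℝ≥0∞) ≠ 0 := by exact_mod_cast (Nat.choose_pos h).ne'
  have h1 : (k.factorial : ℝ≥0∞) ≠ 0 := by exact_mod_cast k.factorial_ne_zero
  rw [mul_assoc, ENNReal.mul_inv (Or.inl h0) (Or.inl (ENNReal.natCast_ne_top _)),
    ENNReal.mul_inv (Or.inl h1) (Or.inl (ENNReal.natCast_ne_top _)), mul_comm, ← mul_assoc,
    ENNReal.mul_inv_cancel h0 (ENNReal.natCast_ne_top _), one_mul]

open Classical in
theorem ZN_union {A B : Set Pt} (hA : MeasurableSet A) (hB : MeasurableSet B) (hd : Disjoint A B)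
    {f g : Cfg → ℝ≥0∞} (hf : Meas f) (hg : Meas g) (n : ℕ) :
    ZN (A ∪ B) n (fun s => f (s.filter (· ∈ A)) * g (s.filter (· ∈ B))) =
      ∑ k ∈ Finset.range (n + 1), ZN A k f * ZN B (n - k) g := by
  have e1 : (Set.pi Set.univ fun _ : Fin n => A ∪ B) = ⋃ S ∈ (Finset.univ : Finset (Fin n)).powerset,
      Set.pi Set.univ (fun i : Fin n => if i ∈ S then A else B) := by
    ext x
    simp only [Set.mem_pi, Set.mem_univ, true_imp_iff, Set.mem_iUnion, exists_prop]
    constructor
    · intro h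
      refine ⟨Finset.univ.filter fun i => x i ∈ A, by simp, fun i => ?_⟩
      by_cases h' : x i ∈ A
      · simp [h']
      · simpa [h'] using h i
    · rintro ⟨S, -, h⟩ i
      have := h i
      split_ifs at this
      · exact Or.inl this
      · exact Or.inr this
  simp only [ZN_eq A, ZN_eq B]
  unfold ZN
  rw [e1, lintegral_biUnion_finset]
  · simp only [fun S : Finset (Fin n) => piece hA hB hd hf hg (fun i => i ∈ S) (k := S.card)
      (by simp)]
    rw [Finset.sum_powerset_apply_card (fun k =>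
      (∫⁻ x, f (mk x) ∂(Measure.pi fun _ : Fin k => volume.restrict A)) *
      ∫⁻ x, g (mk x) ∂(Measure.pi fun _ : Fin (n - k) => volume.restrict B)),
      Finset.card_univ, Fintype.card_fin, Finset.mul_sum]
    refine Finset.sum_congr rfl fun k hk => ?_
    rw [nsmul_eq_mul, ← mul_assoc, fact_choose (by simpa [Nat.lt_succ_iff] using hk)]
    ring
  · intro S _ T _ hST
    refine Set.disjoint_left.mpr fun x hx hx' => hST ?_
    ext i
    have h1 := hx i (Set.mem_univ _)
    have h2 := hx' i (Set.mem_univ _)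
    by_cases h : i ∈ S <;> by_cases h' : i ∈ T <;> simp only [h, h', if_true, if_false] at h1 h2 ⊢
    · exact absurd h2 (Set.disjoint_left.mp hd h1)
    · exact absurd h1 (Set.disjoint_left.mp hd h2)
  · intro S _
    exact MeasurableSet.univ_pi fun i => by split_ifs <;> assumption

theorem tsum_conv (a b : ℕ → ℝ≥0∞) :
    ∑' n, ∑ k ∈ Finset.range (n + 1), a k * b (n - k) = (∑' k, a k) * ∑' k, b k := by
  simp only [← Finset.Nat.sum_antidiagonal_eq_sum_range_succ fun i j => a i * b j]
  have e1 : ∀ n : ℕ, ∑ ij ∈ Finset.HasAntidiagonal.antidiagonal n, a ij.1 * b ij.2 =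
      ∑' ij : Finset.HasAntidiagonal.antidiagonal n, a ij.1.1 * b ij.1.2 := fun n =>
    (Finset.tsum_subtype (Finset.HasAntidiagonal.antidiagonal n) fun ij => a ij.1 * b ij.2).symm
  simp only [e1]
  rw [← ENNReal.tsum_sigma' (β := fun n : ℕ => Finset.HasAntidiagonal.antidiagonal n)
    (fun p => a p.2.1.1 * b p.2.1.2)]
  rw [← ENNReal.tsum_mul_right]
  simp only [← ENNReal.tsum_mul_left]
  rw [← ENNReal.tsum_prod]
  exact (Finset.HasAntidiagonal.sigmaAntidiagonalEquivProd (A := ℕ)).tsum_eq fun p => a p.1 * b p.2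

open Classical in
theorem LP_union {A B : Set Pt} (hA : MeasurableSet A) (hB : MeasurableSet B) (hd : Disjoint A B)
    {f g : Cfg → ℝ≥0∞} (hf : Meas f) (hg : Meas g) :
    LP (A ∪ B) (fun s => f (s.filter (· ∈ A)) * g (s.filter (· ∈ B))) = LP A f * LP B g := by
  unfold LP
  simp only [ZN_union hA hB hd hf hg]
  exact tsum_conv (fun k => ZN A k f) fun k => ZN B k g

theorem meas_prod {κ : Type} (Q : Finset κ) {f : κ → Cfg → ℝ≥0∞} (hf : ∀ q, Meas (f q)) :
    Meas fun s => ∏ q ∈ Q, f q s := fun n => Finset.measurable_prod _ fun q _ => hf q n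

theorem LP_eq_ZN {A : Set Pt} (hA : MeasurableSet A) (n : ℕ) {f : Cfg → ℝ≥0∞}
    (h : ∀ s, In A s → s.card ≠ n → f s = 0) : LP A f = ZN A n f := by
  unfold LP
  refine tsum_eq_single n fun k hk => le_antisymm ?_ bot_le
  refine (ZN_mono (g := fun _ => 0) hA le_rfl fun s hs hc => (h s hs (hc ▸ hk)).le).trans ?_
  rw [ZN_const, mul_zero]

open Classical in
theorem sum_filter_disj {κ : Type} (Q : Finset κ) {A : κ → Set Pt}
    (hd : ∀ q ∈ Q, ∀ q' ∈ Q, q ≠ q' → Disjoint (A q) (A q')) {s : Cfg}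
    (hs : In (⋃ q ∈ Q, A q) s) : ∑ q ∈ Q, s.filter (· ∈ A q) = s := by
  ext a
  rw [Multiset.count_sum']
  simp only [Multiset.count_filter]
  by_cases ha : a ∈ s
  · have := hs a ha
    simp only [Set.mem_iUnion, exists_prop] at this
    obtain ⟨q, hq, haq⟩ := this
    rw [Finset.sum_eq_single q, if_pos haq]
    · intro q' hq' hne
      exact if_neg (Set.disjoint_left.mp (hd q hq q' hq' hne.symm) haq)
    · exact fun h => absurd hq h
  · simp [Multiset.count_eq_zero_of_notMem ha]

end A

open Classical in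
/-- factorisation over disjoint regions -/
theorem LP_prod {κ : Type} (Q : Finset κ) {A : κ → Set Pt} (hA : ∀ q, MeasurableSet (A q))
    (hd : ∀ q ∈ Q, ∀ q' ∈ Q, q ≠ q' → Disjoint (A q) (A q')) {f : κ → Cfg → ℝ≥0∞}
    (hf : ∀ q, Meas (f q)) :
    LP (⋃ q ∈ Q, A q) (fun s => ∏ q ∈ Q, f q (s.filter (· ∈ A q))) = ∏ q ∈ Q, LP (A q) (f q) := by
  induction Q using Finset.induction_on with
  | empty =>
    simp only [Finset.notMem_empty, Set.iUnion_of_empty, Set.iUnion_empty, Finset.prod_empty]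
    rw [LP_eq_ZN MeasurableSet.empty 0, ZN_zero]
    intro s hs hc
    obtain ⟨a, ha⟩ := Multiset.card_pos_iff_exists_mem.mp (Nat.pos_of_ne_zero hc)
    exact absurd (hs a ha) (Set.notMem_empty a)
  | insert a Q ha ih =>
    rw [Finset.set_biUnion_insert, Finset.prod_insert ha, ← ih fun q hq q' hq' =>
      hd q (Finset.mem_insert_of_mem hq) q' (Finset.mem_insert_of_mem hq'),
      ← LP_union (g := fun s => ∏ q ∈ Q, f q (s.filter (· ∈ A q))) (hA a)
        (Finset.measurableSet_biUnion Q fun q _ => hA q) ?_ (hf a)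
        (meas_prod Q fun q => (hf q).filter (hA q))]
    · congr 1
      funext s
      rw [Finset.prod_insert ha]
      congr 1
      refine Finset.prod_congr rfl fun q hq => ?_
      rw [Multiset.filter_filter]
      congr 1
      refine Multiset.filter_congr fun x _ => ⟨fun h => ⟨h, ?_⟩, fun h => h.1⟩
      exact Set.mem_biUnion hq h
    · rw [Set.disjoint_iUnion₂_right]
      exact fun q hq => hd a (Finset.mem_insert_self _ _) q (Finset.mem_insert_of_mem hq)
        fun h => ha (h ▸ hq)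

/-- lower bound by independent translated tiles -/
theorem tile_le {κ : Type} (Q : Finset κ) {A B : Set Pt} (hA : MeasurableSet A) (z : κ → Pt)
    (hd : ∀ q ∈ Q, ∀ q' ∈ Q, q ≠ q' → ∀ x ∈ A, ∀ y ∈ A, x + z q ≠ y + z q')
    (hB : ∀ q ∈ Q, ∀ x ∈ A, x + z q ∈ B) (n : κ → ℕ) {f : κ → Cfg → ℝ≥0∞} (hf : ∀ q, Meas (f q))
    {F : Cfg → ℝ≥0∞} (hF : ∀ s : κ → Cfg, (∀ q ∈ Q, In A (s q) ∧ (s q).card = n q) →
      ∏ q ∈ Q, f q (s q) ≤ F (∑ q ∈ Q, sh (z q) (s q))) :
    ∏ q ∈ Q, ZN A (n q) (f q) ≤ ZN B (∑ q ∈ Q, n q) F := by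
  classical
  let A' : κ → Set Pt := fun q => {x | x - z q ∈ A}
  have hA' : ∀ q, MeasurableSet (A' q) := fun q => (measurable_id.sub_const (z q)) hA
  have hd' : ∀ q ∈ Q, ∀ q' ∈ Q, q ≠ q' → Disjoint (A' q) (A' q') := by
    intro q hq q' hq' hne
    refine Set.disjoint_left.mpr fun x hx hx' => hd q hq q' hq' hne _ hx _ hx' ?_
    simp
  let f' : κ → Cfg → ℝ≥0∞ := fun q s => (if s.card = n q then 1 else 0) * f q (sh (-z q) s)
  have hf' : ∀ q, Meas (f' q) := fun q =>
    (meas_card fun k => if k = n q then 1 else 0).mul ((hf q).sh _)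
  have e1 : ∀ q, ZN A (n q) (f q) ≤ LP (A' q) (f' q) := by
    intro q
    refine le_trans ?_ (ZN_le_LP _ (n q) _)
    rw [ZN_shift]
    refine ZN_mono hA le_rfl fun s _ hc => ?_
    simp only [f', card_sh, hc, if_true, one_mul, sh_sh, add_neg_cancel, sh_zero, le_refl]
  have hU : MeasurableSet (⋃ q ∈ Q, A' q) := Finset.measurableSet_biUnion _ fun q _ => hA' q
  refine (Finset.prod_le_prod' fun q _ => e1 q).trans ?_
  rw [← LP_prod Q hA' hd' hf', LP_eq_ZN hU (∑ q ∈ Q, n q)]
  · refine ZN_mono hU ?_ fun s hs _ => ?_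
    · refine Set.iUnion₂_subset fun q hq x hx => ?_
      simpa using hB q hq _ hx
    · by_cases h : ∀ q ∈ Q, (s.filter (· ∈ A' q)).card = n q
      · have := hF (fun q => sh (-z q) (s.filter (· ∈ A' q))) fun q hq =>
          ⟨fun a ha => ?_, by rw [card_sh, h q hq]⟩
        · simp only [sh_sh, neg_add_cancel, sh_zero] at this
          rw [sum_filter_disj Q hd' hs] at this
          refine le_trans (le_of_eq (Finset.prod_congr rfl fun q hq => ?_)) this
          simp only [f', h q hq, if_true, one_mul]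
        · obtain ⟨b, hb, rfl⟩ := mem_sh.mp ha
          have := (Multiset.mem_filter.mp hb).2
          rwa [← sub_eq_add_neg]
      · push Not at h
        obtain ⟨q, hq, h⟩ := h
        rw [Finset.prod_eq_zero hq (by simp only [f', h, if_false, zero_mul])]
        exact bot_le
  · intro s hs hc
    by_contra hne
    apply hc
    rw [← sum_filter_disj Q hd' hs, Multiset.card_sum]
    refine Finset.sum_congr rfl fun q hq => ?_
    by_contra h
    exact hne (Finset.prod_eq_zero hq (by simp only [f', h, if_false, zero_mul]))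

/-- upper bound by decoupling along one of finitely many grids -/
theorem cover_le {b : ℝ} (hb : 0 < b) {m : ℕ} (c : ℕ → ℝ) {B : Set Pt} (hB : MeasurableSet B)
    (Q : Finset (Fin 3 → ℤ)) (hQ : ∀ j < m, ∀ x ∈ B, cell b (c j) x ∈ Q) {f : Cfg → ℝ≥0∞}
    (hf : Meas f) {F : Cfg → ℝ≥0∞} (hF : ∀ s, In B s → ∃ j < m, F s ≤
      ∏ q ∈ Q, f (sh (-corner b (c j) q) (s.filter fun a => cell b (c j) a = q))) :
    LP B F ≤ m * LP (cube b) f ^ Q.card := by
  classical
  have hAq : ∀ j q, MeasurableSet {x | cell b (c j) x = q} := fun j q =>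
    measurable_cell b (c j) (measurableSet_singleton q)
  let G : ℕ → Cfg → ℝ≥0∞ := fun j s =>
    ∏ q ∈ Q, f (sh (-corner b (c j) q) (s.filter fun a => cell b (c j) a = q))
  have hG : ∀ j, Meas (G j) := fun j => meas_prod Q fun q => (hf.sh _).filter (hAq j q)
  have h1 : LP B F ≤ LP B fun s => ∑ j ∈ Finset.range m, G j s := by
    refine LP_mono hB le_rfl fun s hs => ?_
    obtain ⟨j, hj, h⟩ := hF s hs
    exact h.trans (Finset.single_le_sum (f := fun j => G j s) (fun _ _ => bot_le)
      (Finset.mem_range.mpr hj))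
  rw [LP_sum B _ hG] at h1
  refine h1.trans ?_
  have h2 : ∀ j ∈ Finset.range m, LP B (G j) ≤ LP (cube b) f ^ Q.card := by
    intro j hj
    have h3 := LP_prod Q (A := fun q => {x | cell b (c j) x = q}) (hAq j)
      (fun q _ q' _ hne => Set.disjoint_left.mpr fun x hx hx' => hne (hx.symm.trans hx'))
      (f := fun q s => f (sh (-corner b (c j) q) s)) fun q => hf.sh _
    have h4 : LP B (G j) ≤ ∏ q ∈ Q, LP {x | cell b (c j) x = q}
        fun s => f (sh (-corner b (c j) q) s) := by
      rw [← h3]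
      refine LP_mono hB (fun x hx => Set.mem_biUnion (hQ j (Finset.mem_range.mp hj) x hx) rfl)
        fun s _ => le_of_eq ?_
      refine Finset.prod_congr rfl fun q _ => ?_
      congr!
    refine h4.trans ?_
    rw [← Finset.prod_const]
    refine Finset.prod_le_prod' fun q _ => ?_
    refine (LP_mono (B := {x | x - corner b (c j) q ∈ cube b}) (hAq j q) (fun x hx => ?_)
      fun s _ => le_rfl).trans (le_of_eq ?_)
    · rw [← show cell b (c j) x = q from hx]
      exact sub_corner_mem hb _ x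
    · unfold LP
      simp only [ZN_shift, sh_sh, add_neg_cancel, sh_zero]
  simpa using Finset.sum_le_card_nsmul _ _ _ h2

theorem partitionFn_eq {φ : ℝ → ℝ} (hφ : Measurable φ) (L : ℝ) (N : ℕ) (β : ℝ) :
    partitionFn φ L N β = (ZN (cube L) N fun s => ex (-β * En φ s)).toReal := by
  unfold partitionFn ZN
  have hm : Measurable fun x : Fin N → Pt => Real.exp (-β * energy φ x) := by
    simp only [← En_mk]
    exact Real.measurable_exp.comp (((measR_En hφ).const_mul (-β)) N)
  rw [integral_eq_lintegral_of_nonneg_ae (ae_of_all _ fun x => (Real.exp_pos _).le)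
    hm.aestronglyMeasurable, ENNReal.toReal_mul, ENNReal.toReal_inv, ENNReal.toReal_natCast,
    one_div]
  simp only [En_mk, ex]

theorem ZN_holder (A : Set Pt) (n : ℕ) {f g : Cfg → ℝ} (hf : MeasR f) (hg : MeasR g) {a b : ℝ}
    (ha : 0 ≤ a) (hb : 0 ≤ b) (hab : a + b = 1) :
    ZN A n (fun s => ex (a * f s + b * g s)) ≤
      ZN A n (fun s => ex (f s)) ^ a * ZN A n (fun s => ex (g s)) ^ b := by
  unfold ZN
  have e : ∀ t u : ℝ, 0 ≤ u → ex (u * t) = ex t ^ u := by
    intro t u hu
    unfold ex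
    rw [ENNReal.ofReal_rpow_of_nonneg (Real.exp_pos _).le hu, ← Real.exp_mul, mul_comm]
  simp only [ex_add, e _ _ ha, e _ _ hb]
  have h := ENNReal.lintegral_mul_norm_pow_le
    (μ := volume.restrict (Set.pi Set.univ fun _ : Fin n => A))
    (hf.ex n).aemeasurable (hg.ex n).aemeasurable ha hb hab
  rw [ENNReal.mul_rpow_of_nonneg _ _ ha, ENNReal.mul_rpow_of_nonneg _ _ hb, mul_mul_mul_comm,
    ← ENNReal.rpow_add_of_nonneg _ _ ha hb, hab, ENNReal.rpow_one]
  exact mul_le_mul_right h _

/-- the mean of a bounded observable under a Gibbs weight -/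
theorem exists_mean {A : Set Pt} (hA : MeasurableSet A) (n : ℕ) {f : Cfg → ℝ≥0∞} (hf : Meas f)
    {H : Cfg → ℝ} (hH : MeasR H) {lo hi B : ℝ}
    (hb : ∀ s, In A s → s.card = n → f s ≠ 0 → lo ≤ H s ∧ H s ≤ hi ∧ |H s| ≤ B)
    (h0 : ZN A n f ≠ 0) (h1 : ZN A n f ≠ ⊤) :
    ∃ h : ℝ, lo ≤ h ∧ h ≤ hi ∧
      (∀ σ : ℝ, ex (-σ * h) * ZN A n f ≤ ZN A n fun s => ex (-σ * H s) * f s) ∧
      ∀ σ : ℝ, |σ| * B ≤ 1 → (ZN A n fun s => ex (-σ * H s) * f s) ≤
        ENNReal.ofReal (1 - σ * h + σ ^ 2 * B ^ 2) * ZN A n f := by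
  set μ := volume.restrict (Set.pi Set.univ fun _ : Fin n => A) with hμ
  set W := ∫⁻ x, f (mk x) ∂μ with hW
  have hc0 : (n.factorial : ℝ≥0∞)⁻¹ ≠ 0 := ENNReal.inv_ne_zero.mpr (ENNReal.natCast_ne_top _)
  have hZ : ZN A n f = (n.factorial : ℝ≥0∞)⁻¹ * W := rfl
  have hW0 : W ≠ 0 := fun h => h0 (by rw [hZ, h, mul_zero])
  have hW1 : W ≠ ⊤ := fun h => h1 (by rw [hZ, h, ENNReal.mul_top hc0])
  let ν : Measure (Fin n → Pt) := W⁻¹ • μ.withDensity fun x => f (mk x)
  have hν : IsProbabilityMeasure ν := ⟨by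
    simp only [ν, Measure.smul_apply, smul_eq_mul]
    rw [withDensity_apply _ MeasurableSet.univ, Measure.restrict_univ,
      ENNReal.inv_mul_cancel hW0 hW1]⟩
  have hae : ∀ᵐ x ∂ν, lo ≤ H (mk x) ∧ H (mk x) ≤ hi ∧ |H (mk x)| ≤ B := by
    refine Measure.ae_smul_measure ?_ _
    rw [ae_withDensity_iff (hf n)]
    filter_upwards [ae_restrict_mem (MeasurableSet.univ_pi fun _ => hA)] with x hx hx0
    refine hb _ (fun a ha => ?_) (by rw [card_mk, Fintype.card_fin]) hx0
    obtain ⟨i, rfl⟩ := (mem_mk x a).mp ha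
    exact hx i (Set.mem_univ _)
  have hHi : Integrable (fun x => H (mk x)) ν :=
    Integrable.of_bound (hH n).aestronglyMeasurable B (hae.mono fun x hx => hx.2.2)
  have hEi : ∀ σ : ℝ, Integrable (fun x => Real.exp (-σ * H (mk x))) ν := fun σ =>
    Integrable.of_bound
      (Real.measurable_exp.comp ((hH.const_mul (-σ)) n)).aestronglyMeasurable
      (Real.exp (|σ| * B)) (hae.mono fun x hx => by
        rw [Real.norm_eq_abs, abs_of_pos (Real.exp_pos _), Real.exp_le_exp]
        refine (le_abs_self _).trans ?_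
        rw [abs_mul, abs_neg]
        exact mul_le_mul_of_nonneg_left hx.2.2 (abs_nonneg _))
  have key : ∀ σ : ℝ, (ZN A n fun s => ex (-σ * H s) * f s) =
      ENNReal.ofReal (∫ x, Real.exp (-σ * H (mk x)) ∂ν) * ZN A n f := by
    intro σ
    rw [ofReal_integral_eq_lintegral_ofReal (hEi σ) (ae_of_all _ fun x => (Real.exp_pos _).le),
      lintegral_smul_measure, lintegral_withDensity_eq_lintegral_mul _ (hf n)
        (g := fun x => ENNReal.ofReal (Real.exp (-σ * H (mk x)))) ((hH.const_mul (-σ)).ex n), hZ, smul_eq_mul, mul_comm W⁻¹, mul_left_comm, mul_assoc,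
      ENNReal.inv_mul_cancel hW0 hW1, mul_one]
    unfold ZN
    congr 1
    exact lintegral_congr fun x => mul_comm _ _
  refine ⟨∫ x, H (mk x) ∂ν, ?_, ?_, fun σ => ?_, fun σ hσ => ?_⟩
  · simpa using integral_mono_ae (integrable_const lo) hHi (hae.mono fun x hx => hx.1)
  · simpa using integral_mono_ae hHi (integrable_const hi) (hae.mono fun x hx => hx.2.1)
  · rw [key]
    refine mul_le_mul_left (ENNReal.ofReal_le_ofReal ?_) _
    set h := ∫ x, H (mk x) ∂ν with hh
    have h2 := integral_mono (μ := ν)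
      (f := fun x => Real.exp (-σ * h) * (1 + σ * h) + -(Real.exp (-σ * h) * σ) * H (mk x))
      ((integrable_const _).add (hHi.const_mul _)) (hEi σ) fun x => by
        have h3 := Real.add_one_le_exp (-σ * H (mk x) + σ * h)
        have h4 : Real.exp (-σ * H (mk x)) =
            Real.exp (-σ * h) * Real.exp (-σ * H (mk x) + σ * h) := by
          rw [← Real.exp_add]
          congr 1
          ring
        have h5 := mul_le_mul_of_nonneg_left h3 (Real.exp_pos (-σ * h)).le
        change _ ≤ Real.exp (-σ * H (mk x))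
        rw [h4]
        linarith
    rw [integral_add (integrable_const _) (hHi.const_mul _), integral_const, integral_const_mul,
      ← hh] at h2
    simp only [probReal_univ, one_smul] at h2
    linarith
  · rw [key]
    refine mul_le_mul_left (ENNReal.ofReal_le_ofReal ?_) _
    have h1' : ∀ᵐ x ∂ν, Real.exp (-σ * H (mk x)) ≤ (1 + σ ^ 2 * B ^ 2) + -σ * H (mk x) := by
      filter_upwards [hae] with x hx
      have h3 : |-σ * H (mk x)| ≤ |σ| * B := by
        rw [abs_mul, abs_neg]
        exact mul_le_mul_of_nonneg_left hx.2.2 (abs_nonneg _)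
      have h4 := (abs_le.mp (Real.abs_exp_sub_one_sub_id_le (h3.trans hσ))).2
      have h5 := pow_le_pow_left₀ (abs_nonneg _) h3 2
      rw [sq_abs, mul_pow |σ|, sq_abs] at h5
      linarith
    have h2 := integral_mono_ae (hEi σ)
      ((integrable_const (1 + σ ^ 2 * B ^ 2)).add (hHi.const_mul (-σ))) h1'
    simp only [Pi.add_apply] at h2
    rw [integral_add (integrable_const _) (hHi.const_mul _), integral_const,
      integral_const_mul] at h2
    simp only [probReal_univ, one_smul] at h2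
    linarith

end Crest.Agent.R149
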