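import Crest.Agent.R149.Final
import Crest.Agent.R149.Init

/-! Row 149: the main statement. -/

set_option autoImplicit false
open MeasureTheory Crest.ProbabilityR.Continuum Filter Topology
open scoped ENNReal BigOperators

namespace Crest.Agent.R149

namespace Mod
variable (M : Mod)

theorem tri_abs {V n h : ℝ} (hV : 0 ≤ V) (H : M.Tri V n h) : |h| ≤ 100 * V := by
  have h0 := M.tri_le hV H
  have h1 := mul_le_of_le_one_left hV M.w1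
  exact abs_le.2 ⟨by linarith [H.2.1], by linarith [H.1]⟩

theorem transition (hw : M.w = 1 / 10 ^ 4) {σ ρ₀ b : ℝ} {Ψ : ℝ → ℝ} (hσ0 : 0 < σ)
    (hσ : 31200 * σ ≤ M.τ) (hρ1 : M.p - M.w ≤ ρ₀) (hρ2 : ρ₀ ≤ M.p) (hb : |b - 1| ≤ M.τ)
    (hA : Dom Ψ (2 * (σ * M.Λ))) (hφ : Tame fun r => b * M.Λ * M.v r - Ψ r)
    (hlim : ∀ e : ℝ, 0 < e → ∃ (l : ℕ) (Ψ₀ : ℝ → ℝ) (β : ℝ), 1 ≤ e * l ∧ Measurable Ψ₀ ∧
        (∀ r, 0 ≤ Ψ₀ r ∧ Ψ₀ r ≤ Ψ r) ∧ Dom (fun r => Ψ r - Ψ₀ r) e ∧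
        Dom (fun r => 3 * (r + 1) * Ψ₀ r) (e * l) ∧ |β - b| ≤ e ∧
        M.St ρ₀ (l + 2) Ψ₀ e (17 / 3 * ρ₀ ^ 2 - 1 / 125) β) :
    ∃ f : ℝ → ℝ → ℝ,
      (∀ ρ : ℝ, 0 < ρ → ∀ β : ℝ, 0 < β → Tendsto (fun L : ℝ => -(1 / (β * L ^ 3)) *
        Real.log (partitionFn (fun r => b * M.Λ * M.v r - Ψ r) L ⌊ρ * L ^ 3⌋₊ β)) atTop
          (𝓝 (f β ρ))) ∧
      ∀ ρ : ℝ, 3 / 2 * M.p < ρ → ρ < 2 * M.p → ∃ Dl Dr : ℝ,
        HasDerivWithinAt (fun β => f β ρ) Dl (Set.Iio 1) 1 ∧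
        HasDerivWithinAt (fun β => f β ρ) Dr (Set.Ioi 1) 1 ∧ Dr < Dl := by
  obtain ⟨S, t1, t2, t3, t4⟩ := thermo hφ
  refine ⟨fun β ρ => -S β ρ / β, fun ρ hρ β hβ => ?_, fun ρ h1 h2 => ?_⟩
  · refine ((t1 β ρ hβ hρ).neg.div_const β).congr fun L => ?_
    ring
  have hΛ := M.Λ8
  have hτ := M.τ1
  have hτ0 := M.τ0
  have hp := M.p1
  have hρ : 0 < ρ := by linarith
  have hb' := abs_le.1 hb
  have hbΛ : M.Λ / 2 ≤ b * M.Λ := by nlinarith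
  have hσΛ := mul_le_mul_of_nonneg_right hσ (by linarith : 0 ≤ M.Λ)
  have hσΛ0 : 0 < σ * M.Λ := by positivity
  have core : ∀ (β : ℝ) (c : Fin 3) (k₀ k₁ : ℝ), 0 < β →
      (∀ V n h : ℝ, M.Tri V n h → 9 / 10 * ((M.p + 3 * M.w) * V) ≤ ![(M.p + M.w) * V - n - h / 3,
        n + 4 / 9 * h + M.w * V, -h / 9 + M.w * V] c → 0 < V →
        n < ρ * V ∧ (β - 1) * h ≤ k₀ * V + k₁ * n) →
      (∀ V n h : ℝ, M.Tri V n h → 9 / 10 * ((M.p + 3 * M.w) * V) ≤ -h / 9 + M.w * V →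
        (β - 1) * h ≤ k₀ * V + k₁ * n) →
      S 1 ρ - max 0 (1 - β) * (150 * (2 * (σ * M.Λ))) - b * M.Λ * (k₀ + k₁ * ρ) ≤ S β ρ := by
    intro β c k₀ k₁ hβ c1 c2
    refine le_of_forall_small (K := 10 ^ 6 * M.Λ + 16 + 100 * M.Λ) (e₀ := M.τ / 6176)
      (by positivity) fun e he he' => ?_
    obtain ⟨l, Ψ₀, β₀, l1, l2, l3, l4, l5, l6, l7⟩ := hlim e he
    obtain ⟨ν, U, hν, hU, hc⟩ := M.phases hw hρ1 hρ2 (by omega) he l7
    have e2 : ((l + 2 : ℕ) : ℝ) = l + 2 := by push_cast; ring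
    rw [e2] at hU hc
    have u1 := t4 1 ρ one_pos hρ ν _ fun δ hδ => M.up_bd he l1 l2 l3 hA (by positivity) l4 l5 hb l6
      hν (by linarith [mul_le_mul_of_nonneg_left he' (by linarith : 0 ≤ M.Λ)]) hU hδ
    obtain ⟨n₁, F₁, h₁, a1, a2, a3, a4⟩ := hc c
    obtain ⟨n₂, F₂, h₂, b1, b2, b3, b4⟩ := hc 2
    have hl1 : (1 : ℝ) ≤ l := l1.trans (mul_le_of_le_one_left (Nat.cast_nonneg l) (by linarith))
    have hV : (0 : ℝ) < (l + 2) ^ 3 := by positivity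
    have z1 := M.ZN_lower l n₁ l3 (by positivity) hA b hβ.le (a1 (β * b))
    have z2 := M.ZN_lower l n₂ l3 (by positivity) hA b hβ.le (b1 (β * b))
    have d1 := c1 _ _ _ a2 a4 hV
    have d2 := c2 _ _ _ b2 b4
    have d3 : ρ * (l + 2) ^ 3 < n₂ := by
      have f1 := b2.2.1
      have f2 := mul_lt_mul_of_pos_right h2 hV
      have f3 := mul_le_mul_of_nonneg_right hp hV.le
      simp only [Matrix.cons_val] at b4
      rw [hw] at f1 b4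
      linarith
    have key : ∀ n F h : ℝ, M.Tri ((l + 2) ^ 3) n h →
        (U - 16 * e) * (l + 2) ^ 3 ≤ ν * n + (F - β₀ * M.Λ * h) →
        (β - 1) * h ≤ k₀ * (l + 2) ^ 3 + k₁ * n →
        (U - 16 * e - 100 * M.Λ * e - max 0 (1 - β) * (150 * (2 * (σ * M.Λ))) - b * M.Λ * k₀) *
          (l + 2) ^ 3 - (ν + b * M.Λ * k₁) * n ≤ F - β * b * M.Λ * h -
            max 0 (1 - β) * (150 * (2 * (σ * M.Λ))) * (l + 2) ^ 3 := fun n F h f1 f2 f3 => by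
      have f4 : -((β₀ - b) * h) ≤ e * (100 * (l + 2) ^ 3) := (neg_le_abs _).trans (by
        rw [abs_mul]; exact mul_le_mul l6 (M.tri_abs hV.le f1) (abs_nonneg _) he.le)
      have f5 := mul_le_mul_of_nonneg_left f4 (by linarith : 0 ≤ M.Λ)
      have f6 := mul_le_mul_of_nonneg_left f3 (by linarith : 0 ≤ b * M.Λ)
      linarith
    have := mix_lower hV d1.1 d3 (fun θ hθ => t3 β ρ hβ hρ l n₁ n₂ _ _ θ hl1 d1.1 d3 hθ z1 z2)
      (key _ _ _ a2 a3 d1.2) (key _ _ _ b2 b3 d2)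
    linarith
  refine kink (t2 ρ hρ) (e₁ := b * M.Λ * (9 / 40 * M.p - 63 / 40 * M.w - 9 / 4 * ρ))
    (e₂ := b * M.Λ * (27 / 10 * M.p + 21 / 10 * M.w - 3 * ρ) - 300 * (σ * M.Λ)) ?_
    (fun β hβ => ?_) fun β hβ0 hβ => ?_
  · have h3 : 1 / 2 ≤ (27 / 10 * M.p + 21 / 10 * M.w - 3 * ρ) -
        (9 / 40 * M.p - 63 / 40 * M.w - 9 / 4 * ρ) := by linarith [M.w0]
    have h4 := mul_le_mul hbΛ h3 (by norm_num) (by linarith)
    have h5 := mul_le_mul_of_nonneg_right hτ (by linarith : 0 ≤ M.Λ)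
    linarith
  · have := core β 0 ((β - 1) * (9 / 40 * M.p - 63 / 40 * M.w)) ((β - 1) * (-9 / 4)) (by linarith)
      (fun V n h ⟨f1, f2, f3⟩ f4 hV => ⟨?_, ?_⟩) fun V n h ⟨f1, f2, f3⟩ f4 => ?_
    · rw [max_eq_left (by linarith)] at this
      linarith
    · have g2 := mul_lt_mul_of_pos_right h1 hV
      have g3 := mul_le_mul_of_nonneg_right hp hV.le
      simp only [Matrix.cons_val] at f4
      rw [hw] at f1 f2 f3 f4
      linarith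
    · simp only [Matrix.cons_val] at f4
      linarith [mul_le_mul_of_nonneg_left (by linarith :
        h ≤ (9 / 40 * M.p - 63 / 40 * M.w) * V - 9 / 4 * n) (by linarith : 0 ≤ β - 1)]
    · linarith [mul_le_mul_of_nonneg_left (by linarith :
        h ≤ (9 / 40 * M.p - 63 / 40 * M.w) * V - 9 / 4 * n) (by linarith : 0 ≤ β - 1)]
  · have := core β 1 ((β - 1) * (27 / 10 * M.p + 21 / 10 * M.w)) ((β - 1) * (-3)) hβ0
      (fun V n h ⟨f1, f2, f3⟩ f4 hV => ⟨?_, ?_⟩) fun V n h ⟨f1, f2, f3⟩ f4 => ?_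
    · rw [max_eq_right (by linarith)] at this
      linarith
    · have g2 := mul_lt_mul_of_pos_right h1 hV
      have g3 := mul_le_mul_of_nonneg_right hp hV.le
      simp only [Matrix.cons_val] at f4
      rw [hw] at f1 f2 f3 f4
      linarith
    · simp only [Matrix.cons_val] at f4
      linarith [mul_le_mul_of_nonneg_left (by linarith :
        (27 / 10 * M.p + 21 / 10 * M.w) * V - 3 * n ≤ h) (by linarith : 0 ≤ 1 - β)]
    · linarith [mul_le_mul_of_nonneg_left (by linarith :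
        (27 / 10 * M.p + 21 / 10 * M.w) * V - 3 * n ≤ h) (by linarith : 0 ≤ 1 - β)]

end Mod

theorem main : MainStmt := by
  obtain ⟨p, p1, p8, hp, hlim⟩ := pack
  obtain ⟨σ, hσ⟩ : ∃ σ : ℝ, σ = 1 / 10 ^ 4 / 20800 / 31200 := ⟨_, rfl⟩
  have hσ0 : 0 < σ := by rw [hσ]; norm_num
  obtain ⟨R, hR⟩ := exists_nat_ge (1300 * 162 * 10 ^ 7 / σ)
  have hR1 : (5184 : ℝ) ≤ R := le_trans (by rw [hσ]; norm_num) hR
  have h1 : 1300 * (162 / R) ≤ σ / 10 ^ 7 := by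
    rw [div_le_iff₀ hσ0] at hR
    rw [← mul_div_assoc, div_le_div_iff₀ (by linarith) (by norm_num)]; linarith
  obtain ⟨Λ, hΛ⟩ : ∃ Λ : ℝ, Λ = (CR R + 1601) * 10 ^ 7 / σ := ⟨_, rfl⟩
  have h2 : CR R + 1601 = σ * Λ / 10 ^ 7 := by rw [hΛ]; field_simp
  have hCR : (R : ℝ) ≤ CR R := le_add_of_nonneg_right (Real.exp_pos _).le
  have h3 : (CR R + 1601) * 10 ^ 7 ≤ Λ := by
    rw [hΛ]; exact le_div_self (by nlinarith) hσ0 (by rw [hσ]; norm_num)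
  have h4 : Real.exp (-Λ) * Λ ≤ 1 := by
    rw [Real.exp_neg, inv_mul_le_iff₀ (Real.exp_pos _)]; linarith [Real.add_one_le_exp Λ]
  have h5 := mul_le_mul_of_nonneg_left h3 (Real.exp_pos (-Λ)).le
  have h6 := mul_le_mul_of_nonneg_left hCR (Real.exp_pos (-Λ)).le
  have h7 := mul_le_mul_of_nonneg_left hR1 (Real.exp_pos (-Λ)).le
  have hε : Real.exp (-Λ) ≤ 1 / 10 ^ 7 := by linarith [Real.exp_pos (-Λ)]
  refine ⟨Real.exp (-Λ), p, Real.exp_pos _, hε, p1, hlim, fun v hv hK => ?_⟩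
  let M : Mod := ⟨Real.exp (-Λ), 1 + 1 / 10 ^ 6, v, R, p, 1 / 10 ^ 4, 31200 * σ, Λ, hv, rfl,
    by norm_num, by exact_mod_cast hR1, by linarith [Real.exp_pos (-Λ)], hp, p1, p8, by norm_num,
    by linarith, by linarith, by rw [hσ] at h2; linarith⟩
  obtain ⟨T, hT⟩ := init_pack p8 hp hlim
  obtain ⟨ρ₀, b, Ψ, hρ1, hρ2, hb, c1, c2, c3, c4, hA, c5⟩ := M.limit hσ0 le_rfl h1 h2.le
    (by norm_num [M]) (T₀ := max T 3) fun t ht => by
      obtain ⟨X, x1, x2, x3, x4⟩ := hT t (le_of_max_le_left ht)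
      have ht3 : 3 ≤ t := le_of_max_le_right ht
      have hV : (0 : ℝ) < (t : ℝ) ^ 3 := pow_pos (by exact_mod_cast (by omega : 0 < t)) 3
      exact ⟨_, (le_div_iff₀ hV).2 x1, (div_le_iff₀ hV).2 x2,
        init_base M le_rfl hε ht3 x2 x3 x4⟩
  have hΛ8 : 8 ≤ Λ := M.Λ8
  have hb' : 1 / 2 ≤ b := by linarith [(abs_le.1 hb).1, M.τ1]
  have hbΛ : Λ / 2 ≤ b * Λ := by nlinarith
  have hst := M.stable (c := b * Λ) (c2 0) hA (mul_nonneg zero_le_two (mul_nonneg hσ0.le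
    (by linarith [M.Λ8]))) (by change 4 * (2 * (σ * Λ)) ≤ _; rw [hσ]; linarith)
  refine ⟨b * Λ, Ψ, by linarith, c1, c2, c3, c4, hst, M.transition rfl hσ0 le_rfl hρ1 hρ2 hb hA
    ⟨(hv.meas.const_mul _).sub c1.measurable, hst, fun r hr => ?_, fun d hd => ?_⟩ c5⟩
  · rw [M.hv.far r (M.hr.trans hr)]; linarith [c2 r]
  · obtain ⟨K, hK⟩ := hK d hd
    exact ⟨b * Λ * K, fun r hr => (sub_le_self _ (c2 r)).trans
      (mul_le_mul_of_nonneg_left (hK r hr) (by linarith : 0 ≤ b * Λ))⟩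

end Crest.Agent.R149
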