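import Crest.Agent.R149.State

/-! Task 149-F: the two statements from the main statement. -/

set_option autoImplicit false
open Crest Crest.ProbabilityR Crest.ProbabilityR.Continuum Filter Topology

namespace Crest.Agent.R149

/-- clamp to `[0, 1]` -/
noncomputable def clamp (x : ℝ) : ℝ := max 0 (min 1 x)

theorem clamp_nonneg (x : ℝ) : 0 ≤ clamp x := le_max_left _ _
theorem clamp_le (x : ℝ) : clamp x ≤ 1 := max_le zero_le_one (min_le_left _ _)
theorem clamp_one {x : ℝ} (h : 1 ≤ x) : clamp x = 1 := by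
  rw [clamp, min_eq_left h, max_eq_right zero_le_one]
theorem clamp_zero {x : ℝ} (h : x ≤ 0) : clamp x = 0 := max_eq_left ((min_le_right _ _).trans h)

/-- the bounded short range potential -/
noncomputable def v₀ (ε r : ℝ) : ℝ := 100 * clamp (10 ^ 6 * (1 + 1 / 10 ^ 6 - r)) -
  203 / 2 * clamp (20 / ε * min (r - 13 / 10 * ε) (3 / 2 * ε - r))

theorem continuous_v₀ (ε : ℝ) : Continuous (v₀ ε) := by unfold v₀ clamp; fun_prop

theorem abs_v₀ (ε r : ℝ) : |v₀ ε r| ≤ 102 := by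
  have h1 := clamp_nonneg (10 ^ 6 * (1 + 1 / 10 ^ 6 - r))
  have h2 := clamp_le (10 ^ 6 * (1 + 1 / 10 ^ 6 - r))
  have h3 := clamp_nonneg (20 / ε * min (r - 13 / 10 * ε) (3 / 2 * ε - r))
  have h4 := clamp_le (20 / ε * min (r - 13 / 10 * ε) (3 / 2 * ε - r))
  exact abs_le.2 ⟨by unfold v₀; linarith, by unfold v₀; linarith⟩

theorem shape_v₀ {ε : ℝ} (h0 : 0 < ε) (h1 : ε ≤ 1 / 10 ^ 7) : Shape ε (1 + 1 / 10 ^ 6) (v₀ ε) := by
  have hz : ∀ r, r < 13 / 10 * ε ∨ 3 / 2 * ε < r →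
      clamp (20 / ε * min (r - 13 / 10 * ε) (3 / 2 * ε - r)) = 0 := fun r h =>
    clamp_zero (mul_nonpos_of_nonneg_of_nonpos (by positivity) (min_le_iff.2
      (h.imp (fun _ => by linarith) fun _ => by linarith)))
  refine ⟨(continuous_v₀ ε).measurable, fun r _ h2 h3 => ?_, fun r => ?_, fun r h => ?_,
    fun r h => ?_, fun r h2 h3 => ?_⟩
  · rw [v₀, hz r h3, clamp_one (by linarith)]; norm_num
  · rcases le_total r 1 with h | h
    · rw [v₀, clamp_one (by linarith)]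
      linarith [clamp_le (20 / ε * min (r - 13 / 10 * ε) (3 / 2 * ε - r))]
    · rw [v₀, hz r (Or.inr (by linarith))]
      linarith [clamp_nonneg (10 ^ 6 * (1 + 1 / 10 ^ 6 - r))]
  · rw [v₀, hz r (Or.inr (by linarith))]
    linarith [clamp_nonneg (10 ^ 6 * (1 + 1 / 10 ^ 6 - r))]
  · rw [v₀, hz r (Or.inr (by linarith)), clamp_zero (by linarith)]; norm_num
  · rw [v₀, clamp_one (by linarith), clamp_one]
    · norm_num
    · rw [div_mul_eq_mul_div, le_div_iff₀ h0]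
      have : ε / 20 ≤ min (r - 13 / 10 * ε) (3 / 2 * ε - r) := le_min (by linarith) (by linarith)
      linarith

theorem shape_core {ε : ℝ} (h0 : 0 < ε) (h1 : ε ≤ 1 / 10 ^ 7) :
    Shape ε (1 + 1 / 10 ^ 6) fun r => v₀ ε r + max (ε / r - 2) 0 := by
  have h := shape_v₀ h0 h1
  have hz : ∀ r, ε ≤ r → max (ε / r - 2) 0 = 0 := fun r hr =>
    max_eq_right (by linarith [(div_le_one (h0.trans_le hr)).2 hr])
  refine ⟨h.meas.add (by fun_prop), fun r a b c => le_add_of_le_of_nonneg (h.core r a b c)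
    (le_max_right _ _), fun r => le_add_of_le_of_nonneg (h.low r) (le_max_right _ _),
    fun r a => add_nonneg (h.mid r a) (le_max_right _ _), fun r a => ?_, fun r a b => ?_⟩
  · rw [h.far r a, hz r (by linarith), add_zero]
  · rw [h.well r a b, hz r (by linarith), add_zero]

theorem out209 (h : MainStmt) :
    ∃ φ : ℝ → ℝ, Continuous φ ∧ (∃ M : ℝ, ∀ r : ℝ, |φ r| ≤ M) ∧
      (∃ B : ℝ, ∀ (N : ℕ) (x : Fin N → Crest.ProbabilityR.Continuum.Pt), -B * N ≤ Crest.ProbabilityR.Continuum.energy φ x) ∧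
      (∃ C : ℝ, ∀ r : ℝ, 1 ≤ r → |φ r| ≤ C * r ^ (-(3 + 1 / 32 : ℝ))) ∧
      ∃ p η βc : ℝ, 0 < p ∧
        Filter.Tendsto (fun L : ℝ => (Crest.ProbabilityR.Continuum.packingNumber L : ℝ) / L ^ 3)
          Filter.atTop (nhds p) ∧
        0 < η ∧ η ≤ 5 * p / 3 ∧ 7 / 8 ≤ βc ∧ βc ≤ 9 / 8 ∧
        ∃ f : ℝ → ℝ → ℝ,
          (∀ ρ : ℝ, 5 * p / 3 - η < ρ → ρ < 5 * p / 3 + η → ∀ β : ℝ, 0 < β →
            Filter.Tendsto (fun L : ℝ => -(1 / (β * L ^ 3)) *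
                Real.log (Crest.ProbabilityR.Continuum.partitionFn φ L ⌊ρ * L ^ 3⌋₊ β))
              Filter.atTop (nhds (f β ρ))) ∧
          (∀ ρ : ℝ, 5 * p / 3 - η < ρ → ρ < 5 * p / 3 + η → ∃ Dl Dr : ℝ,
            HasDerivWithinAt (fun β => f β ρ) Dl (Set.Iio βc) βc ∧
            HasDerivWithinAt (fun β => f β ρ) Dr (Set.Ioi βc) βc ∧ Dr < Dl) := by
  obtain ⟨ε, p, h0, h1, hp, hlim, h⟩ := h
  have hv := shape_v₀ h0 h1
  obtain ⟨b, Ψ, hb, c1, c2, ⟨K, c3⟩, ⟨C, c4⟩, ⟨B, c5⟩, f, f1, f2⟩ :=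
    h _ hv fun _ _ => ⟨102, fun r _ => (abs_le.1 (abs_v₀ ε r)).2⟩
  have hv' : ∀ r, |b * v₀ ε r| ≤ b * 102 := fun r => by
    rw [abs_mul, abs_of_pos hb]; exact mul_le_mul_of_nonneg_left (abs_v₀ ε r) hb.le
  refine ⟨fun r => b * v₀ ε r - Ψ r, (continuous_const.mul (continuous_v₀ ε)).sub c1,
    ⟨b * 102 + K, fun r => (abs_sub _ _).trans (add_le_add (hv' r)
      ((abs_of_nonneg (c2 r)).trans_le (c3 r)))⟩,
    ⟨B, fun N x => by simpa only [En_mk, card_mk, Fintype.card_fin] using c5 (mk x)⟩,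
    ⟨b * 102 * 2 ^ (3 + 1 / 32 : ℝ) + C, fun r hr => (abs_sub _ _).trans ?_⟩,
    p, p / 6, 1, by linarith, hlim, by linarith, by linarith, by norm_num, by norm_num, f,
    fun ρ a _ β hβ => f1 ρ (by linarith) β hβ, fun ρ a b => f2 ρ (by linarith) (by linarith)⟩
  rw [add_mul]
  refine add_le_add ?_ ((abs_of_nonneg (c2 r)).trans_le (c4 r hr))
  rcases le_total r 2 with h2 | h2
  · rw [Real.rpow_neg (by linarith), mul_assoc]
    refine (hv' r).trans (le_mul_of_one_le_right (by positivity) ?_)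
    rw [← div_eq_mul_inv, one_le_div (by positivity)]
    exact Real.rpow_le_rpow (by linarith) h2 (by norm_num)
  · rw [hv.far r (by linarith), mul_zero, abs_zero]; positivity

theorem out210 (h : MainStmt) :
    ∃ φ : ℝ → ℝ, Measurable φ ∧
      (∀ a b : ℝ, 0 < a → a ≤ b → ∃ M : ℝ, ∀ r : ℝ, a ≤ r → r ≤ b → |φ r| ≤ M) ∧
      Filter.Tendsto φ (nhdsWithin 0 (Set.Ioi 0)) Filter.atTop ∧
      (∃ r₁ r₂ a : ℝ, 0 < r₁ ∧ r₁ < r₂ ∧ 0 < a ∧ ∀ r : ℝ, r₁ ≤ r → r ≤ r₂ → φ r ≤ -a) ∧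
      (∃ R : ℝ, 0 < R ∧ MeasureTheory.IntegrableOn (fun r : ℝ => r ^ 2 * |φ r|) (Set.Ioi R)) ∧
      Filter.Tendsto (fun r : ℝ => r ^ 3 * φ r) Filter.atTop (nhds 0) ∧
      (∃ B : ℝ, ∀ (N : ℕ) (x : Fin N → Crest.ProbabilityR.Continuum.Pt), Function.Injective x →
        -B * N ≤ Crest.ProbabilityR.Continuum.energy φ x) ∧
      ∃ f : ℝ → ℝ → ℝ,
        (∀ ρ : ℝ, 0 < ρ → ∀ β : ℝ, 0 < β →
          Filter.Tendsto (fun L : ℝ => -(1 / (β * L ^ 3)) *
              Real.log (Crest.ProbabilityR.Continuum.partitionFn φ L ⌊ρ * L ^ 3⌋₊ β))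
            Filter.atTop (nhds (f β ρ))) ∧
        ∃ ρ₁ ρ₂ βc : ℝ, 0 ≤ ρ₁ ∧ ρ₁ < ρ₂ ∧ 1 / 2 < βc ∧ βc < 3 / 2 ∧
          ∀ ρ : ℝ, ρ₁ < ρ → ρ < ρ₂ → ∃ Dl Dr : ℝ,
            HasDerivWithinAt (fun β => f β ρ) Dl (Set.Iio βc) βc ∧
            HasDerivWithinAt (fun β => f β ρ) Dr (Set.Ioi βc) βc ∧ Dr < Dl := by
  obtain ⟨ε, p, h0, h1, hp, -, h⟩ := h
  have hv := shape_core h0 h1
  have hK : ∀ d r, 0 < d → d ≤ r → v₀ ε r + max (ε / r - 2) 0 ≤ 102 + ε / d := fun d r hd hr =>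
    add_le_add (abs_le.1 (abs_v₀ ε r)).2 (max_le
      (by linarith [div_le_div_of_nonneg_left h0.le hd hr]) (by positivity))
  obtain ⟨b, Ψ, hb, c1, c2, ⟨K, c3⟩, ⟨C, c4⟩, ⟨B, c5⟩, f, f1, f2⟩ :=
    h _ hv fun d hd => ⟨_, fun r => hK d r hd⟩
  have hfar : ∀ r, 2 ≤ r → |b * (v₀ ε r + max (ε / r - 2) 0) - Ψ r| ≤
      C * r ^ (-(3 + 1 / 32 : ℝ)) := fun r hr => by
    rw [hv.far r (by linarith), mul_zero, zero_sub, abs_neg, abs_of_nonneg (c2 r)]
    exact c4 r (by linarith)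
  have hm : Measurable fun r => b * (v₀ ε r + max (ε / r - 2) 0) - Ψ r :=
    (hv.meas.const_mul b).sub c1.measurable
  refine ⟨fun r => b * (v₀ ε r + max (ε / r - 2) 0) - Ψ r, hm, fun a c ha _ =>
    ⟨b * (102 + ε / a) + K, fun r hr _ => (abs_sub _ _).trans (add_le_add ?_
      ((abs_of_nonneg (c2 r)).trans_le (c3 r)))⟩, ?_,
    ⟨27 / 20 * ε, 29 / 20 * ε, b, by positivity, by linarith, hb, fun r a c => ?_⟩,
    ⟨2, two_pos, ?_⟩, ?_,
    ⟨B, fun N x _ => by simpa only [En_mk, card_mk, Fintype.card_fin] using c5 (mk x)⟩, f, f1,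
    3 / 2 * p, 2 * p, 1, by linarith, by linarith, by norm_num, by norm_num, f2⟩
  · rw [abs_mul, abs_of_pos hb]
    refine mul_le_mul_of_nonneg_left (abs_le.2 ⟨?_, hK a r ha hr⟩) hb.le
    linarith [hv.low r, div_pos h0 ha]
  · have t1 : Tendsto (fun r : ℝ => b * ε * r⁻¹ + (-(b * 104) - K)) (𝓝[>] 0) atTop :=
      tendsto_atTop_add_const_right _ _ (tendsto_inv_nhdsGT_zero.const_mul_atTop (by positivity))
    refine tendsto_atTop_mono (fun r => ?_) t1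
    have := mul_le_mul_of_nonneg_left (add_le_add (abs_le.1 (abs_v₀ ε r)).1
      (le_max_left (ε / r - 2) 0)) hb.le
    rw [div_eq_mul_inv] at this ⊢
    linarith [c3 r]
  · beta_reduce; rw [hv.well r a c]; linarith [c2 r]
  · refine MeasureTheory.Integrable.mono' ((integrableOn_Ioi_rpow_of_lt
      (by norm_num : -(1 + 1 / 32 : ℝ) < -1) two_pos).const_mul C)
      ((measurable_id.pow_const 2).mul hm.abs).aestronglyMeasurable ?_
    refine (MeasureTheory.ae_restrict_iff' measurableSet_Ioi).2 (.of_forall fun r hr => ?_)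
    have hr' : (2 : ℝ) < r := hr
    rw [Real.norm_of_nonneg (by positivity)]
    refine (mul_le_mul_of_nonneg_left (hfar r hr'.le) (sq_nonneg r)).trans (le_of_eq ?_)
    rw [mul_left_comm, ← Real.rpow_two, ← Real.rpow_add (by linarith)]; norm_num
  · refine squeeze_zero_norm' ?_ (by simpa using
      (tendsto_rpow_neg_atTop (by norm_num : (0 : ℝ) < 1 / 32)).const_mul C)
    filter_upwards [eventually_ge_atTop 2] with r hr
    rw [norm_mul, Real.norm_of_nonneg (by positivity)]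
    refine (mul_le_mul_of_nonneg_left (hfar r hr) (by positivity)).trans (le_of_eq ?_)
    rw [mul_left_comm, ← Real.rpow_ofNat, ← Real.rpow_add (by linarith)]; norm_num

end Crest.Agent.R149
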