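import Crest.Agent.R149.Defs

/-! Task 149-B: pair sums, cells, shifts. -/

set_option autoImplicit false
open MeasureTheory Crest.ProbabilityR.Continuum
open scoped ENNReal BigOperators

namespace Crest.Agent.R149

theorem card_mk {ι : Type} [Fintype ι] (x : ι → Pt) : (mk x).card = Fintype.card ι := by simp [mk]
theorem mem_mk {ι : Type} [Fintype ι] (x : ι → Pt) (a : Pt) : a ∈ mk x ↔ ∃ i, x i = a := by simp [mk]
theorem exists_mk (s : Cfg) : ∃ x : Fin s.card → Pt, mk x = s := by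
  induction s using Quotient.inductionOn with
  | _ l => exact ⟨l.get, (Fin.univ_val_map l.get).trans (by rw [List.ofFn_get]; rfl)⟩
theorem PS_map {ι κ : Type} (g : Pt → Pt → ℝ) (S : Finset ι) (T : Finset κ) (x : ι → Pt)
    (y : κ → Pt) : PS g (S.val.map x) (T.val.map y) = ∑ i ∈ S, ∑ j ∈ T, g (x i) (y j) := by
  simp only [PS, Multiset.map_map, Function.comp_def]; rfl
theorem En_map {ι : Type} [DecidableEq ι] (φ : ℝ → ℝ) (S : Finset ι) (x : ι → Pt) :
    En φ (S.val.map x) = (∑ i ∈ S, ∑ j ∈ S.erase i, φ (dist (x i) (x j))) / 2 := by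
  rw [En, PS_map]
  congr 1
  have : ∀ i ∈ S, ∑ j ∈ S, φ (dist (x i) (x j)) = ∑ j ∈ S.erase i, φ (dist (x i) (x j)) + φ 0 := by
    intro i hi
    rw [← Finset.sum_erase_add _ _ hi, dist_self]
  rw [Finset.sum_congr rfl this, Finset.sum_add_distrib]
  simp
theorem En_mk (φ : ℝ → ℝ) {n : ℕ} (x : Fin n → Pt) : En φ (mk x) = energy φ x := by
  rw [mk, En_map, energy]
  set f : Fin n × Fin n → ℝ := fun p => φ (dist (x p.1) (x p.2)) with hf
  have h1 : ∑ p : {p : Fin n × Fin n // p.1 < p.2}, φ (dist (x p.1.1) (x p.1.2)) =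
      ∑ i, ∑ j, if i < j then f (i, j) else 0 := by
    rw [← Finset.sum_product' (f := fun i j => if i < j then f (i, j) else 0), ← Finset.sum_filter]
    exact (Finset.sum_subtype (p := fun p : Fin n × Fin n => p.1 < p.2) _ (by simp) f).symm
  have h2 : ∑ i, ∑ j, (if j < i then f (i, j) else 0) = ∑ i, ∑ j, if i < j then f (i, j) else 0 := by
    rw [Finset.sum_comm]; simp only [hf, dist_comm]
  have h3 : ∑ i, ∑ j ∈ Finset.univ.erase i, φ (dist (x i) (x j)) =
      ∑ i, ∑ j, (if j < i then f (i, j) else 0) + ∑ i, ∑ j, if i < j then f (i, j) else 0 := by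
    rw [← Finset.sum_add_distrib]
    refine Finset.sum_congr rfl fun i _ => ?_
    rw [← Finset.sum_add_distrib, ← Finset.filter_ne', Finset.sum_filter]
    refine Finset.sum_congr rfl fun j _ => ?_
    rcases lt_trichotomy i j with h | h | h
    · simp [h, h.ne', h.le, hf]
    · simp [h]
    · simp [h, h.ne, h.le, hf]
  rw [h1, h3, h2]; ring

theorem PS_mono {g g' : Pt → Pt → ℝ} {s t : Cfg} (h : ∀ a ∈ s, ∀ b ∈ t, g a b ≤ g' a b) :
    PS g s t ≤ PS g' s t := 
  Multiset.sum_map_le_sum_map _ _ fun a ha => Multiset.sum_map_le_sum_map _ _ fun b hb => h a ha b hb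
theorem PS_congr {g g' : Pt → Pt → ℝ} {s t : Cfg} (h : ∀ a ∈ s, ∀ b ∈ t, g a b = g' a b) :
    PS g s t = PS g' s t := 
  le_antisymm (PS_mono fun a ha b hb => (h a ha b hb).le) (PS_mono fun a ha b hb => (h a ha b hb).ge)
theorem PS_add (g g' : Pt → Pt → ℝ) (s t : Cfg) :
    PS (fun a b => g a b + g' a b) s t = PS g s t + PS g' s t := by
  simp only [PS, Multiset.sum_map_add]
theorem PS_mul (c : ℝ) (g : Pt → Pt → ℝ) (s t : Cfg) :
    PS (fun a b => c * g a b) s t = c * PS g s t := by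
  simp only [PS, Multiset.sum_map_mul_left]
theorem PS_const (c : ℝ) (s t : Cfg) : PS (fun _ _ => c) s t = c * s.card * t.card := by
  simp [PS]; ring
theorem PS_sum_fun {κ : Type} (Q : Finset κ) (g : κ → Pt → Pt → ℝ) (s t : Cfg) :
    PS (fun a b => ∑ q ∈ Q, g q a b) s t = ∑ q ∈ Q, PS (g q) s t := by
  classical
  induction Q using Finset.induction_on with
  | empty => simp [PS]
  | insert q Q hq ih => simp only [Finset.sum_insert hq]; rw [PS_add, ih]
theorem PS_add_left (g : Pt → Pt → ℝ) (s s' t : Cfg) :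
    PS g (s + s') t = PS g s t + PS g s' t := by simp [PS]
theorem PS_add_right (g : Pt → Pt → ℝ) (s t t' : Cfg) :
    PS g s (t + t') = PS g s t + PS g s t' := by simp [PS]
theorem PS_sum_left {κ : Type} (Q : Finset κ) (g : Pt → Pt → ℝ) (s : κ → Cfg) (t : Cfg) :
    PS g (∑ q ∈ Q, s q) t = ∑ q ∈ Q, PS g (s q) t := by
  classical
  induction Q using Finset.induction_on with
  | empty => simp [PS]
  | insert q Q hq ih => simp only [Finset.sum_insert hq]; rw [PS_add_left, ih]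
theorem PS_sum_right {κ : Type} (Q : Finset κ) (g : Pt → Pt → ℝ) (s : Cfg) (t : κ → Cfg) :
    PS g s (∑ q ∈ Q, t q) = ∑ q ∈ Q, PS g s (t q) := by
  classical
  induction Q using Finset.induction_on with
  | empty => simp [PS]
  | insert q Q hq ih => simp only [Finset.sum_insert hq]; rw [PS_add_right, ih]
theorem PS_sum {κ : Type} (Q : Finset κ) (g : Pt → Pt → ℝ) (s t : κ → Cfg) :
    PS g (∑ q ∈ Q, s q) (∑ q ∈ Q, t q) = ∑ q ∈ Q, ∑ q' ∈ Q, PS g (s q) (t q') := by
  rw [PS_sum_left]; simp only [PS_sum_right]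
theorem PS_hasSum {g : ℕ → Pt → Pt → ℝ} {G : Pt → Pt → ℝ}
    (h : ∀ a b, HasSum (fun j => g j a b) (G a b)) (s t : Cfg) :
    HasSum (fun j => PS (g j) s t) (PS G s t) := by
  obtain ⟨x, hx⟩ := exists_mk s
  obtain ⟨y, hy⟩ := exists_mk t
  rw [← hx, ← hy]
  simp only [mk, PS_map]
  exact hasSum_sum fun i _ => hasSum_sum fun j _ => h _ _

theorem En_zero (φ : ℝ → ℝ) : En φ 0 = 0 := by simp [En, PS]
theorem En_singleton (φ : ℝ → ℝ) (a : Pt) : En φ {a} = 0 := by simp [En, PS]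
theorem En_lin (a b : ℝ) (φ ψ : ℝ → ℝ) (s : Cfg) :
    En (fun r => a * φ r + b * ψ r) s = a * En φ s + b * En ψ s := by
  simp only [En]; rw [PS_add, PS_mul, PS_mul]; ring
theorem En_mono {φ ψ : ℝ → ℝ} (h : ∀ r, 0 ≤ r → φ r ≤ ψ r) (s : Cfg) : En φ s ≤ En ψ s := by
  obtain ⟨x, hx⟩ := exists_mk s
  rw [← hx, mk, En_map, En_map]
  exact div_le_div_of_nonneg_right
    (Finset.sum_le_sum fun i _ => Finset.sum_le_sum fun j _ => h _ dist_nonneg) (by norm_num)
theorem En_nonneg {φ : ℝ → ℝ} (h : ∀ r, 0 ≤ r → 0 ≤ φ r) (s : Cfg) : 0 ≤ En φ s := by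
  have := En_mono (φ := fun _ => 0) (ψ := φ) h s
  simpa [En, PS] using this
theorem En_sum {κ : Type} [DecidableEq κ] (Q : Finset κ) (φ : ℝ → ℝ) (s : κ → Cfg) :
    En φ (∑ q ∈ Q, s q) = ∑ q ∈ Q, En φ (s q) +
      (∑ q ∈ Q, ∑ q' ∈ Q.erase q, PS (fun a b => φ (dist a b)) (s q) (s q')) / 2 := by
  simp only [En]
  rw [PS_sum, Multiset.card_sum, ← Finset.sum_div, Finset.sum_sub_distrib, ← add_div]
  congr 1
  have : ∀ q ∈ Q, ∑ q' ∈ Q, PS (fun a b => φ (dist a b)) (s q) (s q') =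
      ∑ q' ∈ Q.erase q, PS (fun a b => φ (dist a b)) (s q) (s q') +
        PS (fun a b => φ (dist a b)) (s q) (s q) := fun q hq => (Finset.sum_erase_add _ _ hq).symm
  rw [Finset.sum_congr rfl this, Finset.sum_add_distrib, ← Finset.sum_mul]
  push_cast; ring
theorem Qc_sum {κ : Type} (Q : Finset κ) (b c : ℝ) (s : κ → Cfg)
    (h : ∀ q ∈ Q, ∀ q' ∈ Q, q ≠ q' → ∀ x ∈ s q, ∀ y ∈ s q', cell b c x ≠ cell b c y) :
    Qc b c (∑ q ∈ Q, s q) = ∑ q ∈ Q, Qc b c (s q) := by
  simp only [Qc]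
  rw [PS_sum]
  refine Finset.sum_congr rfl fun q hq => Finset.sum_eq_single_of_mem q hq fun q' hq' hne => ?_
  rw [PS_congr (g' := fun _ _ => 0) fun x hx y hy => if_neg (h q hq q' hq' hne.symm x hx y hy),
    PS_const]
  simp

theorem card_sh (z : Pt) (s : Cfg) : (sh z s).card = s.card := by simp [sh]
theorem mem_sh {z a : Pt} {s : Cfg} : a ∈ sh z s ↔ ∃ b ∈ s, b + z = a := Multiset.mem_map
theorem En_sh (φ : ℝ → ℝ) (z : Pt) (s : Cfg) : En φ (sh z s) = En φ s := by
  simp [En, PS, sh, Multiset.map_map]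
theorem QQ_sh {z : Pt} (hz : ∀ k, ∃ m : ℤ, z k = m) (s : Cfg) : QQ (sh z s) = QQ s := by
  choose m hm using hz
  have : ∀ x : Pt, cell (1 / 2) 0 (x + z) = fun k => cell (1 / 2) 0 x k + 2 * m k := by
    intro x; funext k
    simp only [cell, PiLp.add_apply, hm]
    rw [← Int.floor_add_intCast]; congr 1; push_cast; ring
  simp only [QQ, Qc, PS, sh, Multiset.map_map, Function.comp_def, this, funext_iff, add_left_inj]
theorem card_le_Qc (b c : ℝ) (s : Cfg) : (s.card : ℝ) ≤ Qc b c s := by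
  obtain ⟨x, hx⟩ := exists_mk s
  have h1 : Qc b c s = ∑ i, ∑ j, if cell b c (x i) = cell b c (x j) then (1 : ℝ) else 0 := by
    conv_lhs => rw [← hx]
    exact PS_map _ _ _ _ _
  rw [h1]
  calc (s.card : ℝ) = ∑ _i : Fin s.card, (1 : ℝ) := by simp
    _ ≤ _ := Finset.sum_le_sum fun i _ => by
      refine le_trans ?_ (Finset.single_le_sum (f := fun j =>
        if cell b c (x i) = cell b c (x j) then (1 : ℝ) else 0)
        (fun j _ => by split_ifs <;> norm_num) (Finset.mem_univ i))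
      simp

theorem measurableSet_cube (L : ℝ) : MeasurableSet (cube L) := by
  have : cube L = ⋂ k : Fin 3, (fun x : Pt => x k) ⁻¹' Set.Icc 0 L := by
    ext x; simp [cube]
  rw [this]
  exact MeasurableSet.iInter fun k => (by fun_prop : Measurable fun x : Pt => x k) measurableSet_Icc
theorem volume_cube (L : ℝ) : volume (cube L) = ENNReal.ofReal L ^ 3 := by
  have : cube L = (WithLp.ofLp : Pt → (Fin 3 → ℝ)) ⁻¹' Set.pi Set.univ fun _ => Set.Icc 0 L := by
    ext x; simp [cube, Pi.le_def, forall_and]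
  rw [this, (PiLp.volume_preserving_ofLp (Fin 3)).measure_preimage
    (MeasurableSet.univ_pi fun _ => measurableSet_Icc).nullMeasurableSet, volume_pi_pi]
  simp
theorem measurable_cell (b c : ℝ) : Measurable (cell b c) := 
  measurable_pi_lambda _ fun k => Int.measurable_floor.comp (by fun_prop)
theorem abs_sub_le_dist (x y : Pt) (k : Fin 3) : |x k - y k| ≤ dist x y := by
  rw [← Real.dist_eq]; exact PiLp.dist_apply_le x y k
theorem dist_le_of_coord {x y : Pt} {d : ℝ} (h : ∀ k, |x k - y k| ≤ d) :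
    dist x y ≤ 7 / 4 * d := by
  have hd : 0 ≤ d := (abs_nonneg _).trans (h 0)
  rw [EuclideanSpace.dist_eq, Real.sqrt_le_iff]
  refine ⟨by positivity, ?_⟩
  have : ∀ k, dist (x k) (y k) ^ 2 ≤ d ^ 2 := fun k =>
    pow_le_pow_left₀ dist_nonneg (by rw [Real.dist_eq]; exact h k) 2
  rw [Fin.sum_univ_three]
  nlinarith [this 0, this 1, this 2, sq_nonneg d]
theorem cell_bounds {b : ℝ} (hb : 0 < b) (c : ℝ) (x : Pt) (k : Fin 3) :
    b * cell b c x k ≤ x k + c ∧ x k + c < b * (cell b c x k + 1) := by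
  have h1 := Int.floor_le ((x k + c) / b)
  have h2 := Int.lt_floor_add_one ((x k + c) / b)
  rw [le_div_iff₀ hb] at h1
  rw [div_lt_iff₀ hb] at h2
  simp only [cell]
  constructor <;> linarith
theorem sub_corner_mem {b : ℝ} (hb : 0 < b) (c : ℝ) (x : Pt) :
    x - corner b c (cell b c x) ∈ cube b := by
  intro k
  have := cell_bounds hb c x k
  simp only [corner, PiLp.sub_apply]
  constructor <;> linarith [this.1, this.2]
theorem dist_le_of_cell {b : ℝ} (hb : 0 < b) {c : ℝ} {x y : Pt} (h : cell b c x = cell b c y) :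
    dist x y ≤ 7 / 4 * b := by
  refine dist_le_of_coord fun k => ?_
  have h1 := cell_bounds hb c x k
  have h2 := cell_bounds hb c y k
  rw [h] at h1
  rw [abs_le]; constructor <;> linarith [h1.1, h1.2, h2.1, h2.2]
theorem abs_cell_sub_le {b : ℝ} (hb : 0 < b) (c : ℝ) (x y : Pt) (k : Fin 3) :
    (|cell b c x k - cell b c y k| : ℝ) ≤ |x k - y k| / b + 1 := by
  have h1 := cell_bounds hb c x k
  have h2 := cell_bounds hb c y k
  rw [div_add_one hb.ne', le_div_iff₀ hb, ← abs_of_pos hb, ← abs_mul, abs_of_pos hb, abs_le]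
  have h3 := le_abs_self (x k - y k)
  have h4 := neg_abs_le (x k - y k)
  constructor <;> linarith [h1.1, h1.2, h2.1, h2.2]
theorem cell_mem_box {b c L : ℝ} (hb : 0 < b) (hc : 0 ≤ c) (hcb : c ≤ b) {x : Pt}
    (hx : x ∈ cube L) :
    cell b c x ∈ Fintype.piFinset fun _ : Fin 3 => Finset.Ico (0 : ℤ) ((⌊L / b⌋₊ + 2 : ℕ) : ℤ) :=
  by
  rw [Fintype.mem_piFinset]
  intro k
  obtain ⟨h0, h1⟩ := hx k
  rw [Finset.mem_Ico]
  refine ⟨Int.floor_nonneg.2 (by positivity), ?_⟩
  rw [cell, Int.floor_lt]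
  have h2 := Nat.lt_floor_add_one (L / b)
  have h3 : (x k + c) / b ≤ L / b + 1 := by
    rw [div_add_one hb.ne']; exact div_le_div_of_nonneg_right (by linarith) hb.le
  push_cast; linarith

/-- decomposition of a configuration along a finite partition -/
theorem sum_filter {κ : Type} [DecidableEq κ] (Q : Finset κ) (κf : Pt → κ) {s : Cfg}
    (h : ∀ a ∈ s, κf a ∈ Q) : ∑ q ∈ Q, s.filter (fun a => κf a = q) = s := by
  classical
  ext a
  rw [Multiset.count_sum']
  simp only [Multiset.count_filter]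
  rw [Finset.sum_ite_eq]
  split_ifs with hq
  · rfl
  · exact (Multiset.count_eq_zero.2 fun ha => hq (h a ha)).symm
theorem PS_same {κ : Type} [DecidableEq κ] (Q : Finset κ) (κf : Pt → κ) (g : Pt → Pt → ℝ) {s : Cfg}
    (h : ∀ a ∈ s, κf a ∈ Q) :
    PS (fun a b => if κf a = κf b then g a b else 0) s s =
      ∑ q ∈ Q, PS g (s.filter fun a => κf a = q) (s.filter fun a => κf a = q) := by
  conv_lhs => rw [← sum_filter Q κf h]
  rw [PS_sum]
  refine Finset.sum_congr rfl fun q hq => ?_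
  rw [Finset.sum_eq_single_of_mem q hq]
  · exact PS_congr fun x hx y hy =>
      if_pos ((Multiset.mem_filter.1 hx).2.trans (Multiset.mem_filter.1 hy).2.symm)
  · intro q' _ hne
    rw [PS_congr (g' := fun _ _ => 0) fun x hx y hy => if_neg (by
      rw [(Multiset.mem_filter.1 hx).2, (Multiset.mem_filter.1 hy).2]; exact hne.symm), PS_const]
    simp
theorem En_split {κ : Type} [DecidableEq κ] (Q : Finset κ) (κf : Pt → κ) (φ : ℝ → ℝ) {s : Cfg}
    (h : ∀ a ∈ s, κf a ∈ Q) :
    En φ s = ∑ q ∈ Q, En φ (s.filter fun a => κf a = q) +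
      PS (fun a b => if κf a = κf b then 0 else φ (dist a b)) s s / 2 := by
  have h1 := PS_same Q κf (fun a b => φ (dist a b)) h
  have h2 : PS (fun a b => φ (dist a b)) s s =
      PS (fun a b => if κf a = κf b then φ (dist a b) else 0) s s +
        PS (fun a b => if κf a = κf b then 0 else φ (dist a b)) s s := by
    rw [← PS_add]; exact PS_congr fun a _ b _ => by split_ifs <;> simp
  have h3 : (s.card : ℝ) = ∑ q ∈ Q, ((s.filter fun a => κf a = q).card : ℝ) := by
    have := congrArg Multiset.card (sum_filter Q κf h)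
    rw [Multiset.card_sum] at this
    exact_mod_cast this.symm
  simp only [En]
  rw [h2, h1, ← Finset.sum_div, Finset.sum_sub_distrib, ← Finset.sum_mul, ← h3]; ring

theorem off_le (κ : Pt → Fin 3 → ℤ) (d : Fin 3 → ℤ) (s : Cfg) :
    PS (fun x y => if κ x - κ y = d then 1 else 0) s s ≤
      PS (fun x y => if κ x = κ y then 1 else 0) s s := by
  classical
  set Q := (s.map κ).toFinset with hQ
  have hmem : ∀ a ∈ s, κ a ∈ Q := fun a ha =>
    Multiset.mem_toFinset.2 (Multiset.mem_map_of_mem _ ha)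
  set n : (Fin 3 → ℤ) → ℝ := fun q => ((s.filter fun a => κ a = q).card : ℝ) with hn
  have h1 : PS (fun x y => if κ x = κ y then 1 else 0) s s = ∑ q ∈ Q, n q ^ 2 := by
    rw [PS_same Q κ (fun _ _ => 1) hmem]
    exact Finset.sum_congr rfl fun q _ => by rw [PS_const]; ring
  have h2 : PS (fun x y => if κ x - κ y = d then 1 else 0) s s =
      ∑ q ∈ Q, ∑ q' ∈ Q, (if q - q' = d then 1 else 0) * n q * n q' := by
    conv_lhs => rw [← sum_filter Q κ hmem]
    rw [PS_sum]
    refine Finset.sum_congr rfl fun q _ => Finset.sum_congr rfl fun q' _ => ?_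
    rw [← PS_const]
    exact PS_congr fun x hx y hy => by
      rw [(Multiset.mem_filter.1 hx).2, (Multiset.mem_filter.1 hy).2]
  rw [h1, h2]
  have h3 : ∑ q ∈ Q, ∑ q' ∈ Q, (if q' = q - d then n q ^ 2 / 2 else 0) ≤ ∑ q ∈ Q, n q ^ 2 / 2 :=
    Finset.sum_le_sum fun q _ => by
      rw [Finset.sum_ite_eq']; split_ifs
      · exact le_rfl
      · positivity
  have h4 : ∑ q ∈ Q, ∑ q' ∈ Q, (if q = q' + d then n q' ^ 2 / 2 else 0) ≤ ∑ q ∈ Q, n q ^ 2 / 2 := by
    rw [Finset.sum_comm]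
    exact Finset.sum_le_sum fun q _ => by
      rw [Finset.sum_ite_eq']; split_ifs
      · exact le_rfl
      · positivity
  rw [← Finset.sum_div] at h3 h4
  refine le_trans ?_ ((add_le_add h3 h4).trans (le_of_eq (by ring)))
  rw [← Finset.sum_add_distrib]
  refine Finset.sum_le_sum fun q _ => ?_
  rw [← Finset.sum_add_distrib]
  refine Finset.sum_le_sum fun q' _ => ?_
  by_cases h : q - q' = d
  · rw [if_pos h, if_pos (by rw [← h]; abel), if_pos (by rw [← h]; abel)]
    nlinarith [sq_nonneg (n q - n q')]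
  · rw [if_neg h, if_neg (fun h' => h (by rw [h']; abel)), if_neg (fun h' => h (by rw [h']; abel))]
    simp

/-- pairs in cells with a prescribed set of offsets -/
theorem nbr_le (b c : ℝ) (D : Finset (Fin 3 → ℤ)) (s : Cfg) :
    PS (fun x y => if cell b c x - cell b c y ∈ D then 1 else 0) s s ≤ D.card * Qc b c s := by
  have h1 : PS (fun x y => if cell b c x - cell b c y ∈ D then 1 else 0) s s =
      ∑ d ∈ D, PS (fun x y => if cell b c x - cell b c y = d then 1 else 0) s s := by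
    rw [← PS_sum_fun]
    exact PS_congr fun x _ y _ => by rw [Finset.sum_ite_eq]
  rw [h1]
  refine (Finset.sum_le_sum fun d _ => off_le (cell b c) d s).trans ?_
  rw [Finset.sum_const, nsmul_eq_mul]; rfl
/-- pairs at bounded distance -/
theorem near_le {b : ℝ} (hb : 0 < b) (c : ℝ) {L : ℝ} (hL : 0 ≤ L) (s : Cfg) :
    PS (fun x y => if dist x y ≤ L then 1 else 0) s s ≤ (2 * L / b + 3) ^ 3 * Qc b c s := by
  set m := ⌊L / b⌋₊ with hm
  set D := Fintype.piFinset fun _ : Fin 3 => Finset.Icc (-((m : ℤ) + 1)) (m + 1) with hD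
  have h1 := nbr_le b c D s
  have h2 : (D.card : ℝ) ≤ (2 * L / b + 3) ^ 3 := by
    have : D.card = (2 * m + 3) ^ 3 := by
      rw [hD, Fintype.card_piFinset]
      simp only [Int.card_Icc, Finset.prod_const, Finset.card_univ, Fintype.card_fin]
      congr 1; omega
    rw [this]; push_cast
    refine pow_le_pow_left₀ (by positivity) ?_ 3
    have := Nat.floor_le (show 0 ≤ L / b by positivity)
    rw [mul_div_assoc]; linarith
  have h3 : 0 ≤ Qc b c s := (Nat.cast_nonneg _).trans (card_le_Qc b c s)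
  refine le_trans (PS_mono fun x _ y _ => ?_) (h1.trans (mul_le_mul_of_nonneg_right h2 h3))
  by_cases h : dist x y ≤ L
  · rw [if_pos h, if_pos]
    rw [hD, Fintype.mem_piFinset]
    intro k
    have h4 := abs_cell_sub_le hb c x y k
    have h5 : |x k - y k| / b ≤ L / b :=
      div_le_div_of_nonneg_right ((abs_sub_le_dist x y k).trans h) hb.le
    have h6 := Nat.lt_floor_add_one (L / b)
    have h7 : (|cell b c x k - cell b c y k| : ℝ) < (m : ℝ) + 2 := by linarith
    have h8 : |cell b c x k - cell b c y k| < (m : ℤ) + 2 := by exact_mod_cast h7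
    rw [abs_lt] at h8
    simp only [Pi.sub_apply, Finset.mem_Icc]; omega
  · rw [if_neg h]; split_ifs <;> norm_num
theorem dom_of_supp {φ : ℝ → ℝ} {κ L : ℝ} (hκ : 0 ≤ κ) (hL : 0 ≤ L)
    (h1 : ∀ r, 0 ≤ r → r ≤ L → φ r ≤ κ) (h2 : ∀ r, L < r → φ r ≤ 0) :
    Dom φ (κ * (4 * L + 3) ^ 3) := by
  intro s
  have h3 := near_le (b := 1 / 2) (by norm_num) 0 hL s
  have e : 2 * L / (1 / 2) + 3 = 4 * L + 3 := by ring
  rw [e] at h3
  rw [mul_assoc]
  refine le_trans ?_ (mul_le_mul_of_nonneg_left h3 hκ)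
  rw [← PS_mul]
  refine PS_mono fun x _ y _ => ?_
  split_ifs with h
  · simpa using h1 _ dist_nonneg h
  · simpa using h2 _ (not_le.1 h)
theorem sq_card_le {L : ℝ} (hL : 0 ≤ L) {s : Cfg} (hs : In (cube L) s) :
    (s.card : ℝ) ^ 2 ≤ (4 * L + 3) ^ 3 * QQ s := by
  set m := ⌊2 * L⌋₊ with hm
  set D := Fintype.piFinset fun _ : Fin 3 => Finset.Icc (-(m : ℤ)) m with hD
  have h1 := nbr_le (1 / 2) 0 D s
  have h0 := Nat.floor_le (show 0 ≤ 2 * L by positivity)
  have h2 : (D.card : ℝ) ≤ (4 * L + 3) ^ 3 := by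
    have : D.card = (2 * m + 1) ^ 3 := by
      rw [hD, Fintype.card_piFinset]
      simp only [Int.card_Icc, Finset.prod_const, Finset.card_univ, Fintype.card_fin]
      congr 1; omega
    rw [this]; push_cast
    exact pow_le_pow_left₀ (by positivity) (by linarith) 3
  have h3 : 0 ≤ Qc (1 / 2) 0 s := (Nat.cast_nonneg _).trans (card_le_Qc _ _ s)
  refine le_trans ?_ (h1.trans (mul_le_mul_of_nonneg_right h2 h3))
  have hc : ∀ x ∈ s, ∀ k, 0 ≤ cell (1 / 2) 0 x k ∧ cell (1 / 2) 0 x k ≤ m := by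
    intro x hx k
    obtain ⟨h4, h5⟩ := hs x hx k
    refine ⟨Int.floor_nonneg.2 (by positivity), ?_⟩
    have h6 := Nat.lt_floor_add_one (2 * L)
    have : cell (1 / 2) 0 x k < m + 1 := by
      rw [cell, Int.floor_lt]; push_cast; linarith
    omega
  rw [PS_congr (g' := fun _ _ => 1) fun x hx y hy => if_pos (by
    rw [hD, Fintype.mem_piFinset]
    intro k
    have := hc x hx k
    have := hc y hy k
    simp only [Pi.sub_apply, Finset.mem_Icc]; omega), PS_const]
  exact le_of_eq (by ring)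

theorem cut_count {m : ℕ} (hm : 0 < m) {u v : ℝ} (huv : u ≤ v) :
    (((Finset.range m).filter fun j : ℕ => ⌊(u + j) / m⌋ ≠ ⌊(v + j) / m⌋).card : ℝ) ≤ v - u + 1 := by
  have hm' : (0 : ℝ) < m := by exact_mod_cast hm
  have h1 : ((Finset.range m).filter fun j : ℕ => ⌊(u + j) / m⌋ ≠ ⌊(v + j) / m⌋).card ≤
      (Finset.Ioc ⌊u⌋ ⌊v⌋).card := by
    refine Finset.card_le_card_of_injOn (fun j => m * ⌊(v + j) / m⌋ - j) (fun j hj => ?_)
      (fun j hj j' hj' h => ?_)
    · have hne := (Finset.mem_filter.1 hj).2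
      have hle : ⌊(u + j) / m⌋ ≤ ⌊(v + j) / m⌋ :=
        Int.floor_le_floor (div_le_div_of_nonneg_right (by linarith) hm'.le)
      have h2 : (u + j) / m < (⌊(v + j) / m⌋ : ℤ) := Int.floor_lt.1 (lt_of_le_of_ne hle hne)
      have h3 := Int.floor_le ((v + j) / m)
      rw [div_lt_iff₀ hm'] at h2
      rw [le_div_iff₀ hm'] at h3
      simp only [Finset.coe_Ioc, Set.mem_Ioc]
      constructor
      · rw [Int.floor_lt]; push_cast; linarith
      · rw [Int.le_floor]; push_cast; linarith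
    · have h2 := Finset.mem_range.1 (Finset.mem_filter.1 hj).1
      have h3 := Finset.mem_range.1 (Finset.mem_filter.1 hj').1
      have h4 : (m : ℤ) ∣ (j : ℤ) - j' := ⟨⌊(v + j) / m⌋ - ⌊(v + j') / m⌋, by
        simp only at h; linarith⟩
      have h5 := Int.eq_zero_of_abs_lt_dvd h4 (by rw [abs_lt]; omega)
      omega
  have h2 : ((Finset.Ioc ⌊u⌋ ⌊v⌋).card : ℝ) = ⌊v⌋ - ⌊u⌋ := by
    have := Int.card_Ioc_of_le ⌊u⌋ ⌊v⌋ (Int.floor_le_floor huv)
    exact_mod_cast this
  have h3 : (((Finset.range m).filter fun j : ℕ => ⌊(u + j) / m⌋ ≠ ⌊(v + j) / m⌋).card : ℝ) ≤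
      (Finset.Ioc ⌊u⌋ ⌊v⌋).card := by exact_mod_cast h1
  linarith [Int.floor_le v, Int.lt_floor_add_one u]

theorem cut_count' {m : ℕ} (hm : 0 < m) (u v : ℝ) :
    ∑ j ∈ Finset.range m, (if ⌊(u + j) / m⌋ = ⌊(v + j) / m⌋ then (0 : ℝ) else 1) ≤ |u - v| + 1 := by
  have e : ∀ u v : ℝ, ∑ j ∈ Finset.range m, (if ⌊(u + j) / m⌋ = ⌊(v + j) / m⌋ then (0 : ℝ) else 1) =
      (((Finset.range m).filter fun j : ℕ => ⌊(u + j) / m⌋ ≠ ⌊(v + j) / m⌋).card : ℝ) := by
    intro u v
    rw [Finset.card_filter]; push_cast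
    exact Finset.sum_congr rfl fun j _ => by split_ifs <;> simp_all
  rcases le_total u v with h | h
  · rw [e, abs_sub_comm, abs_of_nonneg (sub_nonneg.2 h)]; exact cut_count hm h
  · simp only [eq_comm (a := ⌊(u + _) / (m : ℝ)⌋)]
    rw [e, abs_of_nonneg (sub_nonneg.2 h)]; exact cut_count hm h

/-- averaging over the shifts of a grid -/
theorem exists_shift {m : ℕ} (hm : 0 < m) {h : ℝ} (hh : 0 < h) (g : Pt → Pt → ℝ)
    (hg : ∀ x y, 0 ≤ g x y) (s : Cfg) : ∃ j < m,
    PS (fun x y => if cell (m * h) (j * h) x = cell (m * h) (j * h) y then 0 else g x y) s s ≤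
      PS (fun x y => 3 * (dist x y / h + 1) * g x y) s s / m := by
  have hm' : (0 : ℝ) < m := by exact_mod_cast hm
  have key : ∑ j ∈ Finset.range m,
      PS (fun x y => if cell (m * h) (j * h) x = cell (m * h) (j * h) y then 0 else g x y) s s ≤
      ∑ _j ∈ Finset.range m, PS (fun x y => 3 * (dist x y / h + 1) * g x y) s s / m := by
    rw [Finset.sum_const, Finset.card_range, nsmul_eq_mul, mul_div_cancel₀ _ hm'.ne', ← PS_sum_fun]
    refine PS_mono fun x _ y _ => ?_
    have hc : ∀ (j : ℕ) (x : Pt) k, cell (m * h) (j * h) x k = ⌊(x k / h + j) / m⌋ := by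
      intro j x k; rw [cell]; congr 1; field_simp
    have h1 : ∀ j ∈ Finset.range m,
        (if cell (m * h) (j * h) x = cell (m * h) (j * h) y then 0 else g x y) ≤
        (∑ k : Fin 3, if ⌊(x k / h + j) / m⌋ = ⌊(y k / h + j) / m⌋ then (0 : ℝ) else 1) * g x y := by
      intro j _
      have h0 : ∀ k : Fin 3,
          0 ≤ if ⌊(x k / h + j) / m⌋ = ⌊(y k / h + j) / m⌋ then (0 : ℝ) else 1 := fun k => by
        split_ifs <;> norm_num
      split_ifs with hne
      · exact mul_nonneg (Finset.sum_nonneg fun k _ => h0 k) (hg x y)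
      · obtain ⟨k, hk⟩ := Function.ne_iff.1 hne
        rw [hc, hc] at hk
        have := Finset.single_le_sum (fun k _ => h0 k) (Finset.mem_univ k)
        rw [if_neg hk] at this
        nlinarith [hg x y]
    refine (Finset.sum_le_sum h1).trans ?_
    rw [← Finset.sum_mul, Finset.sum_comm]
    refine mul_le_mul_of_nonneg_right ?_ (hg x y)
    have h2 : ∀ k : Fin 3, |x k / h - y k / h| + 1 ≤ dist x y / h + 1 := fun k => by
      rw [← sub_div, abs_div, abs_of_pos hh]
      exact add_le_add (div_le_div_of_nonneg_right (abs_sub_le_dist x y k) hh.le) le_rfl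
    refine (Finset.sum_le_sum fun k _ => (cut_count' hm _ _).trans (h2 k)).trans ?_
    simp [mul_add]
  obtain ⟨j, hj, h1⟩ := Finset.exists_le_of_sum_le ⟨0, Finset.mem_range.2 hm⟩ key
  exact ⟨j, Finset.mem_range.1 hj, h1⟩

end Crest.Agent.R149
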