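import Crest.Agent.R149.Upper

/-! Row 149: the inductive state and the main statement. -/

set_option autoImplicit false
open MeasureTheory Crest.ProbabilityR.Continuum Filter Topology
open scoped ENNReal BigOperators

namespace Crest.Agent.R149

namespace Mod
variable (M : Mod)

/-- the three reference phases (vacuum, `k` single points, `k` tetrahedra) in a tile -/
def Base (ρ₀ : ℝ) (t : ℕ) (Ψ : ℝ → ℝ) : Prop :=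
  ∃ k : ℕ, (k : ℝ) = ρ₀ * (t : ℝ) ^ 3 ∧ ∀ β : ℝ,
    ex (-1600 * (t : ℝ) ^ 3) ≤ M.ZG t Ψ k β ∧
    ex (-1600 * (t : ℝ) ^ 3 + 9 * (β - 1) * M.Λ * k) ≤ M.ZG t Ψ (4 * k) β

/-- the triangle constraints -/
def Tri (V n h : ℝ) : Prop :=
  h ≤ 9 * M.w * V ∧ -(M.w * V) ≤ n + 4 / 9 * h ∧ n + h / 3 ≤ (M.p + M.w) * V

/-- a mixture of canonical states that almost exhausts the restricted pressure -/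
def St (ρ₀ : ℝ) (t : ℕ) (Ψ : ℝ → ℝ) (δ m₂ β : ℝ) : Prop :=
  ∃ (I : Finset ℕ) (π F h : ℕ → ℝ) (n : ℕ → ℕ) (ν : ℝ),
    (∀ i ∈ I, 0 ≤ π i ∧ (∀ β' : ℝ, ex (F i - β' * M.Λ * h i) ≤ M.ZG t Ψ (n i) β') ∧
      M.Tri ((t : ℝ) ^ 3) (n i) (h i)) ∧
    ∑ i ∈ I, π i = 1 ∧ ∑ i ∈ I, π i * n i = 5 / 3 * ρ₀ * (t : ℝ) ^ 3 ∧
    ∑ i ∈ I, π i * h i = -3 * ρ₀ * (t : ℝ) ^ 3 ∧ |β - 1| ≤ M.τ ∧ |ν| ≤ M.τ * M.Λ ∧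
    M.Xi t Ψ β ν 0 ≤ ex (∑ i ∈ I, π i * F i +
      (3 * β * M.Λ * ρ₀ + 5 / 3 * ν * ρ₀ + δ) * (t : ℝ) ^ 3) ∧
    m₂ * ((t : ℝ) ^ 3) ^ 2 ≤ ∑ i ∈ I, π i * (n i : ℝ) ^ 2

end Mod

/-- the main statement behind S0209 and S0210 -/
def MainStmt : Prop :=
  ∃ ε p : ℝ, 0 < ε ∧ ε ≤ 1 / 10 ^ 7 ∧ 1 ≤ p ∧
    Tendsto (fun L : ℝ => (packingNumber L : ℝ) / L ^ 3) atTop (𝓝 p) ∧
    ∀ v : ℝ → ℝ, Shape ε (1 + 1 / 10 ^ 6) v → (∀ d, 0 < d → ∃ K : ℝ, ∀ r, d ≤ r → v r ≤ K) →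
      ∃ (b : ℝ) (Ψ : ℝ → ℝ), 0 < b ∧ Continuous Ψ ∧ (∀ r, 0 ≤ Ψ r) ∧ (∃ K : ℝ, ∀ r, Ψ r ≤ K) ∧
        (∃ C : ℝ, ∀ r : ℝ, 1 ≤ r → Ψ r ≤ C * r ^ (-(3 + 1 / 32 : ℝ))) ∧
        (∃ B : ℝ, ∀ s : Cfg, -B * s.card ≤ En (fun r => b * v r - Ψ r) s) ∧
        ∃ f : ℝ → ℝ → ℝ,
          (∀ ρ : ℝ, 0 < ρ → ∀ β : ℝ, 0 < β → Tendsto (fun L : ℝ => -(1 / (β * L ^ 3)) *
            Real.log (partitionFn (fun r => b * v r - Ψ r) L ⌊ρ * L ^ 3⌋₊ β)) atTop (𝓝 (f β ρ))) ∧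
          ∀ ρ : ℝ, 3 / 2 * p < ρ → ρ < 2 * p → ∃ Dl Dr : ℝ,
            HasDerivWithinAt (fun β => f β ρ) Dl (Set.Iio 1) 1 ∧
            HasDerivWithinAt (fun β => f β ρ) Dr (Set.Ioi 1) 1 ∧ Dr < Dl

end Crest.Agent.R149
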