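import Crest.Agent.R149.Tune
import Crest.Agent.R149.Kac

/-! Row 149: one step of the multiscale construction. -/

set_option autoImplicit false
open MeasureTheory Crest.ProbabilityR.Continuum Filter Topology
open scoped ENNReal BigOperators

namespace Crest.Agent.R149

theorem natCast_le_ex (n : ℕ) : (n : ℝ≥0∞) ≤ ex n := by
  rw [← ENNReal.ofReal_natCast]
  exact ENNReal.ofReal_le_ofReal (by linarith [Real.add_one_le_exp (n : ℝ)])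

theorem step_arith1 {l : ℕ} {t Λ η X : ℝ} (ht : t = l + 2) (ht1 : 1296 ≤ t) (hΛ : 8 ≤ Λ)
    (hη0 : 0 ≤ η) (hη : 300 * η ≤ Λ / 8) (hX0 : 0 ≤ X) (hX : X ≤ Λ / 4 * t ^ 3) :
    l + ((⌊(t ^ 2 - 2) / l⌋₊ : ℝ) + 2) ^ 3 * (1 + 300 * η * t ^ 3 + X) ≤
      t ^ 3 * (X - t ^ 2) + (300 * η + (7 * Λ + 3) / t) * (t ^ 2) ^ 3 := by
  have hl0 : (0 : ℝ) < l := by linarith
  have c1 : ((⌊(t ^ 2 - 2) / l⌋₊ : ℝ) + 2) ^ 3 ≤ t ^ 3 + 13 * t ^ 2 := by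
    have c2 : ⌊(t ^ 2 - 2) / l⌋₊ < l + 5 := by
      rw [Nat.floor_lt (div_nonneg (by nlinarith) hl0.le), div_lt_iff₀ hl0]
      push_cast; rw [ht]; nlinarith
    have c3 : (⌊(t ^ 2 - 2) / l⌋₊ : ℝ) + 2 ≤ t + 4 := by
      have : (⌊(t ^ 2 - 2) / l⌋₊ : ℝ) ≤ (l + 4 : ℕ) := by exact_mod_cast Nat.lt_succ_iff.1 c2
      push_cast at this; linarith
    exact (pow_le_pow_left₀ (by positivity) c3 3).trans (by nlinarith)
  have c4 : 1 ≤ t ^ 3 := one_le_pow₀ (by linarith)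
  have c2 : 1 + 300 * η * t ^ 3 + X ≤ Λ / 2 * t ^ 3 := by nlinarith
  have c3 := mul_le_mul_of_nonneg_right c1 (by positivity : 0 ≤ 1 + 300 * η * t ^ 3 + X)
  have c4 := mul_le_mul_of_nonneg_left c2 (by positivity : 0 ≤ 13 * t ^ 2)
  have c8 : (7 * Λ + 3) / t * (t ^ 2) ^ 3 = (7 * Λ + 3) * t ^ 5 := by field_simp
  have c9 : t ≤ t ^ 5 := le_self_pow₀ (by linarith) (by norm_num)
  have c10 : t ^ 3 ≤ t ^ 5 := pow_le_pow_right₀ (by linarith) (by norm_num)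
  have c11 : 0 ≤ Λ * t ^ 5 := by positivity
  linarith

theorem step_arith2 {a u t n : ℝ} (ha : 0 ≤ a) (hu : 36 ≤ u) (ht : u ^ 2 = t) (hn : 0 ≤ n)
    (d1 : n ≤ 40 * t ^ 3) :
    a / t ^ 3 * n ^ 2 - 3600000 * a / u * t ^ 3 ≤ a / t ^ 3 * (n ^ 2 * (1 - 2233 / u) - n) := by
  have ht1 : u ≤ t := by nlinarith
  have ht0 : 0 < t := by linarith
  have d2 : n ^ 2 ≤ (40 * t ^ 3) ^ 2 := pow_le_pow_left₀ hn d1 2
  have d3 : u ≤ t ^ 3 := ht1.trans (le_self_pow₀ (by linarith) (by norm_num))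
  have d4 : n ^ 2 * (2233 / u) + n ≤ 3600000 / u * (t ^ 3) ^ 2 := by
    rw [div_mul_eq_mul_div, le_div_iff₀ (by linarith), add_mul, mul_assoc,
      div_mul_cancel₀ _ (by linarith)]
    nlinarith [mul_le_mul d1 d3 (by linarith) (by positivity)]
  have d5 := mul_le_mul_of_nonneg_left d4 (by positivity : 0 ≤ a / t ^ 3)
  have d6 : a / t ^ 3 * (3600000 / u * (t ^ 3) ^ 2) = 3600000 * a / u * t ^ 3 := by
    field_simp
  linarith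

namespace Mod
variable (M : Mod)

theorem avg_le {t : ℕ} {Ψ : ℝ → ℝ} {I : Finset ℕ} {π F h : ℕ → ℝ} {n : ℕ → ℕ} {β ν g U : ℝ}
    (h1 : ∀ i ∈ I, 0 ≤ π i ∧ (∀ β' : ℝ, ex (F i - β' * M.Λ * h i) ≤ M.ZG t Ψ (n i) β') ∧
      M.Tri ((t : ℝ) ^ 3) (n i) (h i)) (h2 : ∑ i ∈ I, π i = 1) (h3 : M.Xi t Ψ β ν g ≤ ex U) :
    ν * ∑ i ∈ I, π i * n i + g * ∑ i ∈ I, π i * (n i : ℝ) ^ 2 +
      (∑ i ∈ I, π i * F i - β * M.Λ * ∑ i ∈ I, π i * h i) ≤ U := by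
  have h4 := Finset.sum_le_sum fun i hi => mul_le_mul_of_nonneg_left
    (ex_le_ex.1 ((M.term_le_Xi t Ψ β ν g (n i) ((h1 i hi).2.1 β)).trans h3)) (h1 i hi).1
  rw [← Finset.sum_mul, h2, one_mul] at h4
  refine le_trans (le_of_eq ?_) h4
  simp only [Finset.mul_sum, ← Finset.sum_add_distrib, ← Finset.sum_sub_distrib]
  exact Finset.sum_congr rfl fun i _ => by ring

theorem upper' {l : ℕ} (hl : 1 ≤ l) (L : ℝ) {Ψ Ψ' : ℝ → ℝ} (hΨ : Measurable Ψ)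
    (h0 : ∀ r, 0 ≤ r → 0 ≤ Ψ r) {A Mo A' g η β ν X : ℝ} (hA : Dom Ψ A)
    (hMo : Dom (fun r => 3 * (r + 1) * Ψ r) Mo) (hg : 0 ≤ g) (hη0 : 0 ≤ η)
    (hΨ' : ∀ (j : ℕ) (s : Cfg), En Ψ' s ≤ g * Qc l j s + A' * QQ s)
    (hη : A' + (Mo + 6174 * M.Λ) / (2 * l) ≤ η)
    (ha : A / 2 + g * (4 * (l + 2)) ^ 3 + η ≤ M.τ * M.Λ)
    (hβ : |β - 1| ≤ M.τ) (hν : |ν| ≤ M.τ * M.Λ) (hX : M.Xi (l + 2) Ψ β ν g ≤ ex X) :
    (LP (cube L) fun s =>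
      ex (-β * M.Λ * En M.v s + En (fun r => Ψ r + Ψ' r) s + ν * s.card)) ≤
      ex (l + (⌊L / l⌋₊ + 2) ^ 3 * (1 + 300 * η * (l + 2) ^ 3 + X)) := by
  refine (M.upper hl L hΨ h0 hA hMo hg hη0 hΨ' hη ha hβ hν).trans ?_
  have h2 : (2 : ℝ≥0∞) ≤ ex 1 := by
    rw [← ENNReal.ofReal_ofNat]
    exact ENNReal.ofReal_le_ofReal (by linarith [Real.add_one_le_exp (1 : ℝ)])
  refine (mul_le_mul' (natCast_le_ex l) (pow_le_pow_left'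
    (mul_le_mul' (mul_le_mul_left h2 _) hX) _)).trans (le_of_eq ?_)
  rw [← ex_add, ← ex_add, ← ex_nat_mul, ← ex_add]
  push_cast; rfl

theorem Xi_le_LP (t : ℕ) (Ψ : ℝ → ℝ) (β ν : ℝ) : M.Xi t Ψ β ν 0 ≤ LP (cube ((t : ℝ) - 2))
    fun s => ex (-β * M.Λ * En M.v s + En Ψ s + ν * s.card) := by
  refine LP_mono (measurableSet_cube _) subset_rfl fun s _ => ?_
  rw [wt]
  split_ifs
  · rw [← ex_add]; exact le_of_eq (by congr 1; ring)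
  · simp

theorem tri_le {V n h : ℝ} (hV : 0 ≤ V) (H : M.Tri V n h) : n ≤ 40 * V := by
  have h1 := mul_le_of_le_one_left hV M.w1
  have h2 := mul_le_mul_of_nonneg_right M.p8 hV
  obtain ⟨-, h3, h4⟩ := H
  linarith

theorem tri_mul {V n h c : ℝ} (hc : 0 ≤ c) (H : M.Tri V n h) : M.Tri (c * V) (c * n) (c * h) := by
  obtain ⟨h1, h2, h3⟩ := H
  exact ⟨by linarith [mul_le_mul_of_nonneg_left h1 hc],
    by linarith [mul_le_mul_of_nonneg_left h2 hc], by linarith [mul_le_mul_of_nonneg_left h3 hc]⟩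

theorem K_le {σ : ℝ} (hσ : σ ≤ M.τ) : CR M.R + 1300 * (162 / M.R + σ) * M.Λ ≤ M.Λ / 4 := by
  have h1 := M.hθ; have h2 := M.hC; have h3 := M.w1; have h4 := M.Λ8
  have h5 : 1300 * (162 / M.R + σ) ≤ 1 / 8 := by linarith
  nlinarith

theorem base_step {ρ₀ : ℝ} {t m : ℕ} (ht : 2 ≤ t) {Ψ Ψ' : ℝ → ℝ} (hΨ : Measurable Ψ)
    (h0 : ∀ r, 0 ≤ r → 0 ≤ Ψ r) (h0' : ∀ r, 0 ≤ r → 0 ≤ Ψ' r) (hB : M.Base ρ₀ t Ψ) :
    M.Base ρ₀ (m * t) fun r => Ψ r + Ψ' r := by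
  obtain ⟨k, hk, hB⟩ := hB
  have key : ∀ (n : ℕ) (β F : ℝ), ex F ≤ M.ZG t Ψ n β →
      ex ((m ^ 3 : ℕ) * F) ≤ M.ZG (m * t) (fun r => Ψ r + Ψ' r) (m ^ 3 * n) β := fun n β F h => by
    have := M.lower (m := m) (n := n) ht hΨ h0 (W := 0) (β := β) fun s _ => En_nonneg h0' _
    rw [ex_zero, one_mul] at this
    rw [ex_nat_mul]
    exact (pow_le_pow_left' h _).trans this
  refine ⟨m ^ 3 * k, by push_cast; rw [hk]; ring, fun β => ⟨?_, ?_⟩⟩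
  · exact le_trans (le_of_eq (by congr 1; push_cast; ring)) (key _ _ _ (hB β).1)
  · rw [mul_left_comm]
    exact le_trans (le_of_eq (by congr 1; push_cast; ring)) (key _ _ _ (hB β).2)

theorem step {ρ₀ σ : ℝ} {u : ℕ} (hu : 36 ≤ u) {Ψ : ℝ → ℝ} (hΨ : Measurable Ψ)
    (h0 : ∀ r, 0 ≤ r → 0 ≤ Ψ r) {A Mo a η δ m₂ β₀ : ℝ} (hA : Dom Ψ A)
    (hMo : Dom (fun r => 3 * (r + 1) * Ψ r) Mo) (hMo0 : 0 ≤ Mo) (ha : 0 < a) (hσ0 : 0 ≤ σ)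
    (hσ : σ ≤ M.τ) (hb1 : A / 2 + 64 * a ≤ σ * M.Λ) (hη : (Mo + 6174 * M.Λ) / u ^ 2 ≤ η)
    (hA0 : 0 ≤ A) (hb2 : A / 2 + 64 * a + η ≤ M.τ * M.Λ)
    (hρ : CR M.R + 1300 * (162 / M.R + σ) * M.Λ + 1600 < ρ₀ * M.τ * M.Λ / 3)
    (hB : M.Base ρ₀ (u ^ 2) Ψ) (hS : M.St ρ₀ (u ^ 2) Ψ δ m₂ β₀) :
    ∃ κ L β : ℝ, 0 ≤ κ ∧ κ * (u ^ 3) ^ 3 ≤ 2 * a ∧ L + 1 ≤ 6 * u ^ 3 ∧
      Dom (kac κ L) (31250 * a) ∧ Dom (fun r => 3 * (r + 1) * kac κ L r) (656250 * a * u ^ 3) ∧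
      M.Base ρ₀ ((u ^ 2) ^ 2) (fun r => Ψ r + kac κ L r) ∧
      M.St ρ₀ ((u ^ 2) ^ 2) (fun r => Ψ r + kac κ L r)
        (300 * η + (7 * M.Λ + 3) / u ^ 2 + 3600000 * a / u) (m₂ - (δ + 1 / u ^ 2) / a) β := by
  have hΛ := M.Λ8
  have hτ := M.τ0
  have hτ1 := M.τ1
  have hu2 : 36 * u ≤ u ^ 2 := by nlinarith
  obtain ⟨l, hl⟩ : ∃ l, u ^ 2 = l + 2 := ⟨u ^ 2 - 2, by omega⟩
  have hu' : (36 : ℝ) ≤ u := by exact_mod_cast hu
  have hl' : (u : ℝ) ^ 2 = l + 2 := by exact_mod_cast hl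
  obtain ⟨κ, L, hκ, k1, k2, k3, k4, k5, k6⟩ := exists_kac hu (by omega : 12 * u ≤ l) ha.le
  have hu3 : (u : ℝ) * (l + 2) = u ^ 3 := by rw [← hl']; ring
  rw [hu3] at k1 k2 k4
  rw [hl'] at hη k6 ⊢
  rw [hl] at hB hS k6 ⊢
  obtain ⟨t, ht⟩ : ∃ t : ℝ, t = l + 2 := ⟨_, rfl⟩
  have ht' : ((l + 2 : ℕ) : ℝ) = t := by rw [ht]; push_cast; rfl
  have ht1 : 1296 ≤ t := by nlinarith
  have hV0 : 0 < t ^ 3 := by positivity
  rw [← ht] at hη k5 k6 ⊢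
  have hg : 0 ≤ a / t ^ 3 := by positivity
  have hg4 : a / t ^ 3 * (4 * t) ^ 3 = 64 * a := by field_simp; norm_num
  have hη0 : 0 ≤ η := le_trans (by positivity) hη
  obtain ⟨I, π, F, h, β, ν, g1, g2, g3, g4, hβ, hν, g5⟩ := M.gibbs (by omega) hΨ (h0 0 le_rfl) hA
    hg hB (M.Xi_le (by omega) (h0 0 le_rfl) hA hg hσ (by simpa using hσ0)
      (by simp only [abs_zero]; positivity) (by rwa [ht', hg4])) hρ
  obtain ⟨I₀, π₀, F₀, h₀, n₀, ν₀, s1, s2, s3, s4, -, -, s5, s6⟩ := hS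
  have a1 := M.avg_le s1 s2 g5
  have a2 := M.avg_le (n := fun i => i) g1 g2 s5
  have hX := M.Xi_le (t := l + 2) (by omega) (h0 0 le_rfl) hA hg le_rfl hβ hν
    (by rw [ht', hg4]; linarith)
  rw [s3, s4] at a1
  rw [g3, g4] at a2
  rw [ht'] at g1 g3 g4 g5 s5 s6 a1 a2 hX
  have hkn := fun r (_ : 0 ≤ r) => kac_nonneg hκ L r
  refine ⟨κ, L, β, hκ, k1, k2, k3, k4, ?_, I, π, fun n => t ^ 3 * (a / t ^ 3 *
    (n ^ 2 * (1 - 2233 / u) - n)) + t ^ 3 * F n, fun n => t ^ 3 * h n,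
    fun n => (l + 2) ^ 3 * n, ν, fun n hn => ⟨(g1 n hn).1, fun β' => ?_, ?_⟩, g2, ?_, ?_, hβ, hν,
    ?_, ?_⟩
  · rw [sq]; exact M.base_step (by omega) hΨ h0 hkn hB
  · have := M.lower (t := l + 2) (m := l + 2) (n := n) (by omega) hΨ h0 (β := β')
      (Ψ' := kac κ L) (k6 n)
    rw [sq (l + 2)]
    refine le_trans ?_ ((mul_le_mul_right (pow_le_pow_left' ((g1 n hn).2.1 β') _) _).trans this)
    rw [← ex_nat_mul, ← ex_add, Nat.cast_pow, ht']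
    exact le_of_eq (by congr 1; ring)
  · have := M.tri_mul hV0.le (g1 n hn).2.2
    rw [Nat.cast_mul, Nat.cast_pow, Nat.cast_pow, ht']
    convert this using 1; ring
  · simp only [Nat.cast_mul, Nat.cast_pow, ht', mul_left_comm _ (t ^ 3), ← Finset.mul_sum, g3]
    ring
  · simp only [Nat.cast_pow, ht', mul_left_comm _ (t ^ 3), ← Finset.mul_sum, g4]
    ring
  · have hl0 : (0 : ℝ) < l := by linarith
    have hXm := (Monotone.map_min (f := ex) fun _ _ => ex_le_ex.2).ge.trans' (le_min g5 hX)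
    have hX0 := ex_le_ex.1 (ex_zero.trans_le ((M.one_le_Xi _ _ _ _ _).trans hXm))
    obtain ⟨X, hXd⟩ : ∃ X, X = min (∑ n ∈ I, π n * F n + a / t ^ 3 * ∑ n ∈ I, π n * (n : ℝ) ^ 2 +
      (3 * β * M.Λ * ρ₀ + 5 / 3 * ν * ρ₀) * t ^ 3 + t ^ 2)
      ((CR M.R + 1300 * (162 / M.R + M.τ) * M.Λ) * t ^ 3) := ⟨_, rfl⟩
    rw [← hXd] at hXm hX0
    have b1 := hXd.trans_le (min_le_left _ _)
    have b2 := (hXd.trans_le (min_le_right _ _)).trans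
      (mul_le_mul_of_nonneg_right (M.K_le le_rfl) hV0.le)
    refine (M.Xi_le_LP _ _ β ν).trans ((M.upper' (by omega) _ hΨ h0 hA hMo hg hη0 (A' := 0)
      (fun j s => by rw [zero_mul, add_zero]; exact k5 j s) ?_ (by rw [← ht, hg4]; exact hb2)
      hβ hν hXm).trans (ex_le_ex.2 ?_))
    · rw [zero_add]
      exact le_trans (div_le_div_of_nonneg_left (by positivity) (by linarith) (by linarith)) hη
    rw [← ht, Nat.cast_pow, ht']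
    have c1 := step_arith1 ht ht1 hΛ hη0
      (by linarith [mul_le_mul_of_nonneg_right hτ1 (by linarith : 0 ≤ M.Λ)]) hX0 b2
    have c5 := mul_le_mul_of_nonneg_left b1 hV0.le
    have c6 : ∑ n ∈ I, π n * (t ^ 3 * (a / t ^ 3 * n ^ 2 - 3600000 * a / u * t ^ 3) +
        t ^ 3 * F n) ≤ ∑ n ∈ I, π n * (t ^ 3 * (a / t ^ 3 * (n ^ 2 * (1 - 2233 / u) - n)) +
          t ^ 3 * F n) := by
      refine Finset.sum_le_sum fun n hn => mul_le_mul_of_nonneg_left (add_le_add_left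
        (mul_le_mul_of_nonneg_left ?_ hV0.le) _) (g1 n hn).1
      exact step_arith2 ha.le hu' (hl'.trans ht.symm) (Nat.cast_nonneg n)
        (M.tri_le hV0.le (g1 n hn).2.2)
    have c7 : ∑ n ∈ I, π n * (t ^ 3 * (a / t ^ 3 * n ^ 2 - 3600000 * a / u * t ^ 3) +
        t ^ 3 * F n) = t ^ 3 * (a / t ^ 3 * ∑ n ∈ I, π n * (n : ℝ) ^ 2) -
          t ^ 3 * (3600000 * a / u * t ^ 3) * ∑ n ∈ I, π n + t ^ 3 * ∑ n ∈ I, π n * F n := by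
      simp only [Finset.mul_sum, ← Finset.sum_add_distrib, ← Finset.sum_sub_distrib]
      exact Finset.sum_congr rfl fun n _ => by ring
    rw [g2] at c7
    linarith
  · simp only [Nat.cast_mul, Nat.cast_pow, ht', mul_pow, mul_left_comm _ ((t ^ 3) ^ 2),
      ← Finset.mul_sum]
    have c1 : a / t ^ 3 * ((m₂ - (δ + 1 / t) / a) * (t ^ 3) ^ 2) =
        a / t ^ 3 * (m₂ * (t ^ 3) ^ 2) - δ * t ^ 3 - t ^ 2 := by field_simp; ring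
    have c2 := mul_le_mul_of_nonneg_left s6 hg
    have c3 : (m₂ - (δ + 1 / t) / a) * (t ^ 3) ^ 2 ≤ ∑ n ∈ I, π n * (n : ℝ) ^ 2 :=
      le_of_mul_le_mul_left (by linarith) (by positivity : 0 < a / t ^ 3)
    exact le_trans (le_of_eq (by ring))
      (mul_le_mul_of_nonneg_left c3 (by positivity : 0 ≤ (t ^ 3) ^ 2))

end Mod

end Crest.Agent.R149
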