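import Crest.Agent.R149.State

/-! Row 149: tuning temperature and chemical potential; the Gibbs mixture. -/

set_option autoImplicit false
open MeasureTheory Crest.ProbabilityR.Continuum Filter Topology
open scoped ENNReal BigOperators

namespace Crest.Agent.R149

theorem hasDerivAt_of_squeeze {f : ℝ → ℝ} {x d C r : ℝ} (hr : 0 < r)
    (h : ∀ σ, |σ| ≤ r → f x + σ * d ≤ f (x + σ) ∧ f (x + σ) ≤ f x + σ * d + C * σ ^ 2) :
    HasDerivAt f d x := by
  rw [hasDerivAt_iff_isLittleO_nhds_zero]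
  refine Asymptotics.IsBigO.trans_isLittleO (g := fun σ : ℝ => σ ^ 2)
    (Asymptotics.IsBigO.of_bound C ?_) (Asymptotics.isLittleO_pow_id one_lt_two)
  filter_upwards [Metric.closedBall_mem_nhds (0 : ℝ) hr] with σ hσ
  obtain ⟨h1, h2⟩ := h σ (by simpa using hσ)
  rw [smul_eq_mul, Real.norm_of_nonneg (by linarith), Real.norm_of_nonneg (sq_nonneg σ)]
  linarith

theorem tune (I : Finset ℕ) (z h : ℕ → ℝ → ℝ) (c : ℕ → ℝ) {Λ e r T T' : ℝ}
    (hz : ∀ n β, HasDerivAt (z n) (-Λ * h n β * z n β) β) (hT : 0 ≤ T) (hT' : 0 ≤ T')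
    (hbd : ∀ β ν : ℝ, |β - 1| ≤ T → |ν| ≤ T' → |β - 1| = T ∨ |ν| = T' →
      Real.exp (Λ * e) * ∑ n ∈ I, Real.exp (0 * n + c n) * z n 1 <
        Real.exp (β * Λ * e - ν * r) * ∑ n ∈ I, Real.exp (ν * n + c n) * z n β) :
    ∃ β ν : ℝ, |β - 1| ≤ T ∧ |ν| ≤ T' ∧
      ∑ n ∈ I, Real.exp (ν * n + c n) * z n β * (n - r) = 0 ∧
      ∑ n ∈ I, Real.exp (ν * n + c n) * z n β * (Λ * (e - h n β)) = 0 := by
  let G : ℝ × ℝ → ℝ := fun x => ∑ n ∈ I, Real.exp (x.1 * Λ * e - x.2 * r + (x.2 * n + c n)) * z n x.1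
  have hG : ∀ β ν, G (β, ν) =
      Real.exp (β * Λ * e - ν * r) * ∑ n ∈ I, Real.exp (ν * n + c n) * z n β := fun β ν => by
    simp only [G, Finset.mul_sum, Real.exp_add (_ - _), mul_assoc]
  have hzc : ∀ n, Continuous (z n) := fun n =>
    continuous_iff_continuousAt.2 fun β => (hz n β).continuousAt
  have hGc : Continuous G := by
    refine continuous_finsetSum _ fun n _ => Continuous.mul (by fun_prop) ((hzc n).comp ?_)
    exact continuous_fst
  obtain ⟨⟨β, ν⟩, ⟨h1, h2⟩, hmin⟩ := ((isCompact_closedBall (1 : ℝ) T).prod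
    (isCompact_closedBall (0 : ℝ) T')).exists_isMinOn
    ⟨(1, 0), Metric.mem_closedBall_self hT, Metric.mem_closedBall_self hT'⟩ hGc.continuousOn
  have h1' : |β - 1| ≤ T := h1
  have h2' : |ν| ≤ T' := by simpa using h2
  have h3 : G (β, ν) ≤ G (1, 0) :=
    hmin (Set.mk_mem_prod (Metric.mem_closedBall_self hT) (Metric.mem_closedBall_self hT'))
  rw [hG, hG, one_mul, zero_mul, sub_zero] at h3
  have h4 : ¬ (|β - 1| = T ∨ |ν| = T') := fun h => (hbd β ν h1' h2' h).not_ge h3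
  push Not at h4
  have hloc : IsLocalMin G (β, ν) := hmin.isLocalMin (prod_mem_nhds
    (Metric.closedBall_mem_nhds_of_mem (lt_of_le_of_ne h1' h4.1))
    (Metric.closedBall_mem_nhds_of_mem (by simpa using lt_of_le_of_ne h2' h4.2)))
  have hp := (Real.exp_pos (β * Λ * e - ν * r)).ne'
  refine ⟨β, ν, h1', h2', mul_left_cancel₀ hp ?_, mul_left_cancel₀ hp ?_⟩
  · have h5 : IsLocalMin (fun y => G (β, y)) ν :=
      IsLocalMin.comp_continuous (f := G) (g := fun y => (β, y)) hloc (by fun_prop)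
    rw [mul_zero, ← h5.hasDerivAt_eq_zero (HasDerivAt.fun_sum fun n _ =>
      (((((hasDerivAt_id' ν).mul_const r).const_sub (β * Λ * e)).fun_add
        (((hasDerivAt_id' ν).mul_const (n : ℝ)).add_const (c n))).exp.mul_const (z n β))),
      Finset.mul_sum]
    exact Finset.sum_congr rfl fun n _ => by rw [Real.exp_add (_ - _)]; ring
  · have h5 : IsLocalMin (fun y => G (y, ν)) β :=
      IsLocalMin.comp_continuous (f := G) (g := fun y => (y, ν)) hloc (by fun_prop)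
    rw [mul_zero, ← h5.hasDerivAt_eq_zero (HasDerivAt.fun_sum fun n _ =>
      ((((((hasDerivAt_id' β).mul_const Λ).mul_const e).sub_const (ν * r)).add_const
        (ν * n + c n)).exp.fun_mul (hz n β))), Finset.mul_sum]
    exact Finset.sum_congr rfl fun n _ => by rw [Real.exp_add (_ - _)]; ring

theorem entropy_le (I : Finset ℕ) {π : ℕ → ℝ} (h0 : ∀ i ∈ I, 0 < π i) (h1 : ∑ i ∈ I, π i = 1) :
    ∑ i ∈ I, π i * -Real.log (π i) ≤ Real.log I.card := by
  have hI : (0 : ℝ) < I.card := by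
    rw [Nat.cast_pos, Finset.card_pos, Finset.nonempty_iff_ne_empty]
    rintro rfl; simp at h1
  have h2 : ∀ i ∈ I, π i * -Real.log (π i) ≤ π i * Real.log I.card + ((I.card : ℝ)⁻¹ - π i) :=
    fun i hi => by
      have h3 := h0 i hi
      have h4 := Real.log_le_sub_one_of_pos (inv_pos.2 (mul_pos h3 hI))
      rw [Real.log_inv, Real.log_mul h3.ne' hI.ne'] at h4
      have h5 := mul_le_mul_of_nonneg_left h4 h3.le
      have h6 : π i * (π i * I.card)⁻¹ = (I.card : ℝ)⁻¹ := by field_simp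
      linarith
  refine (Finset.sum_le_sum h2).trans (le_of_eq ?_)
  rw [Finset.sum_add_distrib, Finset.sum_sub_distrib, ← Finset.sum_mul, h1, Finset.sum_const,
    nsmul_eq_mul, mul_inv_cancel₀ hI.ne']
  ring

namespace Mod
variable (M : Mod)

theorem good_bd {V : ℝ} (hV : 0 ≤ V) {s : Cfg} (h : M.Good V s) :
    (s.card : ℝ) ≤ 300 * V ∧ |En M.v s| ≤ 700 * V := by
  have h1 := (card_le_Qc _ _ s).trans h.1
  have h2 := mul_le_of_le_one_left hV M.w1
  exact ⟨h1, abs_le.2 ⟨by linarith [h.2.2.1], by linarith [h.2.1]⟩⟩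

theorem wt_shift (V : ℝ) (Ψ : ℝ → ℝ) (β β' : ℝ) (s : Cfg) :
    M.wt V Ψ β' s = ex (-((β' - β) * M.Λ) * En M.v s) * M.wt V Ψ β s := by
  unfold wt
  split_ifs
  · rw [← ex_add]; congr 1; ring
  · simp

theorem ZG_ne_top (t : ℕ) {Ψ : ℝ → ℝ} (h0 : 0 ≤ Ψ 0) {A : ℝ} (hA : Dom Ψ A) (n : ℕ) (β : ℝ) :
    M.ZG t Ψ n β ≠ ⊤ := by
  refine ne_top_of_le_ne_top ?_ (ZN_mono (measurableSet_cube _) subset_rfl (g := fun _ =>
    ex (|β * M.Λ| * (700 * t ^ 3) + |A / 2| * (300 * t ^ 3))) fun s _ _ => ?_)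
  · rw [ZN_const, volume_cube]
    exact ENNReal.mul_ne_top (ENNReal.mul_ne_top (by simp [Nat.factorial_ne_zero])
      (by finiteness)) (ex_ne_top _)
  · rw [wt]
    split_ifs with hg
    · rw [ex_le_ex]
      refine add_le_add ((neg_le_abs _).trans' (le_of_eq (b := -(β * M.Λ * En M.v s)) (by ring))
        |>.trans ?_) ((hA.en_le h0 s).trans
          (mul_le_mul (le_abs_self _) hg.1 (QQ_nonneg s) (abs_nonneg _)))
      rw [abs_mul]
      exact mul_le_mul_of_nonneg_left (M.good_bd (by positivity) hg).2 (abs_nonneg _)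
    · exact zero_le

theorem ZG_eq_zero {t n : ℕ} (hn : 300 * t ^ 3 < n) (Ψ : ℝ → ℝ) (β : ℝ) : M.ZG t Ψ n β = 0 := by
  refine le_antisymm ((ZN_mono (measurableSet_cube _) subset_rfl (g := fun _ => 0)
    fun s _ hs => ?_).trans (by rw [ZN_const, mul_zero])) zero_le
  rw [wt, if_neg fun hg => ?_]
  have h1 := (M.good_bd (by positivity) hg).1
  rw [hs] at h1
  exact hn.not_ge (by exact_mod_cast h1)

theorem ZG_mean (t : ℕ) {Ψ : ℝ → ℝ} (hΨ : Measurable Ψ) (h0 : 0 ≤ Ψ 0) {A : ℝ} (hA : Dom Ψ A)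
    (n : ℕ) (β : ℝ) (hZ : M.ZG t Ψ n β ≠ 0) : ∃ h : ℝ, M.Tri ((t : ℝ) ^ 3) n h ∧
      (∀ β', ex (-((β' - β) * M.Λ) * h) * M.ZG t Ψ n β ≤ M.ZG t Ψ n β') ∧
      HasDerivAt (fun β' => (M.ZG t Ψ n β').toReal) (-M.Λ * h * (M.ZG t Ψ n β).toReal) β := by
  have hΛ := M.Λ8
  set V : ℝ := (t : ℝ) ^ 3 with hV
  have hV0 : 0 ≤ V := by positivity
  obtain ⟨h, h1, h2, h3, h4⟩ := exists_mean (measurableSet_cube ((t : ℝ) - 2)) n
    (M.meas_wt V hΨ β) (measR_En M.hv.meas) (lo := -(9 / 4) * (M.w * V + n))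
    (hi := min (9 * M.w * V) (3 * ((M.p + M.w) * V - n))) (B := 700 * V + 1)
    (fun s _ hs hw => by
      have hg : M.Good V s := by
        by_contra hg
        exact hw (by simp [wt, hg])
      have h1 := hg.2.2.1
      have h2 := hg.2.2.2
      rw [hs] at h1 h2
      exact ⟨by linarith, le_min hg.2.1 (by linarith), by linarith [(M.good_bd hV0 hg).2]⟩)
    hZ (M.ZG_ne_top t h0 hA n β)
  have e : ∀ β', M.ZG t Ψ n β' = ZN (cube ((t : ℝ) - 2)) n fun s =>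
      ex (-((β' - β) * M.Λ) * En M.v s) * M.wt V Ψ β s := fun β' => by
    simp only [← wt_shift]; rfl
  rw [le_min_iff] at h2
  refine ⟨h, ⟨h2.1, by linarith, by linarith [h2.2]⟩, fun β' => (h3 _).trans (e β').ge, ?_⟩
  refine hasDerivAt_of_squeeze (r := 1 / (M.Λ * (700 * V + 1)))
    (C := (M.Λ * (700 * V + 1)) ^ 2 * (M.ZG t Ψ n β).toReal) (by positivity) fun σ hσ => ⟨?_, ?_⟩
  · have h5 := ENNReal.toReal_mono (M.ZG_ne_top t h0 hA n (β + σ)) ((h3 _).trans (e _).ge)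
    rw [ENNReal.toReal_mul, ex, ENNReal.toReal_ofReal (Real.exp_pos _).le, add_sub_cancel_left]
      at h5
    have h6 := mul_le_mul_of_nonneg_right (Real.add_one_le_exp (-(σ * M.Λ) * h))
      (ENNReal.toReal_nonneg (a := M.ZG t Ψ n β))
    exact le_trans (le_of_eq (by ring)) (h6.trans h5)
  · have h5 : |σ * M.Λ| * (700 * V + 1) ≤ 1 := by
      rw [le_div_iff₀ (by positivity)] at hσ
      rwa [abs_mul, abs_of_nonneg (by linarith : 0 ≤ M.Λ), mul_assoc]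
    have h6 := h4 _ h5
    have h7 := e (β + σ)
    rw [add_sub_cancel_left] at h7
    rw [← h7] at h6
    have h8 := ENNReal.toReal_mono (ENNReal.mul_ne_top ENNReal.ofReal_ne_top
      (M.ZG_ne_top t h0 hA n β)) h6
    have h9 : 0 ≤ 1 - σ * M.Λ * h + (σ * M.Λ) ^ 2 * (700 * V + 1) ^ 2 := by
      by_contra h9
      rw [ENNReal.ofReal_of_nonpos (le_of_not_ge h9), zero_mul, h7] at h6
      exact mul_ne_zero (ex_ne_zero _) hZ (le_antisymm ((h3 _).trans h6) zero_le)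
    rw [ENNReal.toReal_mul, ENNReal.toReal_ofReal h9] at h8
    exact h8.trans (le_of_eq (by ring))

theorem term_le_Xi (t : ℕ) (Ψ : ℝ → ℝ) (β ν g : ℝ) (n : ℕ) {F : ℝ} (h : ex F ≤ M.ZG t Ψ n β) :
    ex (ν * n + g * n ^ 2 + F) ≤ M.Xi t Ψ β ν g := by
  rw [Xi_eq, ex_add]
  exact (mul_le_mul_right h _).trans
    (ENNReal.le_tsum (f := fun n : ℕ => ex (ν * n + g * n ^ 2) * M.ZG t Ψ n β) n)

theorem Xi_sum (t : ℕ) {Ψ : ℝ → ℝ} (h0 : 0 ≤ Ψ 0) {A : ℝ} (hA : Dom Ψ A) (β ν g : ℝ) :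
    M.Xi t Ψ β ν g = ENNReal.ofReal (∑ n ∈ Finset.range (300 * t ^ 3 + 1),
      Real.exp (ν * n + g * n ^ 2) * (M.ZG t Ψ n β).toReal) := by
  rw [Xi_eq, tsum_eq_sum (s := Finset.range (300 * t ^ 3 + 1)) fun n hn => by
    rw [M.ZG_eq_zero (by simpa using hn), mul_zero],
    ENNReal.ofReal_sum_of_nonneg fun _ _ => by positivity]
  exact Finset.sum_congr rfl fun n _ => by
    rw [ENNReal.ofReal_mul (Real.exp_pos _).le, ENNReal.ofReal_toReal (M.ZG_ne_top t h0 hA n β), ex]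

theorem gibbs {ρ₀ : ℝ} {t : ℕ} (ht : 21 ≤ t) {Ψ : ℝ → ℝ} (hΨ : Measurable Ψ) (h0 : 0 ≤ Ψ 0)
    {A g K : ℝ} (hA : Dom Ψ A) (hg : 0 ≤ g) (hB : M.Base ρ₀ t Ψ)
    (hK : M.Xi t Ψ 1 0 g ≤ ex (K * t ^ 3)) (hρ : K + 1600 < ρ₀ * M.τ * M.Λ / 3) :
    ∃ (I : Finset ℕ) (π F h : ℕ → ℝ) (β ν : ℝ),
      (∀ n ∈ I, 0 ≤ π n ∧ (∀ β' : ℝ, ex (F n - β' * M.Λ * h n) ≤ M.ZG t Ψ n β') ∧
        M.Tri ((t : ℝ) ^ 3) n (h n)) ∧
      ∑ n ∈ I, π n = 1 ∧ ∑ n ∈ I, π n * n = 5 / 3 * ρ₀ * (t : ℝ) ^ 3 ∧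
      ∑ n ∈ I, π n * h n = -3 * ρ₀ * (t : ℝ) ^ 3 ∧ |β - 1| ≤ M.τ ∧ |ν| ≤ M.τ * M.Λ ∧
      M.Xi t Ψ β ν g ≤ ex (∑ n ∈ I, π n * F n + g * ∑ n ∈ I, π n * (n : ℝ) ^ 2 +
        (3 * β * M.Λ * ρ₀ + 5 / 3 * ν * ρ₀) * (t : ℝ) ^ 3 + t ^ 2) := by
  classical
  have hΛ := M.Λ8
  have hτ := M.τ0
  have ht' : (21 : ℝ) ≤ t := by exact_mod_cast ht
  set V : ℝ := (t : ℝ) ^ 3 with hV
  have hV0 : 0 < V := by positivity
  have hm : ∀ n β, ∃ h : ℝ, (M.ZG t Ψ n β ≠ 0 → M.Tri V n h ∧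
      ∀ β', ex (-((β' - β) * M.Λ) * h) * M.ZG t Ψ n β ≤ M.ZG t Ψ n β') ∧
      HasDerivAt (fun β' => (M.ZG t Ψ n β').toReal) (-M.Λ * h * (M.ZG t Ψ n β).toReal) β := by
    intro n β
    by_cases hZ : M.ZG t Ψ n β = 0
    · refine ⟨0, fun h => (h hZ).elim, ?_⟩
      have : (fun β' => (M.ZG t Ψ n β').toReal) = fun _ => 0 := funext fun β' => by
        by_cases hZ' : M.ZG t Ψ n β' = 0
        · simp [hZ']
        · obtain ⟨h, -, h1, -⟩ := M.ZG_mean t hΨ h0 hA n β' hZ'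
          exact (mul_ne_zero (ex_ne_zero _) hZ' (le_antisymm ((h1 β).trans hZ.le) zero_le)).elim
      rw [this]; simpa using hasDerivAt_const β (0 : ℝ)
    · obtain ⟨h, h1, h2, h3⟩ := M.ZG_mean t hΨ h0 hA n β hZ
      exact ⟨h, fun _ => ⟨h1, h2⟩, h3⟩
  choose h hh hd using hm
  obtain ⟨k, hk, hB⟩ := hB
  have hS : ∀ β ν, 0 ≤ ∑ n ∈ Finset.range (300 * t ^ 3 + 1),
      Real.exp (ν * n + g * n ^ 2) * (M.ZG t Ψ n β).toReal := fun β ν =>
    Finset.sum_nonneg fun _ _ => by positivity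
  obtain ⟨β, ν, hβ, hν, e1, e2⟩ := tune (Finset.range (300 * t ^ 3 + 1))
    (fun n β => (M.ZG t Ψ n β).toReal) h (fun n => g * n ^ 2) (e := -3 * k) (r := 5 / 3 * k) hd
    hτ.le (by positivity : 0 ≤ M.τ * M.Λ) fun β ν hβ hν hb => by
      have key : ∀ (n : ℕ) (F : ℝ), ex F ≤ M.ZG t Ψ n β →
          M.Λ * (-3 * k) + K * V < β * M.Λ * (-3 * k) - ν * (5 / 3 * k) + (ν * n + F) →
          Real.exp (M.Λ * (-3 * k)) * ∑ n ∈ Finset.range (300 * t ^ 3 + 1),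
            Real.exp (0 * n + g * n ^ 2) * (M.ZG t Ψ n 1).toReal <
          Real.exp (β * M.Λ * (-3 * k) - ν * (5 / 3 * k)) * ∑ n ∈ Finset.range (300 * t ^ 3 + 1),
            Real.exp (ν * n + g * n ^ 2) * (M.ZG t Ψ n β).toReal := fun n F h1 h2 => by
        have h3 := M.term_le_Xi t Ψ β ν g n h1
        rw [M.Xi_sum t h0 hA, ex, ENNReal.ofReal_le_ofReal_iff (hS _ _)] at h3
        rw [M.Xi_sum t h0 hA, ex, ENNReal.ofReal_le_ofReal_iff (Real.exp_pos _).le] at hK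
        refine (mul_le_mul_of_nonneg_left hK (Real.exp_pos _).le).trans_lt
          (lt_of_lt_of_le ?_ (mul_le_mul_of_nonneg_left h3 (Real.exp_pos _).le))
        rw [← Real.exp_add, ← Real.exp_add, Real.exp_lt_exp]
        have : 0 ≤ g * (n : ℝ) ^ 2 := by positivity
        linarith
      have h1 : (K + 1600) * V < M.τ * M.Λ / 3 * k := by
        rw [hk]; nlinarith
      have hk0 : (0 : ℝ) ≤ k := Nat.cast_nonneg k
      obtain ⟨x, hx⟩ : ∃ x, x = (β - 1) * M.Λ := ⟨_, rfl⟩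
      have hβΛ : β * M.Λ = x + M.Λ := by rw [hx]; ring
      have h2 : M.τ * M.Λ / 3 ≤ -3 * x - 5 / 3 * ν ∨ M.τ * M.Λ / 3 ≤ -3 * x - 2 / 3 * ν ∨
          M.τ * M.Λ / 3 ≤ 6 * x + 7 / 3 * ν := by
        have h3 : |x| = M.τ * M.Λ ∨ |ν| = M.τ * M.Λ := hb.imp_left fun h => by
          rw [hx, abs_mul, h, abs_of_nonneg (by linarith : 0 ≤ M.Λ)]
        have h4 : 0 < M.τ * M.Λ := by positivity
        by_contra h5
        push Not at h5
        rcases h3 with h3 | h3 <;> rcases (abs_eq h4.le).1 h3 with h3 | h3 <;>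
          linarith [h5.1, h5.2.1, h5.2.2]
      rcases h2 with h2 | h2 | h2
      · refine key 0 0 (by rw [ZG_zero, ex_zero]) ?_
        rw [hβΛ]; push_cast
        nlinarith [mul_le_mul_of_nonneg_right h2 hk0]
      · refine key k _ (hB β).1 ?_
        rw [hβΛ]
        nlinarith [mul_le_mul_of_nonneg_right h2 hk0]
      · refine key (4 * k) _ (hB β).2 ?_
        rw [hβΛ, mul_assoc 9, ← hx]; push_cast
        nlinarith [mul_le_mul_of_nonneg_right h2 hk0]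
  set w : ℕ → ℝ := fun n => Real.exp (ν * n + g * n ^ 2) * (M.ZG t Ψ n β).toReal with hw
  set I := (Finset.range (300 * t ^ 3 + 1)).filter fun n => M.ZG t Ψ n β ≠ 0 with hI
  have hsum : ∀ f : ℕ → ℝ, ∑ n ∈ I, w n * f n = ∑ n ∈ Finset.range (300 * t ^ 3 + 1), w n * f n :=
    fun f => Finset.sum_filter_of_ne fun n _ hn hZ => hn (by simp [hw, hZ])
  have hz : ∀ n ∈ I, 0 < (M.ZG t Ψ n β).toReal := fun n hn =>
    ENNReal.toReal_pos (Finset.mem_filter.1 hn).2 (M.ZG_ne_top t h0 hA n β)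
  have hw0 : ∀ n ∈ I, 0 < w n := fun n hn => mul_pos (Real.exp_pos _) (hz n hn)
  set S := ∑ n ∈ I, w n with hS'
  have hXi : M.Xi t Ψ β ν g = ENNReal.ofReal S := by
    have := hsum fun _ => 1
    simp only [mul_one] at this
    rw [M.Xi_sum t h0 hA, hS', this]
  have hS0 : 0 < S := by
    have := M.one_le_Xi t Ψ β ν g
    rw [hXi, ENNReal.one_le_ofReal] at this
    linarith
  have s1 : ∑ n ∈ I, w n / S = 1 := by rw [← Finset.sum_div, div_self hS0.ne']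
  have s2 : ∑ n ∈ I, w n / S * n = 5 / 3 * ρ₀ * V := by
    rw [← hsum fun n => n - 5 / 3 * k] at e1
    simp only [mul_sub, Finset.sum_sub_distrib, ← Finset.sum_mul] at e1
    simp only [div_mul_eq_mul_div, ← Finset.sum_div]
    rw [div_eq_iff hS0.ne', sub_eq_zero.1 e1, hk]; ring
  have s3 : ∑ n ∈ I, w n / S * h n β = -3 * ρ₀ * V := by
    rw [← hsum fun n => M.Λ * (-3 * k - h n β)] at e2
    simp only [mul_left_comm _ M.Λ, ← Finset.mul_sum, mul_eq_zero, (by linarith : M.Λ ≠ 0),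
      false_or] at e2
    simp only [mul_sub, Finset.sum_sub_distrib, ← Finset.sum_mul] at e2
    simp only [div_mul_eq_mul_div, ← Finset.sum_div]
    rw [div_eq_iff hS0.ne', ← sub_eq_zero.1 e2, hk]; ring
  refine ⟨I, fun n => w n / S, fun n => Real.log (M.ZG t Ψ n β).toReal + β * M.Λ * h n β,
    fun n => h n β, β, ν, fun n hn => ⟨(div_pos (hw0 n hn) hS0).le, fun β' => ?_,
      (hh n β (Finset.mem_filter.1 hn).2).1⟩, s1, s2, s3, hβ, hν, ?_⟩
  · refine le_trans (le_of_eq ?_) ((hh n β (Finset.mem_filter.1 hn).2).2 β')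
    conv_rhs => rw [← ex_log (Finset.mem_filter.1 hn).2 (M.ZG_ne_top t h0 hA n β), ← ex_add]
    congr 1; ring
  · refine (hXi.trans (congrArg _ (Real.exp_log hS0).symm)).trans_le (ex_le_ex.2 ?_)
    have h1 := entropy_le I (fun n hn => div_pos (hw0 n hn) hS0) s1
    have h2 : Real.log I.card ≤ t ^ 2 := by
      have h3 : (I.card : ℝ) ≤ (7 * t) ^ 3 := by
        have : I.card ≤ 300 * t ^ 3 + 1 :=
          (Finset.card_filter_le _ _).trans (Finset.card_range _).le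
        have h4 : (I.card : ℝ) ≤ 300 * V + 1 := by rw [hV]; exact_mod_cast this
        have h5 : 1 ≤ V := one_le_pow₀ (by linarith)
        rw [mul_pow]; linarith
      have h4 : (0 : ℝ) < I.card := by
        rw [Nat.cast_pos, Finset.card_pos, Finset.nonempty_iff_ne_empty]
        intro h; rw [h] at s1; simp at s1
      refine (Real.log_le_log h4 h3).trans ?_
      rw [Real.log_pow]
      have := Real.log_le_sub_one_of_pos (by positivity : (0 : ℝ) < 7 * t)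
      push_cast; nlinarith
    have h3 : ∑ n ∈ I, w n / S * -Real.log (w n / S) = ∑ n ∈ I, (w n / S * Real.log S -
        (w n / S * (Real.log (M.ZG t Ψ n β).toReal + β * M.Λ * h n β) + g * (w n / S * n ^ 2) +
          ν * (w n / S * n) - β * M.Λ * (w n / S * h n β))) :=
      Finset.sum_congr rfl fun n hn => by
        rw [Real.log_div (hw0 n hn).ne' hS0.ne', Real.log_mul (Real.exp_pos _).ne' (hz n hn).ne',
          Real.log_exp]
        ring
    rw [h3] at h1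
    simp only [Finset.sum_sub_distrib, Finset.sum_add_distrib, ← Finset.mul_sum, ← Finset.sum_mul,
      s1, s2, s3] at h1
    linarith

end Mod

end Crest.Agent.R149
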