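import Crest.Agent.R149.Conf

/-! Row 149: restricted partition functions, decoupling (upper bound) and tiling (lower bound). -/

set_option autoImplicit false
open MeasureTheory Crest.ProbabilityR.Continuum
open scoped ENNReal BigOperators

namespace Crest.Agent.R149

theorem En_add (φ ψ : ℝ → ℝ) (s : Cfg) : En (fun r => φ r + ψ r) s = En φ s + En ψ s := by
  simpa using En_lin 1 1 φ ψ s

theorem QQ_nonneg (s : Cfg) : 0 ≤ QQ s := (Nat.cast_nonneg _).trans (card_le_Qc _ _ s)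

theorem Dom.en_le {φ : ℝ → ℝ} {A : ℝ} (h : Dom φ A) (h0 : 0 ≤ φ 0) (s : Cfg) :
    En φ s ≤ A / 2 * QQ s := by
  have h1 := h s
  have h2 := mul_nonneg (Nat.cast_nonneg (α := ℝ) s.card) h0
  unfold En; linarith

theorem Dom.add {φ ψ : ℝ → ℝ} {A B : ℝ} (h : Dom φ A) (h' : Dom ψ B) :
    Dom (fun r => φ r + ψ r) (A + B) := fun s => by
  rw [PS_add (fun a b => φ (dist a b)) (fun a b => ψ (dist a b)), add_mul]
  exact add_le_add (h s) (h' s)

theorem Dom.mono {φ ψ : ℝ → ℝ} {A B : ℝ} (h : Dom φ A) (h' : ∀ r, 0 ≤ r → ψ r ≤ φ r)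
    (hAB : A ≤ B) : Dom ψ B := fun s =>
  (PS_mono fun _ _ _ _ => h' _ dist_nonneg).trans
    ((h s).trans (mul_le_mul_of_nonneg_right hAB (QQ_nonneg s)))

theorem cell_eq_of_half {l j : ℕ} (hl : 0 < l) {x y : Pt}
    (h : cell (1 / 2) 0 x = cell (1 / 2) 0 y) : cell l j x = cell l j y := by
  funext k
  have h1 : ⌊(x k + 0) / (1 / 2)⌋ = ⌊(y k + 0) / (1 / 2)⌋ := congrFun h k
  have key : ∀ u : ℝ, ⌊(u + j) / l⌋ = (⌊(u + 0) / (1 / 2)⌋ + (2 * j : ℕ)) / ((2 * l : ℕ) : ℤ) :=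
    fun u => by
      have hl' : (l : ℝ) ≠ 0 := by exact_mod_cast hl.ne'
      rw [← Int.floor_add_natCast, ← Int.floor_div_natCast]
      congr 1; push_cast; field_simp; ring
  change ⌊(x k + j) / l⌋ = ⌊(y k + j) / l⌋
  rw [key, key, h1]

/-- the cube of lattice points -/
noncomputable def box (m : ℕ) : Finset (Fin 3 → ℤ) :=
  Fintype.piFinset fun _ : Fin 3 => Finset.Ico (0 : ℤ) m

theorem card_box (m : ℕ) : (box m).card = m ^ 3 := by simp [box]

namespace Mod
variable (M : Mod)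

open Classical in
/-- restricted Boltzmann weight -/
noncomputable def wt (V : ℝ) (Ψ : ℝ → ℝ) (β : ℝ) (s : Cfg) : ℝ≥0∞ :=
  if M.Good V s then ex (-β * M.Λ * En M.v s + En Ψ s) else 0

/-- restricted canonical partition function of a tile of pitch `t` -/
noncomputable def ZG (t : ℕ) (Ψ : ℝ → ℝ) (n : ℕ) (β : ℝ) : ℝ≥0∞ :=
  ZN (cube ((t : ℝ) - 2)) n (M.wt ((t : ℝ) ^ 3) Ψ β)

/-- restricted grand canonical partition function with a quadratic term -/
noncomputable def Xi (t : ℕ) (Ψ : ℝ → ℝ) (β ν g : ℝ) : ℝ≥0∞ :=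
  LP (cube ((t : ℝ) - 2)) fun s => ex (ν * s.card + g * s.card ^ 2) * M.wt ((t : ℝ) ^ 3) Ψ β s

theorem meas_wt (V : ℝ) {Ψ : ℝ → ℝ} (hΨ : Measurable Ψ) (β : ℝ) : Meas (M.wt V Ψ β) := by
  classical
  exact Meas.ite (M.measP_good V)
    (((measR_En M.hv.meas).const_mul _).add (measR_En hΨ)).ex (meas_card fun _ => 0)

theorem wt_zero {V : ℝ} (hV : 0 ≤ V) (Ψ : ℝ → ℝ) (β : ℝ) : M.wt V Ψ β 0 = 1 := by
  simp [wt, M.good_zero hV, En_zero, ex_zero]

theorem ZG_zero (t : ℕ) (Ψ : ℝ → ℝ) (β : ℝ) : M.ZG t Ψ 0 β = 1 := by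
  rw [ZG, ZN_zero, M.wt_zero (by positivity)]

theorem Xi_eq (t : ℕ) (Ψ : ℝ → ℝ) (β ν g : ℝ) :
    M.Xi t Ψ β ν g = ∑' n : ℕ, ex (ν * n + g * n ^ 2) * M.ZG t Ψ n β := by
  refine tsum_congr fun n => ?_
  rw [ZG, ← ZN_const_mul _ _ (ex_ne_top _)]
  exact le_antisymm (ZN_mono (measurableSet_cube _) subset_rfl fun s _ h => by rw [h])
    (ZN_mono (measurableSet_cube _) subset_rfl fun s _ h => by rw [h])

theorem one_le_Xi (t : ℕ) (Ψ : ℝ → ℝ) (β ν g : ℝ) : 1 ≤ M.Xi t Ψ β ν g := by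
  rw [Xi_eq]
  refine le_trans ?_ (ENNReal.le_tsum 0)
  simp [ZG_zero, ex_zero]

theorem Xi_le {t : ℕ} (ht : 2 ≤ t) {Ψ : ℝ → ℝ} (h0 : 0 ≤ Ψ 0) {A β ν g σ : ℝ} (hA : Dom Ψ A)
    (hg : 0 ≤ g) (hσ : σ ≤ M.τ) (hβ : |β - 1| ≤ σ) (hν : |ν| ≤ σ * M.Λ)
    (ha : A / 2 + g * (4 * t) ^ 3 ≤ σ * M.Λ) :
    M.Xi t Ψ β ν g ≤ ex ((CR M.R + 1300 * (162 / M.R + σ) * M.Λ) * t ^ 3) := by
  have ht' : (0 : ℝ) ≤ (t : ℝ) - 2 := by
    have : (2 : ℝ) ≤ t := by exact_mod_cast ht
    linarith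
  have h := M.conf1 ht' hσ hβ hν ha
  rw [sub_add_cancel] at h
  refine le_trans (LP_mono (measurableSet_cube _) subset_rfl fun s hs => ?_) h
  rw [wt]
  split_ifs
  · rw [← ex_add, ex_le_ex]
    have h1 := hA.en_le h0 s
    have h2 := mul_le_mul_of_nonneg_left ((sq_card_le ht' hs).trans (mul_le_mul_of_nonneg_right
      (pow_le_pow_left₀ (by linarith) (by linarith : 4 * ((t : ℝ) - 2) + 3 ≤ 4 * t) 3)
      (QQ_nonneg s))) hg
    linarith
  · simp

theorem upper {l : ℕ} (hl : 1 ≤ l) (L : ℝ) {Ψ Ψ' : ℝ → ℝ} (hΨ : Measurable Ψ)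
    (h0 : ∀ r, 0 ≤ r → 0 ≤ Ψ r) {A Mo A' g η β ν : ℝ} (hA : Dom Ψ A)
    (hMo : Dom (fun r => 3 * (r + 1) * Ψ r) Mo) (hg : 0 ≤ g) (hη0 : 0 ≤ η)
    (hΨ' : ∀ (j : ℕ) (s : Cfg), En Ψ' s ≤ g * Qc l j s + A' * QQ s)
    (hη : A' + (Mo + 6174 * M.Λ) / (2 * l) ≤ η)
    (ha : A / 2 + g * (4 * (l + 2)) ^ 3 + η ≤ M.τ * M.Λ)
    (hβ : |β - 1| ≤ M.τ) (hν : |ν| ≤ M.τ * M.Λ) :
    (LP (cube L) fun s =>
      ex (-β * M.Λ * En M.v s + En (fun r => Ψ r + Ψ' r) s + ν * s.card)) ≤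
      l * (2 * ex (300 * η * (l + 2) ^ 3) * M.Xi (l + 2) Ψ β ν g) ^ (⌊L / l⌋₊ + 2) ^ 3 := by
  classical
  have hl0 : (0 : ℝ) < l := by exact_mod_cast hl
  have hΛ := M.Λ8
  have hτ := M.τ1
  have hβ' := abs_le.1 hβ
  let f : Cfg → ℝ≥0∞ := fun s => ex (-β * M.Λ * En M.v s + En Ψ s + ν * s.card +
    g * s.card ^ 2 + η * QQ s)
  have hf : Meas f := (((((measR_En M.hv.meas).const_mul _).add (measR_En hΨ)).add
    (measR_card fun n => ν * n)).add (measR_card fun n => g * n ^ 2)).add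
      ((measR_Qc _ _).const_mul _) |>.ex
  have hQ : ∀ j < l, ∀ x ∈ cube L, cell l j x ∈ box (⌊L / l⌋₊ + 2) := fun j hj x hx =>
    cell_mem_box hl0 (by positivity) (by exact_mod_cast hj.le) hx
  let G : ℝ → ℝ := fun r => (if r ≤ 1 then 3 * M.Λ else 0) + Ψ r
  have hG : Dom (fun r => 3 * (r + 1) * G r) (18 * M.Λ * (4 * 1 + 3) ^ 3 + Mo) := by
    have h1 := dom_of_supp (φ := fun r => 3 * (r + 1) * (if r ≤ 1 then 3 * M.Λ else 0))
      (κ := 18 * M.Λ) (L := 1) (by linarith) zero_le_one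
      (fun r _ h => by rw [if_pos h]; nlinarith) (fun r h => by rw [if_neg (not_le.2 h)]; simp)
    exact (h1.add hMo).mono (fun r _ => le_of_eq (by simp only [G]; ring)) le_rfl
  refine (cover_le hl0 (m := l) (fun j => j) (measurableSet_cube L) _ hQ hf fun s hs => ?_).trans ?_
  · obtain ⟨j, hj, h⟩ := exists_shift (m := l) hl one_pos (fun x y => G (dist x y))
      (fun x y => add_nonneg (by split_ifs <;> linarith) (h0 _ dist_nonneg)) s
    simp only [mul_one, div_one] at h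
    refine ⟨j, hj, ?_⟩
    have hq : ∀ a ∈ s, cell l j a ∈ _ := fun a ha => hQ j hj a (hs a ha)
    have hint : ∀ (q : Fin 3 → ℤ) (k : Fin 3), ∃ m : ℤ, (-corner l j q) k = m := fun q k =>
      ⟨-(l * q k - j), by simp [corner]⟩
    simp only [f, En_sh, card_sh, QQ_sh (hint _)]
    rw [← ex_sum, ex_le_ex, En_add]
    simp only [Finset.sum_add_distrib, ← Finset.mul_sum]
    have e1 := En_split _ (cell l j) M.v hq
    have e2 := En_split _ (cell l j) Ψ hq
    have e3 : ∑ q ∈ box (⌊L / l⌋₊ + 2), (((s.filter fun a => cell l j a = q).card : ℕ) : ℝ) = s.card := by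
      rw [← Nat.cast_sum, ← Multiset.card_sum, sum_filter _ _ hq]
    have e4 : ∑ q ∈ box (⌊L / l⌋₊ + 2), (((s.filter fun a => cell l j a = q).card : ℕ) : ℝ) ^ 2 = Qc l j s := by
      rw [Qc, PS_same _ (cell l j) (fun _ _ => 1) hq]
      simp only [PS_const, one_mul, sq]
    have e5 : ∑ q ∈ box (⌊L / l⌋₊ + 2), QQ (s.filter fun a => cell l j a = q) = QQ s := by
      conv_rhs => rw [← sum_filter _ _ hq]
      refine (Qc_sum _ _ _ _ fun q _ q' _ hqq x hx y hy e => hqq ?_).symm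
      rw [← (Multiset.mem_filter.1 hx).2, ← (Multiset.mem_filter.1 hy).2, cell_eq_of_half hl e]
    rw [e3, e4, e5]
    have e6 : -β * M.Λ * PS (fun a b => if cell l j a = cell l j b then 0 else M.v (dist a b)) s s +
        PS (fun a b => if cell l j a = cell l j b then 0 else Ψ (dist a b)) s s ≤
        PS (fun a b => if cell l j a = cell l j b then 0 else G (dist a b)) s s := by
      rw [← PS_mul, ← PS_add]
      refine PS_mono fun a _ b _ => ?_
      split_ifs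
      · simp
      · refine add_le_add_left ?_ _
        split_ifs with h1
        · have := M.hv.low (dist a b)
          have h2 : 0 ≤ β * M.Λ := by nlinarith
          nlinarith [mul_le_mul_of_nonneg_left this h2]
        · have := M.hv.mid (dist a b) (le_of_not_ge h1)
          have h2 : 0 ≤ β * M.Λ := by nlinarith
          nlinarith [mul_nonneg this h2]
    have e7 := div_le_div_of_nonneg_right (hG s) hl0.le
    have e8 := hΨ' j s
    have e9 := mul_le_mul_of_nonneg_right hη (QQ_nonneg s)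
    have e10 : (A' + (Mo + 6174 * M.Λ) / (2 * l)) * QQ s =
        A' * QQ s + (18 * M.Λ * (4 * 1 + 3) ^ 3 + Mo) * QQ s / l / 2 := by
      field_simp; ring
    rw [e1, e2]
    linarith
  · rw [card_box]
    refine mul_le_mul_right (pow_le_pow_left' ?_ _) _
    have hc := M.conf2 hl0.le hβ hν ha
    have e1 : (((l + 2 : ℕ) : ℝ) - 2) = l := by push_cast; ring
    have e2 : ((l + 2 : ℕ) : ℝ) = l + 2 := by push_cast; ring
    have h1 : LP (cube l) f ≤ LP (cube l) fun s => ex (300 * η * (l + 2) ^ 3) *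
        (ex (ν * s.card + g * s.card ^ 2) * M.wt ((l + 2) ^ 3) Ψ β s) +
        if M.Good ((l + 2) ^ 3) s then 0 else ex (-β * M.Λ * En M.v s + ν * s.card +
          (A / 2 + g * (4 * (l + 2)) ^ 3 + η) * QQ s) := by
      refine LP_mono (measurableSet_cube _) subset_rfl fun s hs => ?_
      rw [wt]
      split_ifs with hg'
      · rw [add_zero, ← ex_add, ← ex_add, ex_le_ex]
        have := mul_le_mul_of_nonneg_left hg'.1 hη0
        linarith
      · rw [mul_zero, mul_zero, zero_add, ex_le_ex]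
        have h1 := hA.en_le (h0 0 le_rfl) s
        have h2 := mul_le_mul_of_nonneg_left ((sq_card_le hl0.le hs).trans
          (mul_le_mul_of_nonneg_right (pow_le_pow_left₀ (by linarith)
          (by linarith : 4 * (l : ℝ) + 3 ≤ 4 * (l + 2)) 3) (QQ_nonneg s))) hg
        linarith
    rw [LP_add _ ((meas_card fun _ => _).mul ((measR_card fun n => ν * n + g * n ^ 2).ex.mul
      (M.meas_wt _ hΨ β))), LP_const_mul _ (ex_ne_top _)] at h1
    have h2 : (1 : ℝ≥0∞) ≤ ex (300 * η * (l + 2) ^ 3) * M.Xi (l + 2) Ψ β ν g :=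
      one_le_mul (by rw [← ex_zero, ex_le_ex]; positivity) (M.one_le_Xi _ _ _ _ _)
    rw [mul_assoc, two_mul]
    refine h1.trans (add_le_add (le_of_eq ?_) (hc.trans h2))
    rw [Xi, e1, e2]

end Mod

theorem far_of_ne {t : ℝ} (ht : 0 ≤ t) {q q' : Fin 3 → ℤ} (h : q ≠ q') {x y : Pt}
    (hx : x ∈ cube (t - 2)) (hy : y ∈ cube (t - 2)) :
    2 ≤ dist (x + corner t 0 q) (y + corner t 0 q') := by
  obtain ⟨k, hk⟩ := Function.ne_iff.1 h
  refine le_trans ?_ (abs_sub_le_dist _ _ k)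
  have h1 := hx k
  have h2 := hy k
  simp only [corner, PiLp.add_apply, sub_zero]
  rcases lt_or_gt_of_ne hk with h3 | h3
  · have : (q k : ℝ) + 1 ≤ q' k := by exact_mod_cast h3
    exact le_abs.2 (Or.inr (by nlinarith))
  · have : (q' k : ℝ) + 1 ≤ q k := by exact_mod_cast h3
    exact le_abs.2 (Or.inl (by nlinarith))

namespace Mod
variable (M : Mod)

theorem lower {t m n : ℕ} (ht : 2 ≤ t) {Ψ Ψ' : ℝ → ℝ} (hΨ : Measurable Ψ)
    (h0 : ∀ r, 0 ≤ r → 0 ≤ Ψ r) {W β : ℝ}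
    (hW : ∀ s : (Fin 3 → ℤ) → Cfg, (∀ q ∈ box m, In (cube ((t : ℝ) - 2)) (s q) ∧ (s q).card = n) →
      W ≤ En Ψ' (∑ q ∈ box m, sh (corner t 0 q) (s q))) :
    ex W * M.ZG t Ψ n β ^ m ^ 3 ≤ M.ZG (m * t) (fun r => Ψ r + Ψ' r) (m ^ 3 * n) β := by
  classical
  have ht0 : (0 : ℝ) ≤ t := Nat.cast_nonneg t
  have h1 := tile_le (box m) (B := cube (((m * t : ℕ) : ℝ) - 2))
    (measurableSet_cube ((t : ℝ) - 2)) (corner t 0)
    (fun q _ q' _ h x hx y hy e => by
      have := far_of_ne ht0 h hx hy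
      rw [e, dist_self] at this; linarith)
    (fun q hq x hx k => by
      have h1 := hx k
      have h2 := Finset.mem_Ico.1 (Fintype.mem_piFinset.1 hq k)
      have h3 : (0 : ℝ) ≤ q k := by exact_mod_cast h2.1
      have h4 : (q k : ℝ) + 1 ≤ m := by exact_mod_cast h2.2
      simp only [corner, PiLp.add_apply, sub_zero]
      push_cast
      constructor <;> nlinarith)
    (fun _ => n) (f := fun _ => M.wt ((t : ℝ) ^ 3) Ψ β) (fun _ => M.meas_wt _ hΨ β)
    (F := fun s => ex (-W) * M.wt (((m * t : ℕ) : ℝ) ^ 3) (fun r => Ψ r + Ψ' r) β s)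
    fun s hs => by
      by_cases hg : ∀ q ∈ box m, M.Good ((t : ℝ) ^ 3) (s q)
      swap
      · push Not at hg
        obtain ⟨q, hq, hg⟩ := hg
        rw [Finset.prod_eq_zero hq (by simp [wt, hg])]; exact zero_le
      have hfar : ∀ q ∈ box m, ∀ q' ∈ box m, q ≠ q' → ∀ x ∈ sh (corner t 0 q) (s q),
          ∀ y ∈ sh (corner t 0 q') (s q'), 2 ≤ dist x y := fun q hq q' hq' h x hx y hy => by
        obtain ⟨x', hx', rfl⟩ := mem_sh.1 hx
        obtain ⟨y', hy', rfl⟩ := mem_sh.1 hy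
        exact far_of_ne ht0 h ((hs q hq).1 x' hx') ((hs q' hq').1 y' hy')
      have hint : ∀ (q : Fin 3 → ℤ) (k : Fin 3), ∃ m : ℤ, (corner t 0 q) k = m := fun q k =>
        ⟨t * q k, by simp [corner]⟩
      have e1 : En M.v (∑ q ∈ box m, sh (corner t 0 q) (s q)) = ∑ q ∈ box m, En M.v (s q) := by
        rw [En_sum]
        simp only [En_sh]
        rw [Finset.sum_eq_zero (s := box m) (f := fun q => ∑ q' ∈ (box m).erase q, _), zero_div,
          add_zero]
        intro q hq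
        refine Finset.sum_eq_zero fun q' hq' => ?_
        rw [PS_congr (g' := fun _ _ => 0), PS_const, zero_mul, zero_mul]
        exact fun x hx y hy => M.hv.far _ (M.hr.trans (hfar q hq q' (Finset.mem_of_mem_erase hq')
          (Finset.ne_of_mem_erase hq').symm x hx y hy))
      have e2 : ∑ q ∈ box m, En Ψ (s q) ≤ En Ψ (∑ q ∈ box m, sh (corner t 0 q) (s q)) := by
        rw [En_sum]
        simp only [En_sh]
        refine le_add_of_nonneg_right (div_nonneg (Finset.sum_nonneg fun q _ =>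
          Finset.sum_nonneg fun q' _ => ?_) zero_le_two)
        have := PS_mono (g := fun _ _ => 0) (g' := fun a b => Ψ (dist a b))
          (s := sh (corner t 0 q) (s q)) (t := sh (corner t 0 q') (s q'))
          fun _ _ _ _ => h0 _ dist_nonneg
        rwa [PS_const, zero_mul, zero_mul] at this
      have e3 : QQ (∑ q ∈ box m, sh (corner t 0 q) (s q)) = ∑ q ∈ box m, QQ (s q) := by
        rw [QQ, Qc_sum _ _ _ _ fun q hq q' hq' h x hx y hy e => by
          have h1 := dist_le_of_cell (by norm_num) e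
          have h2 := hfar q hq q' hq' h x hx y hy
          linarith]
        exact Finset.sum_congr rfl fun q _ => QQ_sh (hint q) _
      have e4 : (((∑ q ∈ box m, sh (corner t 0 q) (s q)).card : ℕ) : ℝ) =
          ∑ q ∈ box m, ((s q).card : ℝ) := by
        rw [Multiset.card_sum]; simp only [card_sh]; push_cast; rfl
      have hV : ∀ c : ℝ, c * ((m * t : ℕ) : ℝ) ^ 3 = ∑ _q ∈ box m, c * (t : ℝ) ^ 3 := fun c => by
        rw [Finset.sum_const, card_box]; push_cast; ring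
      have hG : M.Good (((m * t : ℕ) : ℝ) ^ 3) (∑ q ∈ box m, sh (corner t 0 q) (s q)) := by
        refine ⟨?_, ?_, ?_, ?_⟩
        · rw [e3, hV]; exact Finset.sum_le_sum fun q hq => (hg q hq).1
        · rw [e1, hV]; exact Finset.sum_le_sum fun q hq => (hg q hq).2.1
        · rw [e1, e4, hV, ← Finset.sum_neg_distrib, Finset.mul_sum, ← Finset.sum_add_distrib]
          exact Finset.sum_le_sum fun q hq => (hg q hq).2.2.1
        · rw [e1, e4, hV, Finset.sum_div, ← Finset.sum_add_distrib]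
          exact Finset.sum_le_sum fun q hq => (hg q hq).2.2.2
      have e5 : ∏ q ∈ box m, M.wt ((t : ℝ) ^ 3) Ψ β (s q) =
          ∏ q ∈ box m, ex (-β * M.Λ * En M.v (s q) + En Ψ (s q)) :=
        Finset.prod_congr rfl fun q hq => by rw [wt, if_pos (hg q hq)]
      rw [e5, wt, if_pos hG, ← ex_sum, ← ex_add, ex_le_ex, En_add, e1, Finset.sum_add_distrib,
        ← Finset.mul_sum]
      have := hW s hs
      linarith
  rw [ZN_const_mul _ _ (ex_ne_top _), Finset.prod_const, card_box, Finset.sum_const, card_box,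
    smul_eq_mul] at h1
  refine (mul_le_mul_right h1 _).trans (le_of_eq ?_)
  rw [← mul_assoc, ← ex_add]
  simp [ex_zero, ZG]

end Mod

end Crest.Agent.R149
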